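import Vale.Agent.P165.Tree.Words

/-!
# Superadditive functions on the tree (P165, tree quotient)
-/

namespace Vale.Agent.P165.Tree

open scoped ENNReal

theorem exists_kid {v u : F2} (h : Pre v u) (hne : u ≠ v) : ∃ c ∈ kids v, Pre c u := by
  obtain ⟨r, hr⟩ := h
  cases r with
  | nil => exact absurd (FreeGroup.toWord_injective (by simpa using hr.symm)) hne
  | cons s r =>
    have hp : v.toWord ++ [s] <+: u.toWord := ⟨r, by simpa using hr⟩
    have hred : FreeGroup.IsReduced (v.toWord ++ [s]) :=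
      List.IsChain.left_of_append (l₂ := r) (by
        have := FreeGroup.isReduced_toWord (x := u)
        rw [← hr, show v.toWord ++ s :: r = (v.toWord ++ [s]) ++ r by simp] at this
        exact this)
    refine ⟨FreeGroup.mk (v.toWord ++ [s]), mem_kids.2 ⟨s, toWord_mk_of_isReduced hred⟩, ?_⟩
    rw [Pre, toWord_mk_of_isReduced hred]
    exact hp

theorem pre_kid {v c : F2} (h : c ∈ kids v) : Pre v c ∧ len c = len v + 1 := by
  obtain ⟨s, hs⟩ := mem_kids.1 h
  exact ⟨⟨[s], hs.symm⟩, by simp [len, hs]⟩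

theorem Deep.ne_one {L : ℕ} (hL : 0 < L) {v : F2} (h : Deep L v) : v ≠ 1 := by
  rintro rfl
  have := h.le_len
  simp [len] at this
  omega

theorem kids_nonempty {v : F2} (hv : v ≠ 1) : (kids v).Nonempty :=
  Finset.card_pos.1 (by rw [card_kids hv]; norm_num)

theorem ne_one_of_kid {v c : F2} (h : c ∈ kids v) : c ≠ 1 := by
  rintro rfl
  have := (pre_kid h).2
  simp [len] at this

theorem rpow_step {x y : ℝ≥0∞} {a : ℝ} (ha : 1 ≤ a) (hyx : y ≤ x) :
    x ^ a + y ^ a + ENNReal.ofReal (2 ^ (a - 1) - 1) * y ^ a ≤ (x + y) ^ a := by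
  have h1 : ∀ z : ℝ≥0∞, z ^ a = z * z ^ (a - 1) := fun z => by
    conv_lhs => rw [show a = 1 + (a - 1) by ring]
    rw [ENNReal.rpow_add_of_nonneg (x := z) (1 : ℝ) (a - 1) zero_le_one (by linarith), ENNReal.rpow_one]
  have h2 : (1 : ℝ) ≤ 2 ^ (a - 1) := Real.one_le_rpow (by norm_num) (by linarith)
  have h3 : 1 + ENNReal.ofReal (2 ^ (a - 1) - 1) = (2 : ℝ≥0∞) ^ (a - 1) := by
    rw [← ENNReal.ofReal_one, ← ENNReal.ofReal_add zero_le_one (by linarith),
      add_sub_cancel, ← ENNReal.ofReal_rpow_of_pos (by norm_num : (0 : ℝ) < 2),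
      ENNReal.ofReal_ofNat]
  have h4 : y ^ a + ENNReal.ofReal (2 ^ (a - 1) - 1) * y ^ a = y * (2 * y) ^ (a - 1) := by
    rw [← one_add_mul, h3, h1 y, ENNReal.mul_rpow_of_nonneg _ _ (by linarith : (0 : ℝ) ≤ a - 1)]
    ring
  rw [add_assoc, h4, h1 x, h1 (x + y), add_mul]
  exact add_le_add (mul_le_mul' le_rfl (ENNReal.rpow_le_rpow le_self_add (by linarith)))
    (mul_le_mul' le_rfl (ENNReal.rpow_le_rpow (by rw [two_mul]; exact add_le_add hyx le_rfl)
      (by linarith)))

theorem kids_step {a : ℝ} (ha : 1 ≤ a) {v : F2} (hv : v ≠ 1) (f : F2 → ℝ≥0∞) :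
    ENNReal.ofReal (2 ^ (a - 1) - 1) * (⨅ c : ↥(kids v), f (c : F2)) ^ a +
      ∑ c ∈ kids v, f c ^ a ≤ (∑ c ∈ kids v, f c) ^ a := by
  obtain ⟨x, y, z, hxy, hxz, hyz, he⟩ := Finset.card_eq_three.1 (card_kids hv)
  set m := ⨅ c : ↥(kids v), f (c : F2) with hm
  have hle : ∀ c, c ∈ kids v → m ≤ f c := fun c hc => iInf_le_of_le ⟨c, hc⟩ le_rfl
  set K := ENNReal.ofReal (2 ^ (a - 1) - 1) with hK
  have h0 : (0 : ℝ) ≤ a := by linarith
  have key : K * m ^ a + (f x ^ a + f y ^ a) ≤ (f x + f y) ^ a := by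
    rcases le_total (f y) (f x) with h | h
    · refine le_trans ?_ (rpow_step ha h)
      rw [add_comm (K * m ^ a)]
      exact add_le_add le_rfl (mul_le_mul' le_rfl
        (ENNReal.rpow_le_rpow (hle y (by simp [he])) h0))
    · rw [add_comm (f x) (f y)]
      refine le_trans ?_ (rpow_step ha h)
      rw [add_comm (K * m ^ a), add_comm (f x ^ a)]
      exact add_le_add le_rfl (mul_le_mul' le_rfl
        (ENNReal.rpow_le_rpow (hle x (by simp [he])) h0))
  rw [he, Finset.sum_insert (by simp [hxy, hxz]), Finset.sum_insert (by simp [hyz]),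
    Finset.sum_singleton, Finset.sum_insert (by simp [hxy, hxz]),
    Finset.sum_insert (by simp [hyz]), Finset.sum_singleton]
  calc K * m ^ a + (f x ^ a + (f y ^ a + f z ^ a))
      = K * m ^ a + (f x ^ a + f y ^ a) + f z ^ a := by ring
    _ ≤ (f x + f y) ^ a + f z ^ a := add_le_add key le_rfl
    _ ≤ (f x + f y + f z) ^ a := ENNReal.add_rpow_le_rpow_add _ _ ha
    _ = _ := by rw [add_assoc]

theorem potential_aux {f : F2 → ℝ≥0∞} (hf : ∀ v, ∑ c ∈ kids v, f c ≤ f v) {a : ℝ} (ha : 1 ≤ a)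
    (n : ℕ) : ∀ v : F2, v ≠ 1 → ∀ F : Finset F2, (∀ u ∈ F, Pre v u ∧ len u < len v + n) →
      ENNReal.ofReal (2 ^ (a - 1) - 1) * ∑ u ∈ F, (⨅ c : ↥(kids u), f (c : F2)) ^ a ≤
        f v ^ a := by
  classical
  induction n with
  | zero =>
    intro v _ F hF
    have : F = ∅ := Finset.eq_empty_of_forall_notMem fun u hu => by
      have := (hF u hu).1.length_le
      have := (hF u hu).2
      simp only [len] at *
      omega
    simp [this]
  | succ n ih =>
    intro v hv F hF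
    set g := fun u : F2 => (⨅ c : ↥(kids u), f (c : F2)) ^ a with hg
    have hsub : F ⊆ {v} ∪ (kids v).biUnion fun c => F.filter (Pre c ·) := by
      intro u hu
      by_cases huv : u = v
      · exact Finset.mem_union_left _ (by simp [huv])
      · obtain ⟨c, hc, hcu⟩ := exists_kid (hF u hu).1 huv
        exact Finset.mem_union_right _
          (Finset.mem_biUnion.2 ⟨c, hc, Finset.mem_filter.2 ⟨hu, hcu⟩⟩)
    have hsum : ∑ u ∈ F, g u ≤ g v + ∑ c ∈ kids v, ∑ u ∈ F.filter (Pre c ·), g u := by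
      refine (Finset.sum_le_sum_of_subset hsub).trans ?_
      refine le_trans le_self_add (le_of_eq_of_le (Finset.sum_union_inter) ?_)
      rw [Finset.sum_singleton]
      refine add_le_add le_rfl ?_
      induction kids v using Finset.induction with
      | empty => simp
      | insert c K hc ihK =>
        rw [Finset.biUnion_insert, Finset.sum_insert hc]
        exact le_trans (le_trans le_self_add (le_of_eq Finset.sum_union_inter))
          (add_le_add le_rfl ihK)
    refine le_trans (mul_le_mul' le_rfl hsum) ?_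
    rw [mul_add, Finset.mul_sum]
    refine le_trans (add_le_add le_rfl (Finset.sum_le_sum fun c hc =>
      ih c (ne_one_of_kid hc) _ fun u hu => ?_)) ((kids_step ha hv f).trans
        (ENNReal.rpow_le_rpow (hf v) (by linarith)))
    rw [Finset.mem_filter] at hu
    refine ⟨hu.2, ?_⟩
    have := (hF u hu.1).2
    rw [(pre_kid hc).2]
    omega

/-- Superadditivity gives summability of larger powers of the smaller children. -/
theorem potential {L : ℕ} (hL : 0 < L) {f : F2 → ℝ≥0∞} (hf : ∀ v, ∑ c ∈ kids v, f c ≤ f v)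
    {a : ℝ} (ha : 1 < a) (htop : f (genA ^ L) ≠ ⊤) :
    ∃ C : ℝ≥0∞, C ≠ ⊤ ∧ C = ENNReal.ofReal (2 ^ (a - 1) - 1)⁻¹ ∧
      ∑' v : {v : F2 // Deep L v}, (⨅ c : ↥(kids (v : F2)), f (c : F2)) ^ a ≤
        C * f (genA ^ L) ^ a := by
  have hK : (0 : ℝ) < 2 ^ (a - 1) - 1 := by
    linarith [Real.one_lt_rpow (by norm_num : (1 : ℝ) < 2) (by linarith : 0 < a - 1)]
  refine ⟨_, ENNReal.ofReal_ne_top, rfl, ?_⟩
  rw [ENNReal.tsum_eq_iSup_sum]
  refine iSup_le fun F => ?_
  classical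
  have h := potential_aux hf ha.le ((F.sup fun v : {v : F2 // Deep L v} => len v.1) + 1) (genA ^ L)
    ((genA_pow_deep L).ne_one hL) (F.image (Subtype.val)) fun u hu => ?_
  · rw [Finset.sum_image fun x _ y _ h => Subtype.ext h] at h
    refine le_of_eq_of_le ?_ (mul_le_mul' (le_refl (ENNReal.ofReal (2 ^ (a - 1) - 1)⁻¹)) h)
    rw [← mul_assoc, ← ENNReal.ofReal_mul (by positivity), inv_mul_cancel₀ hK.ne',
      ENNReal.ofReal_one, one_mul]
  · obtain ⟨w, hw, rfl⟩ := Finset.mem_image.1 hu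
    refine ⟨by rw [Pre, toWord_genA_pow]; exact w.2, ?_⟩
    have := Finset.le_sup (f := fun v : {v : F2 // Deep L v} => len v.1) hw
    omega

/-- Some word at each depth has small value. -/
theorem exists_small {L : ℕ} (hL : 0 < L) {f : F2 → ℝ≥0∞} (hf : ∀ v, ∑ c ∈ kids v, f c ≤ f v)
    (n : ℕ) : ∃ v, Deep L v ∧ len v = L + n ∧
      (3 : ℝ≥0∞) ^ n * (⨅ c : ↥(kids v), f (c : F2)) ≤ f (genA ^ L) := by
  have step : ∀ v : F2, v ≠ 1 → ∀ c₀ ∈ kids v, (∀ c ∈ kids v, f c₀ ≤ f c) → 3 * f c₀ ≤ f v := by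
    intro v hv c₀ _ hmin
    refine le_trans ?_ (hf v)
    have h := Finset.card_nsmul_le_sum (kids v) f (f c₀) hmin
    rwa [card_kids hv, nsmul_eq_mul, Nat.cast_ofNat] at h
  have key : ∀ n, ∃ v, Deep L v ∧ len v = L + n ∧ (3 : ℝ≥0∞) ^ n * f v ≤ f (genA ^ L) := by
    intro n
    induction n with
    | zero => exact ⟨_, genA_pow_deep L, by simp [len, toWord_genA_pow], by simp⟩
    | succ n ih =>
      obtain ⟨v, hv, hlen, hle⟩ := ih
      obtain ⟨c, hc, hmin⟩ := Finset.exists_min_image (kids v) f (kids_nonempty (hv.ne_one hL))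
      refine ⟨c, hv.of_pre (pre_kid hc).1, by rw [(pre_kid hc).2, hlen]; ring, ?_⟩
      rw [pow_succ, mul_assoc]
      exact le_trans (mul_le_mul' le_rfl (step v (hv.ne_one hL) c hc hmin)) hle
  obtain ⟨v, hv, hlen, hle⟩ := key n
  refine ⟨v, hv, hlen, le_trans (mul_le_mul' le_rfl ?_) hle⟩
  obtain ⟨c, hc⟩ := kids_nonempty (hv.ne_one hL)
  exact (iInf_le_of_le ⟨c, hc⟩ le_rfl).trans
    ((Finset.single_le_sum (fun _ _ => zero_le) hc).trans (hf v))

end Vale.Agent.P165.Tree
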