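import Vale.Agent.P165.Tree.Tail
import Vale.Agent.P165.Tree.Potential

/-!
# The bootstrap (P165, tree quotient)
-/

namespace Vale.Agent.P165.Tree

open scoped ENNReal

universe u

namespace Setting

theorem exists_pow_three {x : ℝ≥0∞} (hx : x ≠ ⊤) (hx1 : 1 ≤ x) :
    ∃ n : ℕ, x ≤ (3 : ℝ≥0∞) ^ n ∧ (3 : ℝ≥0∞) ^ n ≤ 3 * x := by
  have hex : ∃ n : ℕ, x ≤ (3 : ℝ≥0∞) ^ n := by
    obtain ⟨n, hn⟩ := pow_unbounded_of_one_lt x.toReal (by norm_num : (1 : ℝ) < 3)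
    refine ⟨n, ?_⟩
    rw [← ENNReal.ofReal_toReal hx, ← ENNReal.ofReal_ofNat, ← ENNReal.ofReal_pow (by norm_num)]
    exact ENNReal.ofReal_le_ofReal hn.le
  classical
  refine ⟨Nat.find hex, Nat.find_spec hex, ?_⟩
  rcases Nat.eq_zero_or_pos (Nat.find hex) with h0 | h0
  · rw [h0, pow_zero]
    exact one_le_mul (by norm_num) hx1
  · obtain ⟨j, hj⟩ : ∃ j, Nat.find hex = j + 1 := ⟨Nat.find hex - 1, by omega⟩
    have := not_le.1 (Nat.find_min hex (by omega : j < Nat.find hex))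
    rw [hj, pow_succ']
    exact mul_le_mul' le_rfl this.le

/-- Absorbing the square term. -/
theorem absorb {A X C M Y x T : ℝ≥0∞} (hA : A ≤ X + C * A * M ^ 2) (hM : M ≤ Y)
    (hY : 2 * C * Y ^ 2 ≤ x * T⁻¹) (hx : x ≤ T) (hT0 : T ≠ 0) (hTt : T ≠ ⊤) (hAt : A ≠ ⊤)
    (hC : 1 ≤ C) : A ≤ 2 * X ∧ M ≤ 1 := by
  have hsq : 2 * C * M ^ 2 ≤ 1 := (mul_le_mul' le_rfl (pow_le_pow_left' hM 2)).trans
    ((hY.trans (mul_le_mul' hx le_rfl)).trans (ENNReal.mul_inv_cancel hT0 hTt).le)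
  refine ⟨ENNReal.le_of_add_le_add_right hAt ?_, ?_⟩
  · calc A + A = 2 * A := (two_mul _).symm
      _ ≤ 2 * (X + C * A * M ^ 2) := mul_le_mul' le_rfl hA
      _ = 2 * X + A * (2 * C * M ^ 2) := by ring
      _ ≤ 2 * X + A := add_le_add le_rfl (mul_le_of_le_one_right' hsq)
  · by_contra hc
    have h2 : (1 : ℝ≥0∞) < M ^ 2 := one_lt_pow₀ (not_le.1 hc) (by norm_num)
    exact absurd hsq (not_le.2 (lt_of_lt_of_le h2
      (le_mul_of_one_le_left' (one_le_mul (by norm_num) hC))))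

theorem square_bound (C D Q T : ℝ≥0∞) (ε : ℝ) :
    2 * C * (D * T ^ (1 / 2 : ℝ) * Q ^ (2 * ε)) ^ 2 ≤
      max 1 (2 * C * D ^ 2) * Q ^ (4 * ε) * T := by
  have e1 : (T ^ (1 / 2 : ℝ)) ^ 2 = T := by
    rw [← ENNReal.rpow_natCast, ← ENNReal.rpow_mul]
    norm_num
  have e2 : (Q ^ (2 * ε)) ^ 2 = Q ^ (4 * ε) := by
    rw [← ENNReal.rpow_natCast, ← ENNReal.rpow_mul]
    congr 1
    push_cast
    ring
  rw [mul_pow, mul_pow, e1, e2]
  calc 2 * C * (D ^ 2 * T * Q ^ (4 * ε)) = 2 * C * D ^ 2 * Q ^ (4 * ε) * T := by ring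
    _ ≤ _ := mul_le_mul' (mul_le_mul' (le_max_right _ _) le_rfl) le_rfl

theorem power_bound {p b : ℝ≥0∞} (hb : p ≤ b) {N m n L : ℕ} (hN : b ^ N ≤ (3 : ℝ≥0∞) ^ m)
    {D Z : ℝ≥0∞} (hn : (3 : ℝ≥0∞) ^ n ≤ 3 * (D * Z)) :
    p ^ (N * (L + n + 1)) ≤ (b ^ N) ^ (L + 1) * ((3 * D) ^ m * Z ^ m) := by
  refine (pow_le_pow_left' hb _).trans ?_
  rw [pow_mul, show L + n + 1 = L + 1 + n by omega, pow_add]
  refine mul_le_mul' le_rfl ((pow_le_pow_left' hN n).trans ?_)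
  rw [← pow_mul, mul_comm m n, pow_mul, ← mul_pow, mul_assoc]
  exact pow_le_pow_left' hn m


variable {S : Setting.{u}} {R c L : ℕ}

theorem Mb_le_deep (hG : S.Geom R c L) {ε : ℝ} (hε : 0 < ε) (hε1 : ε < 1 / 4)
    (Wt : S.Witness L ε) {p₁ : ℝ} (hp₁ : Wt.p₀ < p₁) :
    ∃ C : ℝ≥0∞, C ≠ ⊤ ∧ ∀ p, p₁ ≤ p → p < S.pT → ∀ v c', Deep L v → c' ∈ kids v →
      S.Mb L p v ≤ C * S.Phi L p Wt.s c' ^ ((1 - 2 * ε) / Wt.s) * S.QQ p ^ (2 * ε) := by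
  have hp₁0 : 0 < p₁ := Wt.p₀_pos.trans hp₁
  obtain ⟨C₁, hC₁, h₁⟩ := Mb_step hG hp₁0
  obtain ⟨C₂, hC₂, h₂⟩ := Mb_le hG hε hε1 Wt hp₁
  have hL : 0 < L := by have := hG.big; omega
  refine ⟨max 1 C₁ ^ 3 * C₂, ENNReal.mul_ne_top (ENNReal.pow_ne_top (by simp [hC₁])) hC₂,
    fun p hp hpT v c' hv hc' => ?_⟩
  have hp1 : p ≤ 1 := hpT.le.trans (pT_le_one S)
  have chain : ∀ k, ∀ u w : F2, Deep L u → Pre u w → len w = len u + k →
      S.Mb L p u ≤ C₁ ^ k * S.Mb L p w := by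
    intro k
    induction k with
    | zero =>
      intro u w _ hpre hlen
      have : u = w := FreeGroup.toWord_injective (hpre.eq_of_length hlen.symm)
      simp [this]
    | succ k ih =>
      intro u w hu hpre hlen
      obtain ⟨c'', hc'', hpre'⟩ := exists_kid hpre (by rintro rfl; omega)
      obtain ⟨hp', hl'⟩ := pre_kid hc''
      refine (h₁ p hp hp1 u c'' hu hc'').trans ?_
      rw [pow_succ', mul_assoc]
      exact mul_le_mul' le_rfl (ih c'' w (hu.of_pre hp') hpre' (by omega))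
  obtain ⟨hpc, hlc⟩ := pre_kid hc'
  obtain ⟨w, hw, hcw, hwl⟩ := exists_inW hL (hv.of_pre hpc)
  have hle : len c' ≤ len w := hcw.length_le
  refine (chain (len w - len v) v w hv (hpc.trans hcw) (by omega)).trans ?_
  rw [mul_assoc (max 1 C₁ ^ 3), mul_assoc (max 1 C₁ ^ 3)]
  refine mul_le_mul' ((pow_le_pow_left' (le_max_right 1 C₁) _).trans
    (pow_le_pow_right' (le_max_left 1 C₁) (by omega))) ((h₂ p hp hpT w hw).trans ?_)
  exact mul_le_mul' (mul_le_mul' le_rfl (ENNReal.rpow_le_rpow (Phi_anti hcw)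
    (div_nonneg (by linarith) Wt.s_pos.le))) le_rfl

theorem sum_AA_le (hG : S.Geom R c L) {ε : ℝ} (hε : 0 < ε) (hε1 : ε < 1 / 4)
    (Wt : S.Witness L ε) {p₁ : ℝ} (hp₁ : Wt.p₀ < p₁) {q : ℝ} (hq : 1 < (1 - 2 * ε) * q) :
    ∃ C : ℝ≥0∞, C ≠ ⊤ ∧ ∀ p, p₁ ≤ p → p < S.pT →
      ∑' v, S.AA p v ^ q ≤ C * S.AA p 1 ^ q * S.QQ p ^ (2 * ε * q) := by
  have hp₁0 : 0 < p₁ := Wt.p₀_pos.trans hp₁
  have hL : 0 < L := by have := hG.big; omega
  have hq0 : 0 < q := by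
    by_contra h
    nlinarith
  have ha : 1 < (1 - 2 * ε) / Wt.s * q := by
    refine lt_of_lt_of_le hq ?_
    have : 1 - 2 * ε ≤ (1 - 2 * ε) / Wt.s := by
      rw [le_div_iff₀ Wt.s_pos]
      nlinarith [Wt.s_le]
    exact mul_le_mul_of_nonneg_right this hq0.le
  set a := (1 - 2 * ε) / Wt.s * q with ha'
  obtain ⟨C₁, hC₁, h₁⟩ := Mb_le_deep hG hε hε1 Wt hp₁
  obtain ⟨C₂, hC₂, h₂⟩ := Phi_le hG Wt hp₁0
  obtain ⟨C₃, hC₃, h₃⟩ := AA_le_Mb hG hp₁0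
  set P : ℝ≥0∞ := ENNReal.ofReal (2 ^ (a - 1) - 1)⁻¹ with hP
  refine ⟨C₃ ^ q * (2 * (C₁ ^ q * (P * C₂ ^ a))), ?_, fun p hp hpT => ?_⟩
  · exact ENNReal.mul_ne_top (ENNReal.rpow_ne_top_of_nonneg hq0.le hC₃)
      (ENNReal.mul_ne_top ENNReal.ofNat_ne_top (ENNReal.mul_ne_top
        (ENNReal.rpow_ne_top_of_nonneg hq0.le hC₁)
        (ENNReal.mul_ne_top ENNReal.ofReal_ne_top (ENNReal.rpow_ne_top_of_nonneg (by linarith) hC₂))))
  have hp1 : p ≤ 1 := hpT.le.trans (pT_le_one S)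
  set f : F2 → ℝ≥0∞ := fun u => S.Phi L p Wt.s u with hf
  set Z := S.QQ p ^ (2 * ε * q) with hZ
  have htop : f (genA ^ L) ≠ ⊤ := ne_top_of_le_ne_top hC₂ (h₂ p hp hpT _)
  have hdeep : ∑' v : {v : F2 // Deep L v}, S.Mb L p (v : F2) ^ q ≤
      C₁ ^ q * (P * C₂ ^ a) * Z := by
    obtain ⟨P', -, hP', hpot⟩ := potential hL (f := f) (fun v => Phi_kids) ha htop
    rw [← hP] at hP'
    subst hP'
    calc ∑' v : {v : F2 // Deep L v}, S.Mb L p (v : F2) ^ q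
        ≤ ∑' v : {v : F2 // Deep L v},
            C₁ ^ q * (⨅ c : ↥(kids (v : F2)), f (c : F2)) ^ a * Z := by
          refine ENNReal.tsum_le_tsum fun v => ?_
          obtain ⟨c', hc', hmin⟩ := Finset.exists_min_image (kids (v : F2)) f
            (kids_nonempty (v.2.ne_one hL))
          refine (ENNReal.rpow_le_rpow (h₁ p hp hpT v c' v.2 hc') hq0.le).trans ?_
          rw [ENNReal.mul_rpow_of_nonneg _ _ hq0.le, ENNReal.mul_rpow_of_nonneg _ _ hq0.le,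
            ← ENNReal.rpow_mul, ← ENNReal.rpow_mul]
          refine mul_le_mul' (mul_le_mul' le_rfl (ENNReal.rpow_le_rpow ?_ (by linarith))) le_rfl
          exact le_iInf fun c => hmin c.1 c.2
      _ = C₁ ^ q * (∑' v : {v : F2 // Deep L v},
            (⨅ c : ↥(kids (v : F2)), f (c : F2)) ^ a) * Z := by
          rw [ENNReal.tsum_mul_right, ENNReal.tsum_mul_left]
      _ ≤ C₁ ^ q * (P * C₂ ^ a) * Z := by
          refine mul_le_mul' (mul_le_mul' le_rfl (hpot.trans ?_)) le_rfl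
          exact mul_le_mul' le_rfl (ENNReal.rpow_le_rpow (h₂ p hp hpT _) (by linarith))
  obtain ⟨hin, hout⟩ := h₃ p hp hp1
  set D := C₃ ^ q * S.AA p 1 ^ q with hD
  have hsplit : ∑' v, S.AA p v ^ q =
      ∑' v : {v : F2 // InK v}, S.AA p (v : F2) ^ q +
        ∑' v : ↥({v : F2 | InK v}ᶜ), S.AA p (v : F2) ^ q :=
    (Summable.tsum_add_tsum_compl (f := fun v => S.AA p v ^ q) (s := {v : F2 | InK v})
      ENNReal.summable ENNReal.summable).symm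
  have e1 : ∑' v : {v : F2 // InK v}, S.AA p (v : F2) ^ q ≤
      D * ∑' v : {v : F2 // Deep L v}, S.Mb L p (v : F2) ^ q := by
    rw [← ENNReal.tsum_mul_left]
    let σ : {v : F2 // InK v} → {v : F2 // Deep L v} := fun v =>
      ⟨genA ^ L * v, ⟨_, ((toWord_pad L hL).1 v.2).symm⟩⟩
    refine le_trans (ENNReal.tsum_le_tsum fun v => ?_)
      (ENNReal.tsum_comp_le_tsum_of_injective (f := σ)
        (fun x y h => Subtype.ext (mul_left_cancel (congrArg Subtype.val h)))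
        fun w => D * S.Mb L p (w : F2) ^ q)
    refine (ENNReal.rpow_le_rpow (hin v v.2) hq0.le).trans (le_of_eq ?_)
    rw [ENNReal.mul_rpow_of_nonneg _ _ hq0.le, ENNReal.mul_rpow_of_nonneg _ _ hq0.le]
  have e2 : ∑' v : ↥({v : F2 | InK v}ᶜ), S.AA p (v : F2) ^ q ≤
      D * ∑' v : {v : F2 // Deep L v}, S.Mb L p (v : F2) ^ q := by
    rw [← ENNReal.tsum_mul_left]
    let σ : ↥({v : F2 | InK v}ᶜ) → {v : F2 // Deep L v} := fun v =>
      ⟨genA ^ L * genB * v, ⟨_, ((toWord_pad L hL).2 v.2).symm⟩⟩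
    refine le_trans (ENNReal.tsum_le_tsum fun v => ?_)
      (ENNReal.tsum_comp_le_tsum_of_injective (f := σ)
        (fun x y h => Subtype.ext (mul_left_cancel (congrArg Subtype.val h)))
        fun w => D * S.Mb L p (w : F2) ^ q)
    refine (ENNReal.rpow_le_rpow (hout v v.2) hq0.le).trans (le_of_eq ?_)
    rw [ENNReal.mul_rpow_of_nonneg _ _ hq0.le, ENNReal.mul_rpow_of_nonneg _ _ hq0.le]
  rw [hsplit]
  refine (add_le_add e1 e2).trans ?_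
  rw [← two_mul]
  refine (mul_le_mul' le_rfl (mul_le_mul' le_rfl hdeep)).trans (le_of_eq ?_)
  rw [hD]
  ring

theorem AA_one_le_QQ (hG : S.Geom R c L) :
    ∃ K : ℝ, 0 < K ∧ ∀ {ε : ℝ}, 0 < ε → ε < 1 / 4 → ∀ (Wt : S.Witness L ε) {p₁ : ℝ},
      Wt.p₀ < p₁ → S.pT / 2 ≤ p₁ →
      ∃ C : ℝ≥0∞, C ≠ ⊤ ∧ ∀ p, p₁ ≤ p → p < S.pT → S.AA p 1 ≤ C * S.QQ p ^ (K * ε) := by
  obtain ⟨N, hN⟩ := AA_one_le hG
  have hL : 0 < L := by have := hG.big; omega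
  have hT := pT_pos S
  obtain ⟨m, hm⟩ := pow_unbounded_of_one_lt ((2 / S.pT) ^ N) (by norm_num : (1 : ℝ) < 3)
  refine ⟨4 * m + 1, by positivity, ?_⟩
  intro ε hε hε1 Wt p₁ hp₁ hhalf
  have hp₁0 : 0 < p₁ := Wt.p₀_pos.trans hp₁
  obtain ⟨C₁, hC₁, h₁⟩ := Mb_le_deep hG hε hε1 Wt hp₁
  obtain ⟨C₂, hC₂, h₂⟩ := Phi_le hG Wt hp₁0
  obtain ⟨C₃', hC₃', h₃⟩ := hN hp₁0
  set κ := (1 - 2 * ε) / Wt.s with hκ
  have hκ2 : 1 / 2 ≤ κ := by
    rw [hκ, le_div_iff₀ Wt.s_pos]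
    nlinarith [Wt.s_le]
  set C₃ := max 1 C₃' with hC₃d
  have hC₃ : C₃ ≠ ⊤ := by simp [hC₃d, hC₃']
  set C₄ := C₁ * C₂ ^ κ with hC₄d
  have hC₄ : C₄ ≠ ⊤ := ENNReal.mul_ne_top hC₁ (ENNReal.rpow_ne_top_of_nonneg (by linarith) hC₂)
  set D := max 1 (2 * C₃ * C₄ ^ 2) with hDd
  have hD : D ≠ ⊤ := by simp [hDd, ENNReal.mul_ne_top, hC₃, hC₄]
  set Bp : ℝ≥0∞ := ENNReal.ofReal (2 / S.pT) with hBp
  refine ⟨2 * C₃ * (Bp ^ N) ^ (L + 1) * (3 * D) ^ m, ?_, fun p hp hpT => ?_⟩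
  · exact ENNReal.mul_ne_top (ENNReal.mul_ne_top (ENNReal.mul_ne_top ENNReal.ofNat_ne_top hC₃)
      (ENNReal.pow_ne_top (ENNReal.pow_ne_top ENNReal.ofReal_ne_top)))
      (ENNReal.pow_ne_top (ENNReal.mul_ne_top ENNReal.ofNat_ne_top hD))
  have hp1 : p ≤ 1 := hpT.le.trans (pT_le_one S)
  have hp0 : 0 < p := hp₁0.trans_le hp
  obtain ⟨hAtop, hQtop⟩ := AA_ne_top hp0.le hpT
  have hQ1 : 1 ≤ S.QQ p :=
    (one_le_pow₀ (one_le_AA_one hp0.le hp1)).trans (ENNReal.le_tsum 1)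
  set x := D * S.QQ p ^ (4 * ε) with hxd
  have hx : x ≠ ⊤ := ENNReal.mul_ne_top hD (ENNReal.rpow_ne_top_of_nonneg (by linarith) hQtop)
  have hx1 : 1 ≤ x := one_le_mul (le_max_left _ _) (ENNReal.one_le_rpow hQ1 (by linarith))
  obtain ⟨n, hn, hn'⟩ := exists_pow_three hx hx1
  obtain ⟨v, hv, hlen, hsmall⟩ := exists_small hL (f := fun u => S.Phi L p Wt.s u)
    (fun u => Phi_kids) n
  obtain ⟨c', hc', hmin⟩ := Finset.exists_min_image (kids v) (fun u => S.Phi L p Wt.s u)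
    (kids_nonempty (hv.ne_one hL))
  have hinf : S.Phi L p Wt.s c' ≤ ⨅ c : ↥(kids v), S.Phi L p Wt.s (c : F2) :=
    le_iInf fun c => hmin c.1 c.2
  have h30 : (3 : ℝ≥0∞) ^ n ≠ 0 := by simp
  have h3top : (3 : ℝ≥0∞) ^ n ≠ ⊤ := by simp
  have hΦ : S.Phi L p Wt.s c' ≤ C₂ * ((3 : ℝ≥0∞) ^ n)⁻¹ := by
    rw [← div_eq_mul_inv, ENNReal.le_div_iff_mul_le (Or.inl h30) (Or.inl h3top), mul_comm]
    exact ((mul_le_mul' le_rfl hinf).trans hsmall).trans (h₂ p hp hpT _)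
  have hMb : S.Mb L p v ≤
      C₄ * (((3 : ℝ≥0∞) ^ n)⁻¹ ^ (1 / 2 : ℝ)) * S.QQ p ^ (2 * ε) := by
    refine (h₁ p hp hpT v c' hv hc').trans (mul_le_mul' ?_ le_rfl)
    rw [hC₄d, mul_assoc C₁]
    refine mul_le_mul' le_rfl ((ENNReal.rpow_le_rpow hΦ (by linarith)).trans ?_)
    rw [ENNReal.mul_rpow_of_nonneg _ _ (by linarith : (0 : ℝ) ≤ κ)]
    refine mul_le_mul' le_rfl (ENNReal.rpow_le_rpow_of_exponent_ge ?_ hκ2)
    rw [ENNReal.inv_le_one]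
    exact one_le_pow₀ (by norm_num)
  set X := C₃ * (ENNReal.ofReal p)⁻¹ ^ (N * (len v + 1)) * S.Mb L p v with hXd
  have hA : S.AA p 1 ≤ X + C₃ * S.AA p 1 * S.Mb L p v ^ 2 :=
    (h₃ p hp hp1 v hv).trans (add_le_add
      (mul_le_mul' (mul_le_mul' (le_max_right _ _) le_rfl) le_rfl)
      (mul_le_mul' (mul_le_mul' (le_max_right _ _) le_rfl) le_rfl))
  obtain ⟨hA2, hMb1⟩ := absorb hA hMb (square_bound C₃ C₄ (S.QQ p) _ ε) hn h30 h3top
    (hAtop 1) (le_max_left _ _)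
  refine hA2.trans ?_
  have hinv : (ENNReal.ofReal p)⁻¹ ≤ Bp := by
    rw [← ENNReal.ofReal_inv_of_pos hp0, hBp]
    refine ENNReal.ofReal_le_ofReal ?_
    rw [← inv_div]
    exact inv_anti₀ (by positivity) (hhalf.trans hp)
  have hBN : Bp ^ N ≤ (3 : ℝ≥0∞) ^ m := by
    rw [hBp, ← ENNReal.ofReal_pow (by positivity), ← ENNReal.ofReal_ofNat,
      ← ENNReal.ofReal_pow (by norm_num)]
    exact ENNReal.ofReal_le_ofReal hm.le
  have hQm : (S.QQ p ^ (4 * ε)) ^ m ≤ S.QQ p ^ ((4 * (m : ℝ) + 1) * ε) := by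
    rw [← ENNReal.rpow_natCast, ← ENNReal.rpow_mul]
    exact ENNReal.rpow_le_rpow_of_exponent_le hQ1 (by nlinarith)
  have hpow : (ENNReal.ofReal p)⁻¹ ^ (N * (len v + 1)) ≤
      (Bp ^ N) ^ (L + 1) * ((3 * D) ^ m * (S.QQ p ^ (4 * ε)) ^ m) := by
    rw [hlen]
    exact power_bound hinv hBN hn'
  calc 2 * X ≤ 2 * (C₃ * ((Bp ^ N) ^ (L + 1) * ((3 * D) ^ m *
        S.QQ p ^ ((4 * (m : ℝ) + 1) * ε))) * 1) :=
        mul_le_mul' le_rfl (mul_le_mul' (mul_le_mul' le_rfl (hpow.trans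
          (mul_le_mul' le_rfl (mul_le_mul' le_rfl hQm)))) hMb1)
    _ = _ := by ring

/-- All powers above one of the fibre sums are summable up to the threshold. -/
theorem bounded (hG : S.Geom R c L) {q : ℝ} (hq : 1 < q) :
    ∃ C : ℝ≥0∞, C ≠ ⊤ ∧ ∀ p, 0 ≤ p → p < S.pT → ∑' v, S.AA p v ^ q ≤ C := by
  obtain ⟨K, hK, hKQ⟩ := AA_one_le_QQ hG
  set ε := min (1 / (2 * (3 * K + 6))) (min (1 / 8) ((q - 1) / (4 * q))) with hεd
  have hε : 0 < ε := lt_min (by positivity) (lt_min (by norm_num)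
    (div_pos (by linarith) (by linarith)))
  have hε1 : ε < 1 / 4 := lt_of_le_of_lt ((min_le_right _ _).trans (min_le_left _ _)) (by norm_num)
  have hεq : 1 < (1 - 2 * ε) * q := by
    have h : ε ≤ (q - 1) / (4 * q) := (min_le_right _ _).trans (min_le_right _ _)
    rw [le_div_iff₀ (by linarith)] at h
    nlinarith
  have hε8 : ε ≤ 1 / 8 := (min_le_right _ _).trans (min_le_left _ _)
  have hθ : 3 * (K * ε) + 2 * ε * 3 ≤ 1 / 2 := by
    have h : ε ≤ 1 / (2 * (3 * K + 6)) := min_le_left _ _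
    rw [le_div_iff₀ (by positivity)] at h
    nlinarith
  obtain ⟨Wt⟩ := exists_witness hG hε (by linarith)
  set p₁ := max ((Wt.p₀ + S.pT) / 2) (S.pT / 2) with hp₁d
  have hp₁ : Wt.p₀ < p₁ := lt_of_lt_of_le (by linarith [Wt.p₀_lt]) (le_max_left _ _)
  have hp₁T : p₁ < S.pT := max_lt (by linarith [Wt.p₀_lt]) (by linarith [pT_pos S])
  have hp₁0 : 0 < p₁ := Wt.p₀_pos.trans hp₁
  obtain ⟨C₁, hC₁, h₁⟩ := sum_AA_le hG hε hε1 Wt hp₁ (q := 3) (by linarith)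
  obtain ⟨C₂, hC₂, h₂⟩ := hKQ hε hε1 Wt hp₁ (le_max_right _ _)
  obtain ⟨C₃, hC₃, h₃⟩ := sum_AA_le hG hε hε1 Wt hp₁ hεq
  set B := (C₁ * C₂ ^ (3 : ℝ)) ^ 2 with hBd
  have hB : B ≠ ⊤ := ENNReal.pow_ne_top
    (ENNReal.mul_ne_top hC₁ (ENNReal.rpow_ne_top_of_nonneg (by norm_num) hC₂))
  refine ⟨C₃ * B ^ q * B ^ (2 * ε * q), ENNReal.mul_ne_top (ENNReal.mul_ne_top hC₃
    (ENNReal.rpow_ne_top_of_nonneg (by linarith) hB))
    (ENNReal.rpow_ne_top_of_nonneg (by positivity) hB), ?_⟩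
  have main : ∀ p, p₁ ≤ p → p < S.pT →
      ∑' v, S.AA p v ^ q ≤ C₃ * B ^ q * B ^ (2 * ε * q) := by
    intro p hp hpT
    have hp1 : p ≤ 1 := hpT.le.trans (pT_le_one S)
    have hp0 : 0 ≤ p := hp₁0.le.trans hp
    obtain ⟨-, hQtop⟩ := AA_ne_top hp0 hpT
    have hA1 := one_le_AA_one (S := S) hp0 hp1
    have hAQ : S.AA p 1 ≤ S.QQ p := (le_self_pow₀ hA1 (by norm_num)).trans (ENNReal.le_tsum 1)
    have hQ1 : 1 ≤ S.QQ p := hA1.trans hAQ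
    have hQ0 : S.QQ p ≠ 0 := (lt_of_lt_of_le one_pos hQ1).ne'
    have hQ : S.QQ p ≤ C₁ * C₂ ^ (3 : ℝ) * S.QQ p ^ (1 / 2 : ℝ) := by
      have h := h₁ p hp hpT
      have e : S.QQ p = ∑' v, S.AA p v ^ (3 : ℝ) := by
        refine tsum_congr fun v => ?_
        rw [← ENNReal.rpow_natCast]
        norm_num
      rw [← e] at h
      refine h.trans ?_
      refine (mul_le_mul' (mul_le_mul' le_rfl
        (ENNReal.rpow_le_rpow (h₂ p hp hpT) (by norm_num))) le_rfl).trans ?_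
      rw [ENNReal.mul_rpow_of_nonneg _ _ (by norm_num : (0 : ℝ) ≤ 3), ← ENNReal.rpow_mul,
        ← mul_assoc C₁, mul_assoc (C₁ * C₂ ^ (3 : ℝ)), ← ENNReal.rpow_add _ _ hQ0 hQtop]
      exact mul_le_mul' le_rfl (ENNReal.rpow_le_rpow_of_exponent_le hQ1 (by linarith))
    have hhalf : S.QQ p ^ (1 / 2 : ℝ) * S.QQ p ^ (1 / 2 : ℝ) = S.QQ p := by
      rw [← ENNReal.rpow_add _ _ hQ0 hQtop]
      norm_num
    have hQB : S.QQ p ≤ B := by
      have h : S.QQ p ^ (1 / 2 : ℝ) ≤ C₁ * C₂ ^ (3 : ℝ) := by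
        refine (ENNReal.mul_le_mul_iff_left (c := S.QQ p ^ (1 / 2 : ℝ)) ?_
          (ENNReal.rpow_ne_top_of_nonneg (by norm_num) hQtop)).1 ?_
        · simp [hQ0, hQtop]
        · rw [hhalf]; exact hQ
      rw [hBd, sq]
      exact hhalf.symm.le.trans (mul_le_mul' h h)
    refine (h₃ p hp hpT).trans ?_
    exact mul_le_mul' (mul_le_mul' le_rfl (ENNReal.rpow_le_rpow (hAQ.trans hQB) (by linarith)))
      (ENNReal.rpow_le_rpow hQB (by positivity))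
  intro p hp0 hpT
  rcases le_total p₁ p with h | h
  · exact main p h hpT
  · refine le_trans (ENNReal.tsum_le_tsum fun v => ENNReal.rpow_le_rpow ?_ (by linarith))
      (main p₁ le_rfl hp₁T)
    exact Finset.sum_le_sum fun i _ => ENNReal.tsum_le_tsum fun y =>
      tauT_mono_p hp0 h (hp₁T.le.trans (pT_le_one S))

theorem bounded_at_pT (hG : S.Geom R c L) {q : ℝ} (hq : 1 < q) :
    ∑' v, S.AA S.pT v ^ q ≠ ⊤ := by
  obtain ⟨C, hC, hb⟩ := bounded hG hq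
  refine ne_top_of_le_ne_top hC ?_
  have hT := pT_pos S
  have hmono : ∀ (x y : S.V), Monotone fun p : Set.Ico (0 : ℝ) S.pT => S.tt p x y :=
    fun x y a b hab => tauT_mono_p a.2.1 hab (b.2.2.le.trans (pT_le_one S))
  have hA : ∀ v, S.AA S.pT v ≤ ⨆ p : Set.Ico (0 : ℝ) S.pT, S.AA p v := by
    intro v
    refine le_trans (b := ∑ i : Fin S.k,
      ⨆ p : Set.Ico (0 : ℝ) S.pT, ∑' y : S.fib v, S.tt p (S.one i) (y : S.V))
      (Finset.sum_le_sum fun i _ => ?_) (le_of_eq (ENNReal.finsetSum_iSup_of_monotone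
        fun i a b hab => ENNReal.tsum_le_tsum fun y => hmono _ _ hab))
    rw [ENNReal.tsum_eq_iSup_sum]
    refine iSup_le fun F => le_trans (Finset.sum_le_sum fun y _ =>
      tauT_le_iSup_lt le_rfl hT (pT_le_one S)) ?_
    refine (le_of_eq (ENNReal.finsetSum_iSup_of_monotone (s := F)
      (f := fun (y : S.fib v) (p : Set.Ico (0 : ℝ) S.pT) => S.tt p (S.one i) (y : S.V))
      fun y => hmono _ _)).trans ?_
    exact iSup_mono fun p => ENNReal.sum_le_tsum F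
  rw [ENNReal.tsum_eq_iSup_sum]
  refine iSup_le fun F => le_trans (b := ∑ v ∈ F,
    ⨆ p : Set.Ico (0 : ℝ) S.pT, S.AA p v ^ q) (Finset.sum_le_sum fun v _ => ?_) ?_
  · refine (ENNReal.rpow_le_rpow (hA v) (by linarith)).trans (le_of_eq ?_)
    exact (ENNReal.orderIsoRpow q (by linarith)).map_iSup _
  · refine (le_of_eq (ENNReal.finsetSum_iSup_of_monotone (s := F)
      (f := fun v (p : Set.Ico (0 : ℝ) S.pT) => S.AA p v ^ q)
      fun v a b hab => ENNReal.rpow_le_rpow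
        (Finset.sum_le_sum fun i _ => ENNReal.tsum_le_tsum fun y => hmono _ _ hab)
        (by linarith))).trans ?_
    exact iSup_le fun p => (ENNReal.sum_le_tsum F).trans (hb p p.2.1 p.2.2)

end Setting

end Vale.Agent.P165.Tree
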