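import Vale.Agent.P165.Tree.Fin.Conn

/-!
# Two point functions as suprema over finite edge sets (P165, tree quotient)
-/

namespace Vale.Agent.P165.Tree

open scoped ENNReal
open Filter Topology

variable {V : Type*} [DecidableEq V]

/-- The chance that `x` is joined to `T` by open edges of `R`. -/
noncomputable def tauT (p : ℝ) (R : Set (Sym2 V)) (x : V) (T : Set V) : ℝ≥0∞ :=
  ⨆ E : {E : Finset (Sym2 V) // (E : Set (Sym2 V)) ⊆ R},
    ENNReal.ofReal (PE p (E : Finset (Sym2 V)) fun ω => ConnTo ω x T)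

/-- The chance that `x` is joined to `y` by open edges of `R`. -/
noncomputable def tau (p : ℝ) (R : Set (Sym2 V)) (x y : V) : ℝ≥0∞ := tauT p R x {y}

section Aux

variable {p : ℝ}

theorem pow_card_le_PE (hp0 : 0 ≤ p) (hp1 : p ≤ 1) {β : Type*} [DecidableEq β] {E : Finset β}
    {A : Finset β → Prop} (hA : A E) : p ^ E.card ≤ PE p E A := by
  refine le_trans ?_ (Finset.single_le_sum
    (f := fun ω => wt p E ω * ind (A ω)) (fun ω _ => mul_nonneg (wt_nonneg hp0 hp1 ω)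
      (ind_nonneg _)) (Finset.mem_powerset_self E))
  simp [wt, ind_of hA]

theorem PE_or_le (hp0 : 0 ≤ p) (hp1 : p ≤ 1) {β : Type*} [DecidableEq β] {E : Finset β}
    (A B : Finset β → Prop) : PE p E (fun ω => A ω ∨ B ω) ≤ PE p E A + PE p E B := by
  rw [PE, PE, PE, ← EE_add]
  refine EE_mono hp0 hp1 fun ω _ => ?_
  by_cases hA : A ω
  · rw [ind_of (Or.inl hA : A ω ∨ B ω), ind_of hA]
    linarith [ind_nonneg (B ω)]
  · rw [ind_of_not hA, zero_add]
    exact ind_mono (fun h => h.resolve_left hA)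

theorem PE_exists_le (hp0 : 0 ≤ p) (hp1 : p ≤ 1) {β ι : Type*} [DecidableEq β] {E : Finset β}
    (F : Finset ι) (A : ι → Finset β → Prop) :
    PE p E (fun ω => ∃ i ∈ F, A i ω) ≤ ∑ i ∈ F, PE p E (A i) := by
  classical
  induction F using Finset.induction with
  | empty => simp [PE, ind_of_not, EE_const]
  | insert i F hi ih =>
    rw [Finset.sum_insert hi]
    refine le_trans ?_ ((PE_or_le hp0 hp1 (A i) (fun ω => ∃ j ∈ F, A j ω)).trans
      (add_le_add le_rfl ih))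
    refine PE_mono hp0 hp1 fun ω _ ⟨j, hj, hA⟩ => ?_
    rcases Finset.mem_insert.1 hj with rfl | hj'
    · exact Or.inl hA
    · exact Or.inr ⟨j, hj', hA⟩

theorem finset_le_tsum {V : Type*} (T : Set V) (f : V → ℝ≥0∞) {F : Finset V}
    (hF : ∀ t ∈ F, t ∈ T) : ∑ t ∈ F, f t ≤ ∑' t : T, f t := by
  classical
  refine le_trans (le_of_eq ?_) (ENNReal.sum_le_tsum (F.subtype (· ∈ T)))
  rw [Finset.sum_subtype_eq_sum_filter, Finset.filter_true_of_mem hF]

variable {V : Type*} [DecidableEq V]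

theorem conn_of_gwalk {G : SimpleGraph V} {x y : V} (w : G.Walk x y) {ω : Finset (Sym2 V)}
    (h : w.edges.toFinset ⊆ ω) : Conn ω x y := by
  refine (w.transfer (confGraph ω) fun e he => ?_).reachable
  rw [confGraph, SimpleGraph.edgeSet_fromEdgeSet]
  exact ⟨h (List.mem_toFinset.2 he), G.not_isDiag_of_mem_edgeSet (w.edges_subset_edgeSet he)⟩

theorem conn_mem {E ω : Finset (Sym2 V)} (h : ω ⊆ E) {x y : V} (hc : Conn ω x y) :
    y ∈ insert x (verts E) := by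
  rcases hc.symm with ⟨w⟩
  cases w with
  | nil => exact Finset.mem_insert_self _ _
  | cons hadj _ =>
    refine Finset.mem_insert_of_mem (Finset.mem_biUnion.2 ⟨_, h hadj.1, ?_⟩)
    simp

theorem incr_within (R : Set (Sym2 V)) (x z : V) :
    Incr fun s : Finset (Sym2 V) => ∃ t ⊆ s, (t : Set (Sym2 V)) ⊆ R ∧ Conn t x z :=
  fun _ _ hab ⟨t, ht, h⟩ => ⟨t, ht.trans hab, h⟩

/-- The embedding of edge sets along a bijection of the vertices. -/
def sym2Emb {W : Type*} (f : V ≃ W) : Sym2 V ↪ Sym2 W :=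
  ⟨Sym2.map f, Sym2.map.injective f.injective⟩

theorem EE_map (p : ℝ) {β γ : Type*} [DecidableEq β] [DecidableEq γ] (e : β ↪ γ) (E : Finset β)
    (f : Finset γ → ℝ) : EE p (E.map e) f = EE p E (fun ω => f (ω.map e)) := by
  induction E using Finset.induction generalizing f with
  | empty => simp [EE_empty]
  | insert a E ha ih =>
    rw [Finset.map_insert, EE_insert p (by simp [ha]), EE_insert p ha, ih, ih]
    simp [Finset.map_insert]

theorem conn_map {W : Type*} [DecidableEq W] (f : V ≃ W) {ω : Finset (Sym2 V)} {x y : V}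
    (h : Conn ω x y) : Conn (ω.map (sym2Emb f)) (f x) (f y) := by
  let φ : confGraph ω →g confGraph (ω.map (sym2Emb f)) :=
    ⟨f, fun {a b} hab => ⟨Finset.mem_map.2 ⟨s(a, b), hab.1, by simp [sym2Emb]⟩,
      fun he => hab.2 (f.injective he)⟩⟩
  exact h.map φ

theorem map_symm_map {W : Type*} [DecidableEq W] (f : V ≃ W) (ω : Finset (Sym2 V)) :
    (ω.map (sym2Emb f)).map (sym2Emb f.symm) = ω := by
  rw [Finset.map_map]
  convert Finset.map_refl
  ext e
  simp [sym2Emb, Sym2.map_map]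

theorem PE_conn_map (p : ℝ) {W : Type*} [DecidableEq W] (f : V ≃ W) (E : Finset (Sym2 V))
    (x : V) (T : Set V) :
    ENNReal.ofReal (PE p E fun ω => ConnTo ω x T) =
      ENNReal.ofReal (PE p (E.map (sym2Emb f)) fun ω => ConnTo ω (f x) (f '' T)) := by
  congr 1
  unfold PE
  rw [EE_map]
  refine EE_congr p fun ω _ => ?_
  congr 1
  refine propext ⟨fun ⟨t, ht, hc⟩ => ⟨f t, ⟨t, ht, rfl⟩, conn_map f hc⟩, ?_⟩
  rintro ⟨_, ⟨t, ht, rfl⟩, hc⟩
  refine ⟨t, ht, ?_⟩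
  have h2 := conn_map f.symm hc
  rwa [map_symm_map, Equiv.symm_apply_apply, Equiv.symm_apply_apply] at h2

end Aux

variable {p : ℝ} {R R' : Set (Sym2 V)} {x y z : V} {T T' : Set V}

theorem ofReal_PE_le_tauT (p : ℝ) {E : Finset (Sym2 V)} (hE : (E : Set (Sym2 V)) ⊆ R) (x : V)
    (T : Set V) : ENNReal.ofReal (PE p E fun ω => ConnTo ω x T) ≤ tauT p R x T :=
  le_iSup (fun E : {E : Finset (Sym2 V) // (E : Set (Sym2 V)) ⊆ R} =>
    ENNReal.ofReal (PE p (E : Finset (Sym2 V)) fun ω => ConnTo ω x T)) ⟨E, hE⟩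

theorem PE_within_le (hp0 : 0 ≤ p) (hp1 : p ≤ 1) (E : Finset (Sym2 V)) (R : Set (Sym2 V))
    (x z : V) : ENNReal.ofReal (PE p E fun s => ∃ t ⊆ s, (t : Set (Sym2 V)) ⊆ R ∧ Conn t x z) ≤
      tau p R x z := by
  classical
  set E' := E.filter (· ∈ R) with hE'
  refine le_trans (ENNReal.ofReal_le_ofReal (q := PE p E' fun ω => ConnTo ω x {z}) ?_)
    (ofReal_PE_le_tauT p (fun e he => (Finset.mem_filter.1 he).2) x {z})
  unfold PE
  rw [← EE_marginal p (Finset.filter_subset _ E) fun ω => ind (ConnTo ω x {z})]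
  refine EE_mono hp0 hp1 fun ω hω => ind_mono ?_
  rintro ⟨t, ht, htR, hc⟩
  exact connTo_singleton.2 (conn_mono (fun e he => Finset.mem_inter.2
    ⟨ht he, Finset.mem_filter.2 ⟨hω (ht he), htR he⟩⟩) hc)

theorem tauT_le_one (hp0 : 0 ≤ p) (hp1 : p ≤ 1) : tauT p R x T ≤ 1 := by
  refine iSup_le fun E => ?_
  exact ENNReal.ofReal_le_one.2 (PE_le_one hp0 hp1 _)

theorem tau_self (hp0 : 0 ≤ p) (hp1 : p ≤ 1) : tau p R x x = 1 := by
  refine le_antisymm (tauT_le_one hp0 hp1) ?_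
  have h := ofReal_PE_le_tauT (R := R) p (E := ∅) (by simp) x {x}
  rwa [PE, EE_empty, ind_of (connTo_singleton.2 (conn_refl _ x)), ENNReal.ofReal_one] at h

theorem tau_comm (p : ℝ) (R : Set (Sym2 V)) (x y : V) : tau p R x y = tau p R y x := by
  refine iSup_congr fun E => ?_
  congr 2
  funext ω
  exact propext ⟨fun h => connTo_singleton.2 (conn_symm (connTo_singleton.1 h)),
    fun h => connTo_singleton.2 (conn_symm (connTo_singleton.1 h))⟩

theorem tauT_mono (hp0 : 0 ≤ p) (hp1 : p ≤ 1) (hR : R ⊆ R') (hT : T ⊆ T') :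
    tauT p R x T ≤ tauT p R' x T' := by
  refine iSup_le fun E => le_trans ?_ (ofReal_PE_le_tauT p (E.2.trans hR) x T')
  exact ENNReal.ofReal_le_ofReal (PE_mono hp0 hp1 fun ω _ ⟨t, ht, hc⟩ => ⟨t, hT ht, hc⟩)

theorem tauT_mono_p {q : ℝ} (hp0 : 0 ≤ p) (hpq : p ≤ q) (hq1 : q ≤ 1) :
    tauT p R x T ≤ tauT q R x T := by
  refine iSup_le fun E => le_trans ?_ (ofReal_PE_le_tauT q E.2 x T)
  exact ENNReal.ofReal_le_ofReal (PE_mono_p hp0 hpq hq1 (incr_connTo x T))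

/-- Left continuity. -/
theorem tauT_le_iSup_lt {p₁ : ℝ} (h0 : 0 ≤ p₁) (h : p₁ < p) (hp1 : p ≤ 1) :
    tauT p R x T ≤ ⨆ q : Set.Ico p₁ p, tauT (q : ℝ) R x T := by
  refine iSup_le fun E => ?_
  have hlim : Tendsto (fun q : ℝ => ENNReal.ofReal (PE q (E : Finset (Sym2 V))
      fun ω => ConnTo ω x T)) (𝓝[<] p) (𝓝 (ENNReal.ofReal (PE p (E : Finset (Sym2 V))
      fun ω => ConnTo ω x T))) :=
    ((ENNReal.continuous_ofReal.comp (continuous_EE _ _)).tendsto p).mono_left nhdsWithin_le_nhds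
  refine le_of_tendsto hlim ?_
  filter_upwards [Ico_mem_nhdsLT h] with q hq
  exact (ofReal_PE_le_tauT q E.2 x T).trans (le_iSup_of_le ⟨q, hq⟩ le_rfl)

theorem tau_pos (hp : 0 < p) (hp1 : p ≤ 1) {G : SimpleGraph V} (w : G.Walk x y)
    (hw : ∀ e ∈ w.edges, e ∈ R) : ENNReal.ofReal (p ^ w.length) ≤ tau p R x y := by
  refine le_trans ?_ (ofReal_PE_le_tauT p (E := w.edges.toFinset)
    (fun e he => hw e (List.mem_toFinset.1 he)) x {y})
  refine ENNReal.ofReal_le_ofReal ?_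
  refine le_trans (pow_le_pow_of_le_one hp.le hp1
    (le_trans (List.toFinset_card_le _) w.length_edges.le)) ?_
  exact pow_card_le_PE hp.le hp1 (connTo_singleton.2 (conn_of_gwalk w subset_rfl))

/-- Moving the start along a walk. -/
theorem walk_mul_tauT (hp0 : 0 ≤ p) (hp1 : p ≤ 1) {G : SimpleGraph V} (w : G.Walk x z)
    (hw : ∀ e ∈ w.edges, e ∈ R) :
    ENNReal.ofReal (p ^ w.length) * tauT p R z T ≤ tauT p R x T := by
  rw [tauT, ENNReal.mul_iSup]
  refine iSup_le fun E => ?_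
  set W := w.edges.toFinset with hW
  have hsub : (((E : Finset (Sym2 V)) ∪ W : Finset (Sym2 V)) : Set (Sym2 V)) ⊆ R := by
    rw [Finset.coe_union]
    exact Set.union_subset E.2 fun e he => hw e (List.mem_toFinset.1 he)
  refine le_trans ?_ (ofReal_PE_le_tauT p hsub x T)
  rw [← ENNReal.ofReal_mul (pow_nonneg hp0 _)]
  refine ENNReal.ofReal_le_ofReal ?_
  have h1 : p ^ w.length ≤ PE p ((E : Finset (Sym2 V)) ∪ W) (fun ω => W ⊆ ω) :=
    (pow_le_pow_of_le_one hp0 hp1 (le_trans (List.toFinset_card_le _) w.length_edges.le)).trans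
      ((pow_card_le_PE hp0 hp1 (A := fun ω => W ⊆ ω) subset_rfl).trans
        (PE_mono_set hp0 hp1 (fun a b hab h => h.trans hab) Finset.subset_union_right))
  have h2 : PE p (E : Finset (Sym2 V)) (fun ω => ConnTo ω z T) ≤
      PE p ((E : Finset (Sym2 V)) ∪ W) (fun ω => ConnTo ω z T) :=
    PE_mono_set hp0 hp1 (incr_connTo z T) Finset.subset_union_left
  refine (mul_le_mul h1 h2 (PE_nonneg hp0 hp1 _) (PE_nonneg hp0 hp1 _)).trans ?_
  refine (harris hp0 hp1 (fun a b hab h => h.trans hab) (incr_connTo z T)).trans ?_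
  exact PE_mono hp0 hp1 fun ω _ ⟨hWω, t, ht, hc⟩ =>
    ⟨t, ht, conn_trans (conn_of_gwalk w hWω) hc⟩

/-- Transport by a bijection. -/
theorem tauT_map (p : ℝ) {W : Type*} [DecidableEq W] (f : V ≃ W) (R : Set (Sym2 V)) (x : V)
    (T : Set V) : tauT p (Sym2.map f '' R) (f x) (f '' T) = tauT p R x T := by
  refine le_antisymm ?_ ?_
  · refine iSup_le fun E => ?_
    rw [PE_conn_map p f.symm (E : Finset (Sym2 W)) (f x) (f '' T), Equiv.symm_apply_apply,
      Equiv.symm_image_image]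
    refine ofReal_PE_le_tauT p ?_ x T
    intro e he
    rw [Finset.coe_map] at he
    obtain ⟨d, hd, rfl⟩ := he
    obtain ⟨c, hc, rfl⟩ := E.2 hd
    simpa [sym2Emb, Sym2.map_map] using hc
  · refine iSup_le fun E => ?_
    rw [PE_conn_map p f (E : Finset (Sym2 V)) x T]
    refine ofReal_PE_le_tauT p ?_ (f x) (f '' T)
    rw [Finset.coe_map]
    exact Set.image_mono E.2

theorem tauT_le_tsum (hp0 : 0 ≤ p) (hp1 : p ≤ 1) (R : Set (Sym2 V)) (x : V) (T : Set V) :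
    tauT p R x T ≤ ∑' t : T, tau p R x (t : V) := by
  classical
  refine iSup_le fun E => ?_
  set F := (insert x (verts (E : Finset (Sym2 V)))).filter (· ∈ T) with hF
  have hFT : ∀ t ∈ F, t ∈ T := fun t ht => (Finset.mem_filter.1 ht).2
  refine le_trans (b := ∑ t ∈ F, tau p R x t) ?_ (finset_le_tsum T (fun t => tau p R x t) hFT)
  refine le_trans (ENNReal.ofReal_le_ofReal (q := ∑ t ∈ F, PE p (E : Finset (Sym2 V))
    fun ω => ConnTo ω x {t}) ?_) ?_
  · refine le_trans (PE_mono hp0 hp1 (B := fun ω => ∃ t ∈ F, ConnTo ω x {t})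
      fun ω hω ⟨t, ht, hc⟩ => ⟨t, Finset.mem_filter.2 ⟨conn_mem hω hc, ht⟩,
        connTo_singleton.2 hc⟩) (PE_exists_le hp0 hp1 F _)
  · rw [ENNReal.ofReal_sum_of_nonneg fun t _ => PE_nonneg hp0 hp1 _]
    exact Finset.sum_le_sum fun t _ => ofReal_PE_le_tauT p E.2 x {t}

/-- The BK bound through one cut vertex. -/
theorem tau_le_cut (hp0 : 0 ≤ p) (hp1 : p ≤ 1) (R₁ R₂ : Set (Sym2 V)) (Z : Set V)
    (h : ∀ ω : Finset (Sym2 V), (ω : Set (Sym2 V)) ⊆ R → Conn ω x y →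
      ∃ z ∈ Z, Box (fun s => ∃ t ⊆ s, (t : Set (Sym2 V)) ⊆ R₁ ∧ Conn t x z)
        (fun s => ∃ t ⊆ s, (t : Set (Sym2 V)) ⊆ R₂ ∧ Conn t z y) ω) :
    tau p R x y ≤ ∑' z : Z, tau p R₁ x (z : V) * tau p R₂ (z : V) y := by
  classical
  refine iSup_le fun E => ?_
  set F := (insert x (verts (E : Finset (Sym2 V)))).filter (· ∈ Z) with hF
  have hFZ : ∀ t ∈ F, t ∈ Z := fun t ht => (Finset.mem_filter.1 ht).2
  let A := fun z => fun s : Finset (Sym2 V) => ∃ t ⊆ s, (t : Set (Sym2 V)) ⊆ R₁ ∧ Conn t x z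
  let B := fun z => fun s : Finset (Sym2 V) => ∃ t ⊆ s, (t : Set (Sym2 V)) ⊆ R₂ ∧ Conn t z y
  refine le_trans ?_ (finset_le_tsum Z (fun z => tau p R₁ x z * tau p R₂ z y) hFZ)
  refine le_trans (ENNReal.ofReal_le_ofReal (q := ∑ z ∈ F,
    PE p (E : Finset (Sym2 V)) (A z) * PE p (E : Finset (Sym2 V)) (B z)) ?_) ?_
  · refine le_trans (PE_mono hp0 hp1 (B := fun ω => ∃ z ∈ F, Box (A z) (B z) ω)
      fun ω hω hc => ?_) ((PE_exists_le hp0 hp1 F _).trans
        (Finset.sum_le_sum fun z _ => bk hp0 hp1 (incr_within R₁ x z) (incr_within R₂ z y)))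
    obtain ⟨z, hz, hbox⟩ := h ω (subset_trans (Finset.coe_subset.2 hω) E.2)
      (connTo_singleton.1 hc)
    refine ⟨z, Finset.mem_filter.2 ⟨?_, hz⟩, hbox⟩
    obtain ⟨a, b, -, ha, -, ⟨t, ht, -, hxz⟩, -⟩ := hbox
    exact conn_mem ((ht.trans ha).trans hω) hxz
  · rw [ENNReal.ofReal_sum_of_nonneg fun z _ => mul_nonneg (PE_nonneg hp0 hp1 _)
      (PE_nonneg hp0 hp1 _)]
    refine Finset.sum_le_sum fun z _ => ?_
    rw [ENNReal.ofReal_mul (PE_nonneg hp0 hp1 _)]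
    exact mul_le_mul' (PE_within_le hp0 hp1 _ R₁ x z) (PE_within_le hp0 hp1 _ R₂ z y)

/-- The BK bound through two cut vertices, or none. -/
theorem tau_le_cut₂ (hp0 : 0 ≤ p) (hp1 : p ≤ 1) (R₁ R₂ R₃ : Set (Sym2 V)) (Z : Set V)
    (h : ∀ ω : Finset (Sym2 V), (ω : Set (Sym2 V)) ⊆ R → Conn ω x y →
      (∃ t ⊆ ω, (t : Set (Sym2 V)) ⊆ R₁ ∧ Conn t x y) ∨
      ∃ z₁ ∈ Z, ∃ z₂ ∈ Z, Box (Box (fun s => ∃ t ⊆ s, (t : Set (Sym2 V)) ⊆ R₁ ∧ Conn t x z₁)
        (fun s => ∃ t ⊆ s, (t : Set (Sym2 V)) ⊆ R₂ ∧ Conn t z₁ z₂))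
        (fun s => ∃ t ⊆ s, (t : Set (Sym2 V)) ⊆ R₃ ∧ Conn t z₂ y) ω) :
    tau p R x y ≤ tau p R₁ x y + ∑' z₁ : Z, ∑' z₂ : Z,
      tau p R₁ x (z₁ : V) * tau p R₂ (z₁ : V) (z₂ : V) * tau p R₃ (z₂ : V) y := by
  classical
  refine iSup_le fun E => ?_
  set F := (insert x (verts (E : Finset (Sym2 V)))).filter (· ∈ Z) with hF
  have hFZ : ∀ t ∈ F, t ∈ Z := fun t ht => (Finset.mem_filter.1 ht).2
  let A := fun z => fun s : Finset (Sym2 V) => ∃ t ⊆ s, (t : Set (Sym2 V)) ⊆ R₁ ∧ Conn t x z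
  let M := fun z w => fun s : Finset (Sym2 V) => ∃ t ⊆ s, (t : Set (Sym2 V)) ⊆ R₂ ∧ Conn t z w
  let B := fun z => fun s : Finset (Sym2 V) => ∃ t ⊆ s, (t : Set (Sym2 V)) ⊆ R₃ ∧ Conn t z y
  let g := fun z w => tau p R₁ x z * tau p R₂ z w * tau p R₃ w y
  refine le_trans ?_ (add_le_add le_rfl (le_trans
    (Finset.sum_le_sum fun z _ => finset_le_tsum Z (g z) hFZ)
    (finset_le_tsum Z (fun z => ∑' w : Z, g z w) hFZ)))
  refine le_trans (ENNReal.ofReal_le_ofReal (q := PE p (E : Finset (Sym2 V))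
    (fun s => ∃ t ⊆ s, (t : Set (Sym2 V)) ⊆ R₁ ∧ Conn t x y) + ∑ z ∈ F, ∑ w ∈ F,
    PE p (E : Finset (Sym2 V)) (A z) * PE p (E : Finset (Sym2 V)) (M z w) *
      PE p (E : Finset (Sym2 V)) (B w)) ?_) ?_
  · refine le_trans (PE_mono hp0 hp1 (B := fun ω => (∃ t ⊆ ω, (t : Set (Sym2 V)) ⊆ R₁ ∧
        Conn t x y) ∨ ∃ z ∈ F, ∃ w ∈ F, Box (Box (A z) (M z w)) (B w) ω)
      fun ω hω hc => ?_) ?_
    · rcases h ω (subset_trans (Finset.coe_subset.2 hω) E.2) (connTo_singleton.1 hc) with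
        h1 | ⟨z, hz, w, hw, hbox⟩
      · exact Or.inl h1
      · obtain ⟨a, b, hd, ha, hb, hab, hB⟩ := hbox
        obtain ⟨a', b', -, ha', hb', ⟨t, ht, -, hxz⟩, t', ht', -, hzw⟩ := id hab
        have hz' : z ∈ insert x (verts (E : Finset (Sym2 V))) :=
          conn_mem (((ht.trans ha').trans ha).trans hω) hxz
        have hw' : w ∈ insert x (verts (E : Finset (Sym2 V))) :=
          conn_mem hω (conn_trans (conn_mono ((ht.trans ha').trans ha) hxz)
            (conn_mono ((ht'.trans hb').trans ha) hzw))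
        exact Or.inr ⟨z, Finset.mem_filter.2 ⟨hz', hz⟩, w, Finset.mem_filter.2 ⟨hw', hw⟩,
          a, b, hd, ha, hb, hab, hB⟩
    · refine (PE_or_le hp0 hp1 _ _).trans (add_le_add le_rfl ?_)
      refine (PE_exists_le hp0 hp1 F _).trans (Finset.sum_le_sum fun z _ => ?_)
      refine (PE_exists_le hp0 hp1 F _).trans (Finset.sum_le_sum fun w _ => ?_)
      refine (bk hp0 hp1 (incr_boxConn _ _)
        (incr_within R₃ w y)).trans ?_
      exact mul_le_mul_of_nonneg_right (bk hp0 hp1 (incr_within R₁ x z) (incr_within R₂ z w))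
        (PE_nonneg hp0 hp1 _)
  · have hnn : ∀ z w, 0 ≤ PE p (E : Finset (Sym2 V)) (A z) * PE p (E : Finset (Sym2 V)) (M z w) *
        PE p (E : Finset (Sym2 V)) (B w) := fun z w => mul_nonneg (mul_nonneg
      (PE_nonneg hp0 hp1 _) (PE_nonneg hp0 hp1 _)) (PE_nonneg hp0 hp1 _)
    rw [ENNReal.ofReal_add (PE_nonneg hp0 hp1 _)
      (Finset.sum_nonneg fun z _ => Finset.sum_nonneg fun w _ => hnn z w),
      ENNReal.ofReal_sum_of_nonneg fun z _ => Finset.sum_nonneg fun w _ => hnn z w]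
    refine add_le_add (PE_within_le hp0 hp1 _ R₁ x y) (Finset.sum_le_sum fun z _ => ?_)
    rw [ENNReal.ofReal_sum_of_nonneg fun w _ => hnn z w]
    refine Finset.sum_le_sum fun w _ => ?_
    rw [ENNReal.ofReal_mul (mul_nonneg (PE_nonneg hp0 hp1 _) (PE_nonneg hp0 hp1 _)),
      ENNReal.ofReal_mul (PE_nonneg hp0 hp1 _)]
    exact mul_le_mul' (mul_le_mul' (PE_within_le hp0 hp1 _ R₁ x z)
      (PE_within_le hp0 hp1 _ R₂ z w)) (PE_within_le hp0 hp1 _ R₃ w y)

/-- A set of targets: tree graph bound for the second moment inside finite sums. -/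
theorem sum_pair_le (hp0 : 0 ≤ p) (hp1 : p ≤ 1) {E : Finset (Sym2 V)}
    (hE : (E : Set (Sym2 V)) ⊆ R) (z : V) (F : Finset V) :
    ENNReal.ofReal (∑ a ∈ F, ∑ b ∈ F, PE p E fun ω => Conn ω z a ∧ Conn ω z b) ≤
      ∑' v : V, tau p R z v * (∑ a ∈ F, tau p R v a) * (∑ b ∈ F, tau p R v b) := by
  classical
  set G' := insert z (verts E) with hG'
  have hnn : ∀ a b, 0 ≤ PE p E (fun ω => Conn ω a b) := fun a b => PE_nonneg hp0 hp1 _
  have hle : ∀ a b, ENNReal.ofReal (PE p E fun ω => Conn ω a b) ≤ tau p R a b := by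
    intro a b
    refine le_trans (ENNReal.ofReal_le_ofReal (PE_mono hp0 hp1 fun ω _ hc => ?_))
      (ofReal_PE_le_tauT p hE a {b})
    exact connTo_singleton.2 hc
  calc ENNReal.ofReal (∑ a ∈ F, ∑ b ∈ F, PE p E fun ω => Conn ω z a ∧ Conn ω z b)
      ≤ ENNReal.ofReal (∑ a ∈ F, ∑ b ∈ F, ∑ v ∈ G', PE p E (fun ω => Conn ω z v) *
          PE p E (fun ω => Conn ω v a) * PE p E (fun ω => Conn ω v b)) :=
        ENNReal.ofReal_le_ofReal (Finset.sum_le_sum fun a _ => Finset.sum_le_sum fun b _ =>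
          treeGraph hp0 hp1 E z a b)
    _ = ∑ a ∈ F, ∑ b ∈ F, ∑ v ∈ G', ENNReal.ofReal (PE p E fun ω => Conn ω z v) *
          ENNReal.ofReal (PE p E fun ω => Conn ω v a) *
          ENNReal.ofReal (PE p E fun ω => Conn ω v b) := by
        rw [ENNReal.ofReal_sum_of_nonneg fun a _ => Finset.sum_nonneg fun b _ =>
          Finset.sum_nonneg fun v _ => mul_nonneg (mul_nonneg (hnn _ _) (hnn _ _)) (hnn _ _)]
        refine Finset.sum_congr rfl fun a _ => ?_
        rw [ENNReal.ofReal_sum_of_nonneg fun b _ =>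
          Finset.sum_nonneg fun v _ => mul_nonneg (mul_nonneg (hnn _ _) (hnn _ _)) (hnn _ _)]
        refine Finset.sum_congr rfl fun b _ => ?_
        rw [ENNReal.ofReal_sum_of_nonneg fun v _ =>
          mul_nonneg (mul_nonneg (hnn _ _) (hnn _ _)) (hnn _ _)]
        refine Finset.sum_congr rfl fun v _ => ?_
        rw [ENNReal.ofReal_mul (mul_nonneg (hnn _ _) (hnn _ _)), ENNReal.ofReal_mul (hnn _ _)]
    _ ≤ ∑ a ∈ F, ∑ b ∈ F, ∑ v ∈ G', tau p R z v * tau p R v a * tau p R v b :=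
        Finset.sum_le_sum fun a _ => Finset.sum_le_sum fun b _ => Finset.sum_le_sum fun v _ =>
          mul_le_mul' (mul_le_mul' (hle _ _) (hle _ _)) (hle _ _)
    _ = ∑ v ∈ G', tau p R z v * (∑ a ∈ F, tau p R v a) * (∑ b ∈ F, tau p R v b) := by
        rw [Finset.sum_congr rfl fun a _ => Finset.sum_comm, Finset.sum_comm]
        refine Finset.sum_congr rfl fun v _ => ?_
        simp only [Finset.mul_sum, Finset.sum_mul]
        exact Finset.sum_comm
    _ ≤ _ := ENNReal.sum_le_tsum _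

end Vale.Agent.P165.Tree
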