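import Vale.Agent.P165.Main
import Vale.Agent.P165.Tree.Tau
import Vale.Agent.P165.Tree.Fin.Sharp

/-!
# From finite sums to the product measure (P165, tree quotient)
-/

namespace Vale.Agent.P165.Tree

open MeasureTheory ProbabilityTheory
open scoped ENNReal

variable {V : Type*} [DecidableEq V] {G : SimpleGraph V}

open Classical in
/-- The open edges of a finite set. -/
noncomputable def opens (E : Finset (Sym2 V)) (ω : Sym2 V → Bool) : Finset (Sym2 V) :=
  E.filter fun e => ω e = true

theorem opens_mono {E E' : Finset (Sym2 V)} (h : E ⊆ E') (ω : Sym2 V → Bool) :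
    opens E ω ⊆ opens E' ω := Finset.filter_subset_filter _ h

/-- The law of the open edges of a finite set. -/
theorem measure_opens (p : unitInterval) (E : Finset (Sym2 V)) (A : Finset (Sym2 V) → Prop) :
    bondMeasure V p {ω | A (opens E ω)} = ENNReal.ofReal (PE (p : ℝ) E A) ∧
      MeasurableSet {ω : Sym2 V → Bool | A (opens E ω)} := by
  classical
  let cyl : Finset (Sym2 V) → Set (Sym2 V → Bool) := fun a =>
    (E : Set (Sym2 V)).pi fun e => if e ∈ a then ({true} : Set Bool) else {false}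
  have hcyl : ∀ a ⊆ E, ∀ ω, ω ∈ cyl a ↔ opens E ω = a := by
    intro a ha ω
    simp only [cyl, Set.mem_pi, Finset.mem_coe, opens]
    constructor
    · intro h
      ext e
      simp only [Finset.mem_filter]
      constructor
      · rintro ⟨he, ht⟩
        by_contra hne
        have := h e he
        simp [hne, ht] at this
      · intro he
        refine ⟨ha he, ?_⟩
        simpa [he] using h e (ha he)
    · rintro rfl e he
      by_cases ht : ω e = true <;> simp [he, ht]
  have hset : {ω : Sym2 V → Bool | A (opens E ω)} = ⋃ a ∈ E.powerset.filter A, cyl a := by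
    ext ω
    simp only [Set.mem_ofPred_eq, Set.mem_iUnion, exists_prop, Finset.mem_filter,
      Finset.mem_powerset]
    constructor
    · intro h
      exact ⟨opens E ω, ⟨Finset.filter_subset _ _, h⟩,
        (hcyl _ (Finset.filter_subset _ _) ω).2 rfl⟩
    · rintro ⟨a, ⟨ha, hA⟩, hω⟩
      rwa [(hcyl a ha ω).1 hω]
  have hm : ∀ a, MeasurableSet (cyl a) := fun a =>
    MeasurableSet.pi E.countable_toSet fun e _ => MeasurableSet.of_discrete
  refine ⟨?_, hset ▸ Finset.measurableSet_biUnion _ fun a _ => hm a⟩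
  have hd : Set.PairwiseDisjoint (↑(E.powerset.filter A)) cyl := by
    intro a ha b hb hab
    simp only [Finset.coe_filter, Finset.mem_powerset, Set.mem_ofPred_eq] at ha hb
    refine Set.disjoint_left.2 fun ω h1 h2 => hab ?_
    rw [← (hcyl a ha.1 ω).1 h1, ← (hcyl b hb.1 ω).1 h2]
  rw [hset, measure_biUnion_finset hd fun a _ => hm a]
  have hwt : ∀ a ∈ E.powerset.filter A,
      bondMeasure V p (cyl a) = ENNReal.ofReal (wt (p : ℝ) E a) := by
    intro a ha
    have haE : a ⊆ E := Finset.mem_powerset.1 (Finset.mem_filter.1 ha).1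
    simp only [cyl, bondMeasure]
    rw [Measure.infinitePi_pi _ fun _ _ => MeasurableSet.of_discrete,
      ← Finset.union_sdiff_of_subset haE, Finset.prod_union Finset.disjoint_sdiff,
      Finset.union_sdiff_of_subset haE, wt, ENNReal.ofReal_mul (pow_nonneg p.2.1 _),
      ENNReal.ofReal_pow p.2.1, ENNReal.ofReal_pow (sub_nonneg.2 p.2.2)]
    refine congrArg₂ (· * ·) ?_ ?_
    · rw [Finset.prod_congr rfl (g := fun _ => ENNReal.ofReal (p : ℝ)) fun e he => ?_,
        Finset.prod_const]
      rw [if_pos he, bernoulliMeasure_apply_of_mem_of_notMem _ (MeasurableSet.singleton _) rfl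
        (by simp), ← ENNReal.ofReal_coe_nnreal]
      rfl
    · rw [Finset.prod_congr rfl (g := fun _ => ENNReal.ofReal (1 - (p : ℝ))) fun e he => ?_,
        Finset.prod_const]
      rw [if_neg (Finset.mem_sdiff.1 he).2, bernoulliMeasure_apply_of_notMem_of_mem _
        (MeasurableSet.singleton _) (by simp) rfl, ← ENNReal.ofReal_coe_nnreal]
      rfl
  rw [Finset.sum_congr rfl hwt, ← ENNReal.ofReal_sum_of_nonneg
    fun a _ => wt_nonneg p.2.1 p.2.2 a]
  congr 1
  rw [PE, EE, Finset.sum_filter]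
  refine Finset.sum_congr rfl fun a _ => ?_
  by_cases hA : A a <;> simp [ind, hA]

/-- An increasing event decided by finitely many edges of `R`. -/
def finEvent (R : Set (Sym2 V)) (A : Finset (Sym2 V) → Prop) : Set (Sym2 V → Bool) :=
  ⋃ E : {E : Finset (Sym2 V) // (E : Set (Sym2 V)) ⊆ R}, {ω | A (opens E ω)}

theorem measure_finEvent [Countable V] (p : unitInterval) (R : Set (Sym2 V))
    {A : Finset (Sym2 V) → Prop} (hA : Incr A) :
    bondMeasure V p (finEvent R A) =
      ⨆ E : {E : Finset (Sym2 V) // (E : Set (Sym2 V)) ⊆ R},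
        ENNReal.ofReal (PE (p : ℝ) (E : Finset (Sym2 V)) A) := by
  classical
  have hd : Directed (· ⊆ ·) fun E : {E : Finset (Sym2 V) // (E : Set (Sym2 V)) ⊆ R} =>
      {ω : Sym2 V → Bool | A (opens E ω)} := fun E E' =>
    ⟨⟨(E : Finset _) ∪ E', by rw [Finset.coe_union]; exact Set.union_subset E.2 E'.2⟩,
      fun ω h => hA _ _ (opens_mono (E := (E : Finset _)) Finset.subset_union_left ω) h,
      fun ω h => hA _ _ (opens_mono (E := (E' : Finset _)) Finset.subset_union_right ω) h⟩
  rw [finEvent, hd.measure_iUnion]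
  exact iSup_congr fun E => (measure_opens p _ A).1

theorem measurableSet_finEvent [Countable V] (R : Set (Sym2 V)) (A : Finset (Sym2 V) → Prop) :
    MeasurableSet (finEvent R A) :=
  MeasurableSet.iUnion fun E => (measure_opens (0 : unitInterval) _ A).2

theorem connTo_finEvent (x : V) (T : Set V) :
    finEvent G.edgeSet (fun a => ConnTo a x T) = {ω | ∃ t ∈ T, t ∈ cluster G ω x} := by
  ext ω
  simp only [finEvent, Set.mem_iUnion, Set.mem_ofPred_eq, cluster]
  constructor
  · rintro ⟨⟨E, hE⟩, t, ht, hc⟩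
    refine ⟨t, ht, SimpleGraph.Reachable.mono ?_ hc⟩
    intro a b hab
    obtain ⟨h1, h2⟩ := Finset.mem_filter.1 (Finset.mem_coe.1 hab.1)
    exact ⟨hE h1, h2⟩
  · rintro ⟨t, ht, ⟨w⟩⟩
    refine ⟨⟨w.edges.toFinset, ?_⟩, t, ht, conn_of_gwalk w ?_⟩
    · intro e he
      have := w.edges_subset_edgeSet (List.mem_toFinset.1 he)
      induction e using Sym2.ind with
      | _ a b => exact this.1
    · intro e he
      refine Finset.mem_filter.2 ⟨he, ?_⟩
      have := w.edges_subset_edgeSet (List.mem_toFinset.1 he)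
      induction e using Sym2.ind with
      | _ a b => exact this.2

/-- The cluster of `x` leaves the finite set `S`. -/
def leave (G : SimpleGraph V) (x : V) (S : Finset V) : Set (Sym2 V → Bool) :=
  finEvent G.edgeSet fun a => ConnTo a x ((S : Set V)ᶜ)

theorem infinite_eq_iInter (x : V) :
    {ω : Sym2 V → Bool | (cluster G ω x).Infinite} = ⋂ S : Finset V, leave G x S := by
  ext ω
  simp only [leave, connTo_finEvent, Set.mem_iInter, Set.mem_ofPred_eq, Set.mem_compl_iff,
    Finset.mem_coe]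
  constructor
  · intro h S
    obtain ⟨t, ht, htS⟩ := h.exists_notMem_finset S
    exact ⟨t, htS, ht⟩
  · intro h hfin
    obtain ⟨t, htS, ht⟩ := h hfin.toFinset
    exact htS (hfin.mem_toFinset.2 ht)

theorem leave_anti (x : V) {S T : Finset V} (h : S ⊆ T) : leave G x T ⊆ leave G x S := by
  simp only [leave, connTo_finEvent]
  rintro ω ⟨t, ht, hc⟩
  exact ⟨t, fun hS => ht (h hS), hc⟩

theorem le_measure_infinite [Countable V] (p : unitInterval) (x : V) {c : ℝ≥0∞}
    (h : ∀ S, c ≤ bondMeasure V p (leave G x S)) :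
    c ≤ bondMeasure V p {ω | (cluster G ω x).Infinite} := by
  rw [infinite_eq_iInter, Directed.measure_iInter (s := leave G x)
    (fun S => (measurableSet_finEvent _ _).nullMeasurableSet) ?_
    ⟨∅, measure_ne_top _ _⟩]
  · exact le_iInf h
  · exact fun S T => ⟨S ∪ T, leave_anti x Finset.subset_union_left,
      leave_anti x Finset.subset_union_right⟩

/-- Harris' inequality for two increasing events decided by finitely many edges. -/
theorem harris_finEvent [Countable V] (p : unitInterval) (R : Set (Sym2 V))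
    {A B : Finset (Sym2 V) → Prop} (hA : Incr A) (hB : Incr B) :
    bondMeasure V p (finEvent R A) * bondMeasure V p (finEvent R B) ≤
      bondMeasure V p (finEvent R fun a => A a ∧ B a) := by
  classical
  rw [measure_finEvent p R hA, measure_finEvent p R hB, measure_finEvent p R
    (fun a b hab h => ⟨hA a b hab h.1, hB a b hab h.2⟩), ENNReal.iSup_mul]
  refine iSup_le fun E => ?_
  rw [ENNReal.mul_iSup]
  refine iSup_le fun E' => ?_
  refine le_trans ?_ (le_iSup_of_le ⟨(E : Finset _) ∪ E', by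
    rw [Finset.coe_union]; exact Set.union_subset E.2 E'.2⟩ le_rfl)
  rw [← ENNReal.ofReal_mul (PE_nonneg p.2.1 p.2.2 _)]
  refine ENNReal.ofReal_le_ofReal ((mul_le_mul
    (PE_mono_set p.2.1 p.2.2 hA Finset.subset_union_left)
    (PE_mono_set p.2.1 p.2.2 hB Finset.subset_union_right)
    (PE_nonneg p.2.1 p.2.2 _) (PE_nonneg p.2.1 p.2.2 _)).trans (harris p.2.1 p.2.2 hA hB))

theorem bondMeasure_conn [Countable V] (p : unitInterval) (x y : V) :
    bondMeasure V p {ω | y ∈ cluster G ω x} = tau (p : ℝ) G.edgeSet x y := by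
  rw [tau, tauT, ← measure_finEvent p G.edgeSet (incr_connTo x {y}), connTo_finEvent]
  simp

/-- Quasi-transitivity with finitely many representatives, and a sharpness criterion, give
percolation. -/
theorem pCritical_le [G.LocallyFinite] (hG : G.Connected) {p : unitInterval} (hp : 0 < (p : ℝ))
    (x : V)
    (hφ : ∀ (S : Finset V) (E : Finset (Sym2 V)), x ∈ S → (E : Set (Sym2 V)) ⊆ G.edgeSet →
      (∀ e ∈ G.edgeSet, (∃ v ∈ e, v ∈ S) → e ∈ E) → 1 ≤ exitSum (p : ℝ) E S x) :
    pCritical G ≤ p := by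
  classical
  have : Countable V := countable_of_connected G hG
  have hinf : Infinite V := by
    by_contra hfin
    have : Finite V := not_infinite_iff_finite.1 hfin
    have := Fintype.ofFinite V
    have h := hφ Finset.univ (G.edgeSet.toFinite.toFinset) (Finset.mem_univ x) (by simp)
      (fun e he _ => by simpa using he)
    simp [exitSum] at h
    linarith
  have hne : ((fun p : unitInterval => (p : ℝ)) ''
      {p | 0 < bondMeasure V p (hasInfiniteCluster G)}).Nonempty := by
    refine ⟨1, 1, ?_, rfl⟩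
    refine lt_of_lt_of_le (b := bondMeasure V 1 (hasUniqueInfiniteCluster G))
      (by rw [unique_one hG]; exact one_pos)
      (measure_mono fun ω hω => ⟨hω.choose, hω.choose_spec.1⟩)
  have hbdd : BddBelow ((fun p : unitInterval => (p : ℝ)) ''
      {p | 0 < bondMeasure V p (hasInfiniteCluster G)}) :=
    ⟨0, by rintro _ ⟨q, -, rfl⟩; exact q.2.1⟩
  by_cases hp1 : (p : ℝ) = 1
  · rw [hp1]
    obtain ⟨_, q, hq, rfl⟩ := hne
    exact (csInf_le hbdd ⟨q, hq, rfl⟩).trans q.2.2
  refine le_of_forall_gt_imp_ge_of_dense fun q' hq' => ?_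
  obtain ⟨q, hq, hq1, hqq⟩ : ∃ q : ℝ, (p : ℝ) < q ∧ q < 1 ∧ q ≤ q' := by
    have hp1' : (p : ℝ) < 1 := lt_of_le_of_ne p.2.2 hp1
    refine ⟨min q' (((p : ℝ) + 1) / 2), lt_min hq' (by linarith), ?_, min_le_left _ _⟩
    exact lt_of_le_of_lt (min_le_right _ _) (by linarith)
  refine le_trans (csInf_le hbdd (a := q) ⟨⟨q, by linarith, hq1.le⟩, ?_, rfl⟩) hqq
  have hc : (0 : ℝ) < 1 - Real.exp (-(q - (p : ℝ))) := by
    rw [sub_pos, Real.exp_lt_one_iff]; linarith
  refine lt_of_lt_of_le (lt_of_lt_of_le (ENNReal.ofReal_pos.2 hc)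
    (le_measure_infinite (G := G) (⟨q, by linarith, hq1.le⟩ : unitInterval) x fun S₀ => ?_))
    (measure_mono fun ω hω => ⟨x, hω⟩)
  rw [leave, measure_finEvent _ _ (incr_connTo x _)]
  set E₀ : Finset (Sym2 V) := S₀.biUnion fun v => G.incidenceFinset v with hE₀
  have hE₀' : ∀ e, e ∈ E₀ ↔ e ∈ G.edgeSet ∧ ∃ v ∈ e, v ∈ S₀ := by
    intro e
    simp only [hE₀, Finset.mem_biUnion, SimpleGraph.mem_incidenceFinset,
      SimpleGraph.incidenceSet, Set.mem_ofPred_eq]
    constructor
    · rintro ⟨v, hv, he, hve⟩; exact ⟨he, v, hve, hv⟩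
    · rintro ⟨he, v, hve, hv⟩; exact ⟨v, hv, he, hve⟩
  refine le_iSup_of_le ⟨E₀, fun e he => ((hE₀' e).1 he).1⟩ (ENNReal.ofReal_le_ofReal ?_)
  by_cases hx : x ∈ S₀
  · exact sharp hp hq.le hq1 E₀
      (fun e he => G.not_isDiag_of_mem_edgeSet ((hE₀' e).1 he).1) S₀ x
      fun S hS hxS => hφ S E₀ hxS (fun e he => ((hE₀' e).1 he).1)
        fun e he ⟨v, hve, hv⟩ => (hE₀' e).2 ⟨he, v, hve, hS hv⟩
  · refine le_trans (by linarith [Real.exp_pos (-(q - (p : ℝ)))]) (le_trans (le_of_eq
      (EE_const q E₀ 1).symm) (EE_mono (by linarith) hq1.le fun ω _ => ?_))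
    rw [ind_of ⟨x, by simpa using hx, conn_refl ω x⟩]

/-- A two point function that takes arbitrarily small values excludes uniqueness. -/
theorem le_pUniqueness [G.LocallyFinite] (hG : G.Connected) [Infinite V] (S : Finset V)
    (horb : ∀ x : V, ∃ f : G ≃g G, ∃ s ∈ S, f s = x) {p' : ℝ} (hp1 : p' ≤ 1)
    (h : ∀ δ : ℝ≥0∞, 0 < δ → ∃ x y : V, tau p' G.edgeSet x y ≤ δ) :
    p' ≤ pUniqueness G := by
  classical
  have : Countable V := countable_of_connected G hG
  refine le_csInf ⟨1, 1, unique_one hG, rfl⟩ ?_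
  rintro _ ⟨q, hq, rfl⟩
  by_contra hlt
  push Not at hlt
  set μ := bondMeasure V q
  have hU : μ (hasUniqueInfiniteCluster G)ᶜ = 0 :=
    (prob_compl_eq_zero_iff measurableSet_unique).2 hq
  set θ : V → ℝ≥0∞ := fun x => μ {ω | (cluster G ω x).Infinite} with hθ
  obtain ⟨x₀, hx₀⟩ : ∃ x, θ x ≠ 0 := by
    by_contra hall
    push Not at hall
    have hle : μ (hasUniqueInfiniteCluster G) ≤ μ (⋃ x, {ω | (cluster G ω x).Infinite}) :=
      measure_mono fun ω hω => Set.mem_iUnion.2 ⟨hω.choose, hω.choose_spec.1⟩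
    rw [hq, measure_iUnion_null hall] at hle
    simp at hle
  have hq0 : 0 < (q : ℝ) := by
    refine lt_of_le_of_ne q.2.1 fun h0 => hx₀ (le_antisymm ?_ zero_le)
    refine le_trans (measure_mono ((infinite_eq_iInter (G := G) x₀).le.trans
      (Set.iInter_subset _ {x₀}))) ?_
    rw [leave, measure_finEvent _ _ (incr_connTo x₀ _)]
    refine iSup_le fun E => ?_
    rw [← h0, ENNReal.ofReal_eq_zero.2 (le_of_eq ?_)]
    rw [PE, EE]
    refine Finset.sum_eq_zero fun a _ => ?_
    by_cases ha : a = ∅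
    · subst ha
      rw [ind_of_not, mul_zero]
      rintro ⟨t, ht, hc⟩
      have := conn_mem (E := ∅) subset_rfl hc
      simp [verts] at this
      simp [this] at ht
    · simp [wt, zero_pow (Finset.card_ne_zero.2 (Finset.nonempty_iff_ne_empty.2 ha))]
  have hpos : ∀ x, θ x ≠ 0 := by
    intro x
    obtain ⟨w⟩ := hG x x₀
    have hw : ENNReal.ofReal ((q : ℝ) ^ w.length) ≤ tau (q : ℝ) G.edgeSet x x₀ :=
      tau_pos hq0 q.2.2 w fun e he => w.edges_subset_edgeSet he
    refine ne_of_gt (lt_of_lt_of_le ?_ (le_measure_infinite (G := G) q x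
      (c := tau (q : ℝ) G.edgeSet x x₀ * θ x₀) fun S => ?_))
    · exact ENNReal.mul_pos (ne_of_gt (lt_of_lt_of_le (ENNReal.ofReal_pos.2 (pow_pos hq0 _)) hw))
        hx₀
    · refine le_trans (b := μ (finEvent G.edgeSet fun a => ConnTo a x {x₀}) * μ (leave G x₀ S))
        (mul_le_mul' ?_ (measure_mono ((infinite_eq_iInter (G := G) x₀).le.trans
          (Set.iInter_subset _ S)))) ?_
      · rw [tau, tauT, ← measure_finEvent q G.edgeSet (incr_connTo x {x₀})]
      · refine (harris_finEvent q G.edgeSet (incr_connTo x _) (incr_connTo x₀ _)).trans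
          (measure_mono (Set.iUnion_mono fun E ω ⟨h1, t, ht, hc⟩ => ?_))
        exact ⟨t, ht, conn_trans (connTo_singleton.1 h1) hc⟩
  have hinv : ∀ (φ : G ≃g G) x, θ (φ x) = θ x := by
    intro φ x
    simp only [hθ, μ]
    rw [← (measurePreserving_map φ).measure_preimage
      (measurableSet_infinite_cluster G x).nullMeasurableSet]
    congr 1
    ext ω
    simp only [Set.mem_preimage, Set.mem_ofPred_eq, cluster_map φ ω x, ← Set.encard_eq_top_iff]
    rw [Set.encard_preimage_of_bijective φ.bijective]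
  have hSne : S.Nonempty := by
    obtain ⟨f, s, hs, -⟩ := horb x₀
    exact ⟨s, hs⟩
  obtain ⟨s₀, hs₀, hmin⟩ := S.exists_min_image θ hSne
  set c := θ s₀ * θ s₀
  have hc : 0 < c := ENNReal.mul_pos (hpos _) (hpos _)
  have hctop : c ≠ ⊤ := ENNReal.mul_ne_top (measure_ne_top _ _) (measure_ne_top _ _)
  have hlow : ∀ x, θ s₀ ≤ θ x := by
    intro x
    obtain ⟨f, s, hs, hfx⟩ := horb x
    rw [← hfx, hinv]
    exact hmin s hs
  have hboth : ∀ x y, θ x * θ y ≤
      μ ({ω | (cluster G ω x).Infinite} ∩ {ω | (cluster G ω y).Infinite}) := by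
    intro x y
    have heq : {ω | (cluster G ω x).Infinite} ∩ {ω | (cluster G ω y).Infinite} =
        ⋂ T : Finset V, finEvent G.edgeSet fun a =>
          ConnTo a x ((T : Set V)ᶜ) ∧ ConnTo a y ((T : Set V)ᶜ) := by
      rw [infinite_eq_iInter, infinite_eq_iInter, ← Set.iInter_inter_distrib]
      refine Set.iInter_congr fun T => ?_
      simp only [leave, finEvent]
      ext ω
      simp only [Set.mem_inter_iff, Set.mem_iUnion, Set.mem_ofPred_eq]
      constructor
      · rintro ⟨⟨E, h1⟩, E', h2⟩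
        exact ⟨⟨(E : Finset _) ∪ E', by rw [Finset.coe_union]; exact Set.union_subset E.2 E'.2⟩,
          incr_connTo x _ _ _ (opens_mono Finset.subset_union_left _) h1,
          incr_connTo y _ _ _ (opens_mono Finset.subset_union_right _) h2⟩
      · rintro ⟨E, h1, h2⟩
        exact ⟨⟨E, h1⟩, E, h2⟩
    rw [heq, Directed.measure_iInter (s := fun T : Finset V => finEvent G.edgeSet fun a =>
        ConnTo a x ((T : Set V)ᶜ) ∧ ConnTo a y ((T : Set V)ᶜ)) (fun T => (measurableSet_finEvent _ _).nullMeasurableSet) ?_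
      ⟨∅, measure_ne_top _ _⟩]
    · refine le_iInf fun T => le_trans (mul_le_mul'
        (measure_mono ((infinite_eq_iInter (G := G) x).le.trans (Set.iInter_subset _ T)))
        (measure_mono ((infinite_eq_iInter (G := G) y).le.trans (Set.iInter_subset _ T)))) ?_
      exact harris_finEvent q G.edgeSet (incr_connTo x _) (incr_connTo y _)
    · refine fun S T => ⟨S ∪ T, ?_, ?_⟩ <;>
      · refine Set.iUnion_mono fun E ω ⟨⟨a, ha, ha'⟩, b, hb, hb'⟩ => ?_
        simp only [Finset.coe_union, Set.compl_union, Set.mem_inter_iff] at ha hb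
        first
          | exact ⟨⟨a, ha.1, ha'⟩, b, hb.1, hb'⟩
          | exact ⟨⟨a, ha.2, ha'⟩, b, hb.2, hb'⟩
  obtain ⟨x, y, hxy⟩ := h (c / 2) (ENNReal.half_pos hc.ne')
  have hle : c ≤ c / 2 := by
    refine le_trans (mul_le_mul' (hlow x) (hlow y)) ((hboth x y).trans ?_)
    refine le_trans ?_ ((tauT_mono_p (R := G.edgeSet) (x := x) (T := {y})
      q.2.1 hlt.le hp1).trans hxy)
    calc μ ({ω | (cluster G ω x).Infinite} ∩ {ω | (cluster G ω y).Infinite})
        ≤ μ ({ω | y ∈ cluster G ω x} ∪ (hasUniqueInfiniteCluster G)ᶜ) := by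
          refine measure_mono fun ω hω => ?_
          by_cases hu : ω ∈ hasUniqueInfiniteCluster G
          · obtain ⟨z, -, hz⟩ := hu
            exact Or.inl (SimpleGraph.Reachable.trans
              (SimpleGraph.Reachable.symm (hz x hω.1)) (hz y hω.2))
          · exact Or.inr hu
      _ ≤ μ {ω | y ∈ cluster G ω x} + μ (hasUniqueInfiniteCluster G)ᶜ := measure_union_le _ _
      _ = _ := by rw [hU, add_zero, bondMeasure_conn]; rfl
  exact absurd hle (not_le.2 (ENNReal.half_lt_self hc.ne' hctop))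

/-- The thresholds only depend on the isomorphism class. -/
theorem threshold_iso {W : Type*} {H : SimpleGraph W} (f : G ≃g H) :
    pCritical G = pCritical H ∧ pUniqueness G = pUniqueness H := by
  let ψ : Sym2 V ≃ Sym2 W :=
    ⟨Sym2.map f, Sym2.map f.symm, fun e => by simp [Sym2.map_map],
      fun e => by simp [Sym2.map_map]⟩
  let Φ : (Sym2 W → Bool) ≃ᵐ (Sym2 V → Bool) :=
    MeasurableEquiv.piCongrLeft (fun _ : Sym2 V => Bool) ψ.symm
  have hΦ : ∀ ω e, Φ ω e = ω (Sym2.map f e) := fun ω e => by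
    simp [Φ, MeasurableEquiv.piCongrLeft, Equiv.piCongrLeft, ψ]
  have hμ : ∀ (p : unitInterval) (A : Set (Sym2 V → Bool)),
      bondMeasure V p A = bondMeasure W p (Φ ⁻¹' A) := by
    intro p A
    have h := Measure.infinitePi_map_piCongrLeft
      (μ := fun _ : Sym2 V => bernoulliMeasure true false p) ψ.symm
    rw [bondMeasure, ← h, MeasurableEquiv.map_apply]
    rfl
  have hopen : ∀ ω, openGraph G (Φ ω) = (openGraph H ω).comap f := by
    intro ω
    ext a b
    simp only [openGraph_adj, SimpleGraph.comap_adj, hΦ, Sym2.map_mk]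
    rw [f.map_adj_iff]
  have hreach : ∀ ω x y, (openGraph G (Φ ω)).Reachable x y ↔
      (openGraph H ω).Reachable (f x) (f y) := by
    intro ω x y
    rw [hopen]
    exact (SimpleGraph.Iso.reachable_iff (φ := SimpleGraph.Iso.comap f.toEquiv _)).symm
  have hcl : ∀ ω x, cluster G (Φ ω) x = f ⁻¹' cluster H ω (f x) := fun ω x => by
    ext y; exact hreach ω x y
  have hinf : ∀ ω x, (cluster G (Φ ω) x).Infinite ↔ (cluster H ω (f x)).Infinite := fun ω x => by
    rw [hcl, ← Set.encard_eq_top_iff, ← Set.encard_eq_top_iff,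
      Set.encard_preimage_of_bijective f.bijective]
  have h1 : ∀ p, bondMeasure V p (hasInfiniteCluster G) =
      bondMeasure W p (hasInfiniteCluster H) := by
    intro p
    rw [hμ]
    congr 1
    ext ω
    simp only [hasInfiniteCluster, Set.mem_preimage, Set.mem_ofPred_eq, hinf]
    exact ⟨fun ⟨x, hx⟩ => ⟨f x, hx⟩, fun ⟨y, hy⟩ => by
      obtain ⟨x, rfl⟩ := f.surjective y
      exact ⟨x, hy⟩⟩
  have h2 : ∀ p, bondMeasure V p (hasUniqueInfiniteCluster G) =
      bondMeasure W p (hasUniqueInfiniteCluster H) := by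
    intro p
    rw [hμ]
    congr 1
    ext ω
    simp only [hasUniqueInfiniteCluster, Set.mem_preimage, Set.mem_ofPred_eq, hinf]
    simp only [hcl, Set.mem_preimage]
    constructor
    · rintro ⟨x, hx, hy⟩
      refine ⟨f x, hx, fun y hy' => ?_⟩
      obtain ⟨y, rfl⟩ := f.surjective y
      exact hy y hy'
    · rintro ⟨x, hx, hy⟩
      obtain ⟨x, rfl⟩ := f.surjective x
      exact ⟨x, hx, fun y hy' => hy (f y) hy'⟩
  exact ⟨by simp only [pCritical, h1], by simp only [pUniqueness, h2]⟩

end Vale.Agent.P165.Tree
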