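import Vale.Agent.P165.Tree.Tau
import Vale.Agent.P165.Tree.Fin.ExpTail

/-!
# Weighted exit sums (P165, tree quotient)
-/

namespace Vale.Agent.P165.Tree

variable {V : Type*} [DecidableEq V]

/-- The ends outside `B` of the edges of `E` at `u`. -/
def outN (E : Finset (Sym2 V)) (B : Finset V) (u : V) : Finset V :=
  (verts E).filter fun z => z ∉ B ∧ s(u, z) ∈ E

theorem mem_outN {E : Finset (Sym2 V)} {B : Finset V} {u z : V} :
    z ∈ outN E B u ↔ z ∉ B ∧ s(u, z) ∈ E := by
  simp only [outN, Finset.mem_filter, and_iff_right_iff_imp]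
  exact fun h => mem_verts.2 ⟨_, h.2, Sym2.mem_mk_right u z⟩

/-- The exit sum weighted at the outer ends. -/
noncomputable def wsum (p : ℝ) (E : Finset (Sym2 V)) (B : Finset V) (x : V) (f : V → ℝ) : ℝ :=
  ∑ u ∈ B, ∑ z ∈ outN E B u, p * PE p (insideF E B) (fun ω => Conn ω x u) * f z

theorem continuous_wsum (E : Finset (Sym2 V)) (B : Finset V) (x : V) (f : V → ℝ) :
    Continuous fun p : ℝ => wsum p E B x f :=
  continuous_finsetSum _ fun _ _ => continuous_finsetSum _ fun _ _ =>
    (continuous_id.mul (continuous_EE _ _)).mul continuous_const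

theorem wsum_mono_f {p : ℝ} (hp0 : 0 ≤ p) (hp1 : p ≤ 1) {E : Finset (Sym2 V)} {B : Finset V}
    (x : V) {f g : V → ℝ} (h : ∀ u ∈ B, ∀ z ∈ outN E B u, f z ≤ g z) :
    wsum p E B x f ≤ wsum p E B x g :=
  Finset.sum_le_sum fun u hu => Finset.sum_le_sum fun z hz =>
    mul_le_mul_of_nonneg_left (h u hu z hz) (mul_nonneg hp0 (PE_nonneg hp0 hp1 _))

theorem wsum_mul (p : ℝ) (E : Finset (Sym2 V)) (B : Finset V) (x : V) (c : ℝ) (f : V → ℝ) :
    wsum p E B x (fun z => c * f z) = c * wsum p E B x f := by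
  simp only [wsum, Finset.mul_sum]
  exact Finset.sum_congr rfl fun u _ => Finset.sum_congr rfl fun z _ => by ring

theorem insideF_mono_touch {E' E : Finset (Sym2 V)} {B : Finset V}
    (h : ∀ e ∈ E', (∃ v ∈ e, v ∈ B) → e ∈ E) : insideF E' B ⊆ insideF E B := fun e he => by
  rw [mem_insideF] at he ⊢
  exact ⟨h e he.1 ⟨e.out.1, Sym2.out_fst_mem e, he.2 _ (Sym2.out_fst_mem e)⟩, he.2⟩

/-- A walk leaving `B` uses an exit edge and then avoids the cluster inside `B`. -/
theorem exists_exit {E ω : Finset (Sym2 V)} (hω : ω ⊆ E) {B : Finset V} {x y : V} (hx : x ∈ B)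
    (hy : y ∉ B) (hc : Conn ω x y) :
    ∃ u ∈ B, u ∈ inCl E B x ω ∧ ∃ z ∈ outN E B u,
      s(u, z) ∈ ω ∩ touch E (inCl E B x ω) ∧ Conn (ω ∩ off E (inCl E B x ω)) z y := by
  have h : y ∈ reach ω (insert x ∅) := mem_reach.2 ⟨x, Finset.mem_insert_self x ∅, hc⟩
  rcases Finset.mem_union.1 (reach_insert_subset hω B ∅ hx h) with h | h
  · exact absurd (inCl_subset hx h) hy
  obtain ⟨z, hz, hzy⟩ := mem_reach.1 h
  rw [Finset.empty_union, outEnds, Finset.mem_filter] at hz
  obtain ⟨hz, hzB⟩ := hz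
  obtain ⟨e, he, hze⟩ := mem_verts.1 hz
  obtain ⟨heω, het⟩ := Finset.mem_inter.1 he
  obtain ⟨heE, u, hue, huR⟩ := Finset.mem_filter.1 het
  have huz : u ≠ z := fun h => hzB (h ▸ inCl_subset hx huR)
  obtain rfl : e = s(u, z) := (Sym2.mem_and_mem_iff huz).1 ⟨hue, hze⟩
  exact ⟨u, inCl_subset hx huR, huR, z, mem_outN.2 ⟨hzB, heE⟩, he, hzy⟩

/-- If around every far vertex the weight does not grow on the average at the exit of some set,
then the weight bounds the two point function. -/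
theorem PE_le_weight {p : ℝ} (hp0 : 0 ≤ p) (hp1 : p ≤ 1) (R : Set (Sym2 V)) {y : V}
    {f : V → ℝ} (hf : ∀ x, 0 ≤ f x) {c : ℝ} (hc : 0 ≤ c)
    (h : ∀ x, 1 ≤ c * f x ∨ ∃ B : Finset V, x ∈ B ∧ y ∉ B ∧ ∃ E₀ : Finset (Sym2 V),
      (∀ e ∈ R, (∃ v ∈ e, v ∈ B) → e ∈ E₀) ∧ wsum p E₀ B x f ≤ f x)
    (E : Finset (Sym2 V)) (hE : (E : Set (Sym2 V)) ⊆ R) (x : V) :
    PE p E (fun ω => Conn ω x y) ≤ c * f x := by
  obtain ⟨n, hn⟩ : ∃ n, E.card = n := ⟨_, rfl⟩
  induction n using Nat.strong_induction_on generalizing E x with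
  | _ n ih =>
    rcases h x with h1 | ⟨B, hxB, hyB, E₀, hE₀, hw⟩
    · exact (PE_le_one hp0 hp1 _).trans h1
    have hxy : x ≠ y := fun h => hyB (h ▸ hxB)
    by_cases hiso : ∀ e ∈ E, x ∉ e
    · refine le_trans (le_of_eq ?_) (mul_nonneg hc (hf x))
      rw [PE, EE_congr p (g := fun _ => (0 : ℝ)) fun ω hω => ind_of_not fun hcn => ?_, EE_const]
      obtain ⟨w⟩ := hcn
      cases w with
      | nil => exact hxy rfl
      | cons hadj _ => exact hiso _ (hω (confGraph_adj.1 hadj).1) (Sym2.mem_mk_left _ _)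
    push Not at hiso
    obtain ⟨e₀, he₀, hxe₀⟩ := hiso
    have hoff : ∀ ω, (off E (inCl E B x ω)).card < n := fun ω => by
      rw [← hn]
      refine Finset.card_lt_card (Finset.filter_ssubset.2 ?_)
      exact ⟨e₀, he₀, not_not.2 ⟨x, hxe₀, mem_inCl.2 (conn_refl _ _)⟩⟩
    let F : Finset V → Finset (Sym2 V) → Finset (Sym2 V) → ℝ := fun C a b =>
      ∑ u ∈ B, ∑ z ∈ outN E B u, ind (u ∈ C ∧ s(u, z) ∈ a) * ind (Conn b z y)
    have hin : ∀ e ∈ E, (∃ v ∈ e, v ∈ B) → e ∈ E₀ := fun e he => hE₀ e (hE he)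
    calc PE p E (fun ω => Conn ω x y)
        ≤ EE p E (fun ω => F (inCl E B x ω) (ω ∩ touch E (inCl E B x ω))
            (ω ∩ off E (inCl E B x ω))) := by
          refine EE_mono hp0 hp1 fun ω hω => ?_
          have hnn : ∀ u ∈ B, 0 ≤ ∑ z ∈ outN E B u,
              ind (u ∈ inCl E B x ω ∧ s(u, z) ∈ ω ∩ touch E (inCl E B x ω)) *
                ind (Conn (ω ∩ off E (inCl E B x ω)) z y) :=
            fun u _ => Finset.sum_nonneg fun z _ => mul_nonneg (ind_nonneg _) (ind_nonneg _)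
          by_cases hcn : Conn ω x y
          · obtain ⟨u, huB, huR, z, hz, he, hzy⟩ := exists_exit hω hxB hyB hcn
            refine le_trans ?_ (Finset.single_le_sum hnn huB)
            refine le_trans (le_of_eq ?_) (Finset.single_le_sum
              (fun z _ => mul_nonneg (ind_nonneg _) (ind_nonneg _)) hz)
            rw [ind_of hcn, ind_of ⟨huR, he⟩, ind_of hzy, one_mul]
          · rw [ind_of_not hcn]
            exact Finset.sum_nonneg hnn
      _ = EE p E (fun ω => EE p (off E (inCl E B x ω))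
            (F (inCl E B x ω) (ω ∩ touch E (inCl E B x ω)))) :=
          EE_explore p E (inCl E B x) (fun ω ω' _ _ => inCl_stop E B x ω ω') F
      _ ≤ EE p E (fun ω => ∑ u ∈ B, ∑ z ∈ outN E B u,
            c * f z * ind (Conn (ω ∩ insideF E B) x u ∧ s(u, z) ∈ ω)) := by
          refine EE_mono hp0 hp1 fun ω _ => ?_
          simp only [F]
          rw [EE_sum]
          refine Finset.sum_le_sum fun u _ => ?_
          rw [EE_sum]
          refine Finset.sum_le_sum fun z _ => ?_
          rw [EE_mul_left, mul_comm (c * f z)]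
          refine mul_le_mul (ind_mono fun h => ⟨mem_inCl.1 h.1, (Finset.mem_inter.1 h.2).1⟩)
            (ih _ (hoff ω) _ ((Finset.coe_subset.2 (Finset.filter_subset _ _)).trans hE) z rfl)
            (EE_nonneg hp0 hp1 fun _ _ => ind_nonneg _) (ind_nonneg _)
      _ = c * wsum p E B x f := by
          rw [EE_sum, wsum, Finset.mul_sum]
          refine Finset.sum_congr rfl fun u hu => ?_
          rw [EE_sum, Finset.mul_sum]
          refine Finset.sum_congr rfl fun z hz => ?_
          rw [mem_outN] at hz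
          rw [EE_mul_left, EE_edge_inside p hz.2 ?_ (insideF_subset E B) fun a => Conn a x u]
          · ring
          · exact fun h => hz.1 ((mem_insideF.1 h).2 z (Sym2.mem_mk_right u z))
      _ ≤ c * wsum p E₀ B x f := by
          refine mul_le_mul_of_nonneg_left ?_ hc
          refine Finset.sum_le_sum fun u hu => ?_
          refine le_trans (Finset.sum_le_sum fun z _ => mul_le_mul_of_nonneg_right
            (mul_le_mul_of_nonneg_left
              (PE_mono_set hp0 hp1 (incr_conn x u) (insideF_mono_touch hin)) hp0) (hf z)) ?_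
          refine Finset.sum_le_sum_of_subset_of_nonneg (fun z hz => ?_)
            fun z _ _ => mul_nonneg (mul_nonneg hp0 (PE_nonneg hp0 hp1 _)) (hf z)
          rw [mem_outN] at hz ⊢
          exact ⟨hz.1, hin _ hz.2 ⟨u, Sym2.mem_mk_left u z, hu⟩⟩
      _ ≤ c * f x := mul_le_mul_of_nonneg_left hw hc

section Map

variable {W : Type*} [DecidableEq W] (g : V ≃ W)

theorem sym2_mem_map {E : Finset (Sym2 V)} {a b : V} :
    s(g a, g b) ∈ E.map (sym2Emb g) ↔ s(a, b) ∈ E :=
  Finset.mem_map' (sym2Emb g) (a := s(a, b))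

theorem insideF_map (E : Finset (Sym2 V)) (B : Finset V) :
    insideF (E.map (sym2Emb g)) (B.map g.toEmbedding) = (insideF E B).map (sym2Emb g) := by
  ext e
  induction e using Sym2.ind with
  | _ a b =>
    obtain ⟨a, rfl⟩ := g.surjective a
    obtain ⟨b, rfl⟩ := g.surjective b
    rw [sym2_mem_map g, mem_insideF, sym2_mem_map g, mem_insideF]
    simp [Finset.mem_map_equiv]

theorem PE_conn_equiv_real (p : ℝ) (I : Finset (Sym2 V)) (x u : V) :
    PE p (I.map (sym2Emb g)) (fun ω => Conn ω (g x) (g u)) = PE p I (fun ω => Conn ω x u) := by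
  unfold PE
  rw [EE_map]
  refine EE_congr p fun ω _ => ?_
  congr 1
  refine propext ⟨fun h => ?_, fun h => conn_map g h⟩
  have h2 := conn_map g.symm h
  rwa [map_symm_map, Equiv.symm_apply_apply, Equiv.symm_apply_apply] at h2

theorem outN_map (E : Finset (Sym2 V)) (B : Finset V) (u : V) :
    outN (E.map (sym2Emb g)) (B.map g.toEmbedding) (g u) = (outN E B u).map g.toEmbedding := by
  ext z
  obtain ⟨z, rfl⟩ := g.surjective z
  rw [mem_outN, sym2_mem_map g]
  simp [mem_outN]

theorem wsum_map (p : ℝ) (E : Finset (Sym2 V)) (B : Finset V) (x : V) (f : W → ℝ) :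
    wsum p (E.map (sym2Emb g)) (B.map g.toEmbedding) (g x) f = wsum p E B x (f ∘ g) := by
  rw [wsum, wsum, Finset.sum_map]
  refine Finset.sum_congr rfl fun u _ => ?_
  rw [Equiv.coe_toEmbedding, outN_map, Finset.sum_map, insideF_map, PE_conn_equiv_real]
  rfl

end Map

end Vale.Agent.P165.Tree
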