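import Vale.Agent.P165.Tree.Fibre
import Vale.Agent.P165.Tree.Weighted

/-!
# Exponential decay at and beyond the threshold (P165, tree quotient)
-/

namespace Vale.Agent.P165.Tree

open scoped ENNReal
open Filter Topology

universe u

/-! ## Reduced words -/

theorem len_eq_zero {v : F2} : len v = 0 ↔ v = 1 := by
  rw [len, List.length_eq_zero_iff, FreeGroup.toWord_eq_nil_iff]

theorem exists_split (v : F2) (k : ℕ) : ∃ u x, v = u * x ∧ u.toWord = v.toWord.take k ∧
    v.toWord = u.toWord ++ x.toWord := by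
  have h : FreeGroup.IsReduced (v.toWord.take k ++ v.toWord.drop k) := by
    rw [List.take_append_drop]; exact FreeGroup.isReduced_toWord
  have hu := toWord_mk_of_isReduced (List.isChain_append.1 h).1
  obtain ⟨x, h1, h2, -⟩ := split_of_prefix (u := FreeGroup.mk (v.toWord.take k)) (v := v)
    (by rw [Pre, hu]; exact List.take_prefix k _)
  exact ⟨_, x, h1, hu, h2⟩

theorem exists_common_prefix (l l' : List Letter) : ∃ p r r', l = p ++ r ∧ l' = p ++ r' ∧
    ∀ a ∈ r.head?, a ∉ r'.head? := by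
  induction l generalizing l' with
  | nil => exact ⟨[], [], l', rfl, rfl, by simp⟩
  | cons a l ih =>
    cases l' with
    | nil => exact ⟨[], a :: l, [], rfl, rfl, by simp⟩
    | cons b l' =>
      by_cases hab : a = b
      · obtain ⟨p, r, r', h1, h2, h3⟩ := ih l'
        exact ⟨a :: p, r, r', by rw [h1]; rfl, by rw [hab, h2]; rfl, h3⟩
      · exact ⟨[], a :: l, b :: l', rfl, rfl, by simp [hab, eq_comm]⟩

theorem len_inv_mul {x y : F2} (h : ∀ a ∈ x.toWord.head?, a ∉ y.toWord.head?) :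
    len (x⁻¹ * y) = len x + len y := by
  have key : (x⁻¹ * y).toWord = x⁻¹.toWord ++ y.toWord := by
    refine toWord_mul_of_meet fun a ha b hb => ?_
    rw [FreeGroup.toWord_inv, FreeGroup.invRev, List.getLast?_reverse, List.head?_map,
      Option.mem_def, Option.map_eq_some_iff] at ha
    obtain ⟨⟨i, e⟩, he, rfl⟩ := ha
    obtain ⟨i', e'⟩ := b
    intro h1
    simp only at h1 ⊢
    subst h1
    have h2 : ((i, e) : Letter) ≠ (i, e') := fun h' => h _ he (h' ▸ hb)
    cases e <;> cases e' <;> simp_all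
  rw [len, key, List.length_append]
  simp [len, FreeGroup.toWord_inv]

/-- Where the geodesics to `v` and to `Y` part. -/
theorem exists_meet (v Y : F2) : ∃ u x y, v = u * x ∧ Y = u * y ∧
    v.toWord = u.toWord ++ x.toWord ∧ Y.toWord = u.toWord ++ y.toWord ∧
      (∀ a ∈ x.toWord.head?, a ∉ y.toWord.head?) ∧ len (v⁻¹ * Y) = len x + len y := by
  obtain ⟨p, r, r', h1, h2, h3⟩ := exists_common_prefix v.toWord Y.toWord
  obtain ⟨u, x, e1, e2, e3⟩ := exists_split v p.length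
  obtain ⟨u', y, f1, f2, f3⟩ := exists_split Y p.length
  rw [h1, List.take_left] at e2
  rw [h2, List.take_left] at f2
  obtain rfl : u' = u := FreeGroup.toWord_injective (f2.trans e2.symm)
  have hx : x.toWord = r := List.append_cancel_left (e3.symm.trans (h1.trans (by rw [e2])))
  have hy : y.toWord = r' := List.append_cancel_left (f3.symm.trans (h2.trans (by rw [f2])))
  have h4 : ∀ a ∈ x.toWord.head?, a ∉ y.toWord.head? := by rw [hx, hy]; exact h3
  refine ⟨u', x, y, e1, f1, e3, f3, h4, ?_⟩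
  rw [show v⁻¹ * Y = x⁻¹ * y by rw [e1, f1]; group, len_inv_mul h4]

theorem len_append {v u x : F2} (h : v.toWord = u.toWord ++ x.toWord) :
    len v = len u + len x := by
  rw [len, h, List.length_append]; rfl

/-- Beyond the length of `v` the distance to a word grows by one per letter. -/
theorem len_extend {v Y₁ r : F2} (hY : (Y₁ * r).toWord = Y₁.toWord ++ r.toWord)
    (hv : len v ≤ len Y₁) : len (v⁻¹ * (Y₁ * r)) = len (v⁻¹ * Y₁) + len r := by
  obtain ⟨u, x, y, e1, f1, e3, f3, h4, h5⟩ := exists_meet v Y₁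
  by_cases hy : y.toWord = []
  · have hx : x = 1 := len_eq_zero.1 (by
      have := len_append e3
      have := len_append f3
      have : len y = 0 := by rw [len, hy]; rfl
      omega)
    have hy1 : y = 1 := FreeGroup.toWord_eq_nil_iff.1 hy
    subst hx hy1
    simp only [mul_one] at e1 f1
    subst e1 f1
    rw [inv_mul_cancel_left, inv_mul_cancel, len_eq_zero.2 rfl, zero_add]
  · have hred : FreeGroup.IsReduced (u.toWord ++ (y.toWord ++ r.toWord)) := by
      rw [← List.append_assoc, ← f3, ← hY]; exact FreeGroup.isReduced_toWord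
    have hyr : (y * r).toWord = y.toWord ++ r.toWord :=
      toWord_mul_of_meet (List.isChain_append.1 (List.isChain_append.1 hred).2.1).2.2
    rw [show v⁻¹ * (Y₁ * r) = x⁻¹ * (y * r) by rw [e1, f1]; group, len_inv_mul ?_, h5,
      len_append hyr]
    · omega
    · intro a ha
      rw [hyr, List.head?_append_of_ne_nil _ hy]
      exact h4 a ha

/-- The words of length `n`. -/
noncomputable def sph (n : ℕ) : Finset F2 :=
  (finite_ball n).toFinset.filter fun v => len v = n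

theorem mem_sph {n : ℕ} {v : F2} : v ∈ sph n ↔ len v = n := by
  simp only [sph, Finset.mem_filter, Set.Finite.mem_toFinset, Set.mem_ofPred_eq,
    and_iff_right_iff_imp]
  exact fun h => h.le

theorem card_sph (n : ℕ) : (sph n).card ≤ 4 ^ n := by
  induction n with
  | zero =>
    rw [pow_zero]
    exact Finset.card_le_one.2 fun a ha b hb =>
      (len_eq_zero.1 (mem_sph.1 ha)).trans (len_eq_zero.1 (mem_sph.1 hb)).symm
  | succ n ih =>
    have hsub : sph (n + 1) ⊆ (sph n ×ˢ (Finset.univ : Finset Letter)).image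
        fun q => q.1 * lgen q.2 := by
      intro v hv
      rw [mem_sph] at hv
      obtain ⟨u, x, e1, e2, e3⟩ := exists_split v n
      have hu : len u = n := by
        rw [len, e2, List.length_take]
        simp only [len] at hv
        omega
      have hx : len x = 1 := by have := len_append e3; omega
      obtain ⟨s, hs⟩ := List.length_eq_one_iff.1 hx
      refine Finset.mem_image.2 ⟨(u, s), Finset.mem_product.2 ⟨mem_sph.2 hu, Finset.mem_univ _⟩, ?_⟩
      rw [e1]
      exact congrArg (u * ·) (FreeGroup.toWord_injective (by rw [toWord_lgen, hs]))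
    refine (Finset.card_le_card hsub).trans (Finset.card_image_le.trans ?_)
    rw [Finset.card_product, pow_succ]
    exact Nat.mul_le_mul ih (by simp)

namespace Setting

variable {S : Setting.{u}} {R c L : ℕ}

/-! ## Translations and the edges at a finite set -/

theorem act_one_eq (x : S.V) : S.act x.1 (S.one x.2) = x := by
  ext <;> simp [act, one]

theorem exists_index (S : Setting.{u}) : Nonempty (Fin S.k) :=
  S.conn.nonempty.map Prod.snd

theorem exists_fib (S : Setting.{u}) (v : F2) : ∃ y : S.V, S.π y = v := by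
  obtain ⟨γ, hγ⟩ := S.surj v
  obtain ⟨i⟩ := exists_index S
  exact ⟨(γ, i), hγ⟩

/-- The edges with an end in `B`. -/
noncomputable def edT (S : Setting.{u}) (B : Finset S.V) : Finset (Sym2 S.V) :=
  B.biUnion fun u => (S.G.neighborFinset u).image fun z => s(u, z)

theorem mem_edT {B : Finset S.V} {e : Sym2 S.V} :
    e ∈ S.edT B ↔ e ∈ S.G.edgeSet ∧ ∃ v ∈ e, v ∈ B := by
  simp only [edT, Finset.mem_biUnion, Finset.mem_image, SimpleGraph.mem_neighborFinset]
  constructor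
  · rintro ⟨u, hu, z, hz, rfl⟩
    exact ⟨hz, u, Sym2.mem_mk_left u z, hu⟩
  · rintro ⟨he, v, hv, hvB⟩
    obtain ⟨z, rfl⟩ := Sym2.mem_iff_exists.1 hv
    exact ⟨v, hvB, z, he, rfl⟩

theorem edT_subset (B : Finset S.V) : (S.edT B : Set (Sym2 S.V)) ⊆ S.G.edgeSet :=
  fun _ he => (mem_edT.1 he).1

theorem act_edge (γ : S.Γ) {e : Sym2 S.V} :
    sym2Emb (S.act γ) e ∈ S.G.edgeSet ↔ e ∈ S.G.edgeSet := by
  induction e using Sym2.ind with
  | _ a b => exact S.adj_act γ

theorem touch_map (γ : S.Γ) {E₀ : Finset (Sym2 S.V)} {B : Finset S.V}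
    (h : ∀ e ∈ S.G.edgeSet, (∃ v ∈ e, v ∈ B) → e ∈ E₀) :
    ∀ e ∈ S.G.edgeSet, (∃ v ∈ e, v ∈ B.map (S.act γ).toEmbedding) →
      e ∈ E₀.map (sym2Emb (S.act γ)) := by
  intro e he
  induction e using Sym2.ind with
  | _ a b =>
    obtain ⟨a, rfl⟩ := (S.act γ).surjective a
    obtain ⟨b, rfl⟩ := (S.act γ).surjective b
    rintro ⟨v, hv, hvB⟩
    rw [sym2_mem_map]
    obtain ⟨w, hw, rfl⟩ := Finset.mem_map.1 hvB
    rw [Equiv.coe_toEmbedding, Sym2.mem_iff, (S.act γ).apply_eq_iff_eq,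
      (S.act γ).apply_eq_iff_eq] at hv
    exact h _ ((S.adj_act γ).1 he) ⟨w, Sym2.mem_iff.2 hv, hw⟩

theorem exists_deg (S : Setting.{u}) : ∃ D : ℕ, ∀ x : S.V, (S.G.neighborFinset x).card ≤ D := by
  refine ⟨Finset.univ.sup fun i => (S.G.neighborFinset (S.one i)).card, fun x => ?_⟩
  refine le_trans ?_ (Finset.le_sup (f := fun i => (S.G.neighborFinset (S.one i)).card)
    (Finset.mem_univ x.2))
  refine le_of_le_of_eq (Finset.card_le_card
    (t := (S.G.neighborFinset (S.one x.2)).map (S.act x.1).toEmbedding) fun z hz => ?_)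
    (Finset.card_map _)
  obtain ⟨z, rfl⟩ := (S.act x.1).surjective z
  rw [SimpleGraph.mem_neighborFinset] at hz
  refine Finset.mem_map.2 ⟨z, ?_, rfl⟩
  rw [SimpleGraph.mem_neighborFinset, ← S.adj_act x.1, act_one_eq]
  exact hz

/-! ## Real versions of the quantities -/

theorem PE_conn_le_tt {p : ℝ} (hp0 : 0 ≤ p) (hp1 : p ≤ 1) {E : Finset (Sym2 S.V)}
    (hE : (E : Set (Sym2 S.V)) ⊆ S.G.edgeSet) (x y : S.V) :
    PE p E (fun ω => Conn ω x y) ≤ (S.tt p x y).toReal := by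
  have h := ofReal_PE_le_tauT p hE x {y}
  simp only [connTo_singleton] at h
  have h2 := ENNReal.toReal_mono (ne_top_of_le_ne_top ENNReal.one_ne_top (tauT_le_one hp0 hp1)) h
  rwa [ENNReal.toReal_ofReal (PE_nonneg hp0 hp1 _)] at h2

theorem tt_le_one {p : ℝ} (hp0 : 0 ≤ p) (hp1 : p ≤ 1) (x y : S.V) : S.tt p x y ≤ 1 :=
  tauT_le_one hp0 hp1

open Classical in
theorem sum_fib_le {p : ℝ} (hp0 : 0 ≤ p) (hp1 : p ≤ 1) (hA : ∀ v, S.AA p v ≠ ⊤) (i : Fin S.k)
    (B : Finset S.V) (f : F2 → ℝ) (hf : ∀ v, 0 ≤ f v) :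
    ∑ u ∈ B, (S.tt p (S.one i) u).toReal * f (S.π u) ≤
      ∑ v ∈ B.image S.π, (S.AA p v).toReal * f v := by
  rw [← Finset.sum_fiberwise_of_maps_to (g := S.π) (t := B.image S.π)
    (fun u hu => Finset.mem_image_of_mem _ hu)]
  refine Finset.sum_le_sum fun v _ => ?_
  rw [Finset.sum_congr rfl (g := fun u => (S.tt p (S.one i) u).toReal * f v)
    fun u hu => by rw [(Finset.mem_filter.1 hu).2], ← Finset.sum_mul]
  refine mul_le_mul_of_nonneg_right ?_ (hf v)
  rw [← ENNReal.toReal_sum fun u _ => ne_top_of_le_ne_top ENNReal.one_ne_top (tt_le_one hp0 hp1 _ u)]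
  refine ENNReal.toReal_mono (hA v) ?_
  refine le_trans (finset_le_tsum (S.fib v) (fun u => S.tt p (S.one i) u)
    (F := B.filter fun u => S.π u = v) fun u hu => (Finset.mem_filter.1 hu).2) ?_
  exact Finset.single_le_sum (f := fun j => ∑' y : S.fib v, S.tt p (S.one j) (y : S.V))
    (fun _ _ => bot_le) (Finset.mem_univ i)

theorem AA_finite {p : ℝ} (hsum : ∀ q : ℝ, 1 < q → ∑' v, S.AA p v ^ q ≠ ⊤) (v : F2) :
    S.AA p v ≠ ⊤ := by
  intro h
  refine hsum 2 one_lt_two (ENNReal.tsum_eq_top_of_eq_top ⟨v, ?_⟩)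
  rw [h]
  exact ENNReal.top_rpow_of_pos two_pos

theorem decay_real (hG : S.Geom R c L) {p : ℝ} (hp : 0 < p) (hp1 : p ≤ 1)
    (hsum : ∀ q : ℝ, 1 < q → ∑' v, S.AA p v ^ q ≠ ⊤) :
    ∃ C K ρ : ℝ, 0 ≤ C ∧ 0 ≤ K ∧ 0 < ρ ∧ ρ < 1 ∧
      (∀ v, (S.AA p v).toReal ≤ C * ρ ^ len v) ∧
      (∀ u x v, v = u * x → v.toWord = u.toWord ++ x.toWord →
        (S.AA p v).toReal ≤ K * (S.AA p u).toReal * (S.AA p x).toReal) := by
  obtain ⟨C₁, hC₁, hmul⟩ := AA_submul hG hp
  have hfin := AA_finite hsum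
  set a := fun v => (S.AA p v).toReal with ha
  have hsub : ∀ u x v, v = u * x → v.toWord = u.toWord ++ x.toWord →
      a v ≤ C₁.toReal * a u * a x := by
    intro u x v h1 h2
    subst h1
    have := ENNReal.toReal_mono (ENNReal.mul_ne_top (ENNReal.mul_ne_top hC₁ (hfin u)) (hfin x))
      (hmul p le_rfl hp1 u x (len_append h2))
    rwa [ENNReal.toReal_mul, ENNReal.toReal_mul] at this
  set K := C₁.toReal with hK
  have hK0 : 0 ≤ K := ENNReal.toReal_nonneg
  have hsmall : ∀ᶠ v in Filter.cofinite, K * a v ≤ 1 / 2 := by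
    have hε : (0 : ℝ) < 1 / (2 * (K + 1)) := by positivity
    have h0 : ENNReal.ofReal (1 / (2 * (K + 1))) ^ (2 : ℝ) ≠ 0 :=
      (ENNReal.rpow_pos (ENNReal.ofReal_pos.2 hε) ENNReal.ofReal_ne_top).ne'
    refine Filter.eventually_cofinite.2 ((ENNReal.finite_const_le_of_tsum_ne_top
      (hsum 2 one_lt_two) h0).subset fun v hv => ?_)
    simp only [Set.mem_ofPred_eq, not_le] at hv ⊢
    refine ENNReal.rpow_le_rpow ?_ two_pos.le
    rw [← ENNReal.ofReal_toReal (hfin v)]
    refine ENNReal.ofReal_le_ofReal ?_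
    rw [div_le_iff₀ (by positivity)]
    have : 0 ≤ a v := ENNReal.toReal_nonneg
    simp only [ha] at hv this
    nlinarith
  obtain ⟨n, hn⟩ : ∃ n : ℕ, 0 < n ∧ ∀ v, n ≤ len v → K * a v ≤ 1 / 2 := by
    rw [Filter.eventually_cofinite] at hsmall
    refine ⟨hsmall.toFinset.sup len + 1, Nat.succ_pos _, fun v hv => ?_⟩
    by_contra h
    have := Finset.le_sup (f := len) (hsmall.mem_toFinset.2 h)
    omega
  set ρ : ℝ := (1 / 2) ^ ((n : ℝ)⁻¹) with hρ
  have hρn : ρ ^ n = 1 / 2 := Real.rpow_inv_natCast_pow (by norm_num) hn.1.ne'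
  have hρ0 : 0 < ρ := by positivity
  have hρ1 : ρ < 1 := Real.rpow_lt_one (by norm_num) (by norm_num) (by
    have := hn.1
    positivity)
  set C := 2 * ∑ v ∈ (finite_ball n).toFinset, a v with hC
  have hC0 : 0 ≤ C := mul_nonneg two_pos.le (Finset.sum_nonneg fun v _ => ENNReal.toReal_nonneg)
  refine ⟨C, K, ρ, hC0, hK0, hρ0, hρ1, fun v => ?_, hsub⟩
  obtain ⟨m, hm⟩ : ∃ m, len v = m := ⟨_, rfl⟩
  induction m using Nat.strong_induction_on generalizing v with
  | _ m ih =>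
    by_cases hmn : m < n
    · have h1 : a v ≤ ∑ w ∈ (finite_ball n).toFinset, a w :=
        Finset.single_le_sum (f := a) (fun _ _ => ENNReal.toReal_nonneg)
          ((finite_ball n).mem_toFinset.2 (by simp only [Set.mem_ofPred_eq]; omega))
      have h2 : ρ ^ n ≤ ρ ^ len v := pow_le_pow_of_le_one hρ0.le hρ1.le (by omega)
      rw [hρn] at h2
      have := mul_le_mul_of_nonneg_left h2 hC0
      show a v ≤ _
      linarith
    · obtain ⟨u, x, e1, e2, e3⟩ := exists_split v n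
      have hu : len u = n := by
        rw [len, e2, List.length_take]
        simp only [len] at hm
        omega
      have hl := len_append e3
      have hx := ih (len x) (by have := hn.1; omega) x rfl
      refine (hsub u x v e1 e3).trans ?_
      rw [hl, pow_add, hu, hρn]
      calc K * a u * a x ≤ 1 / 2 * (C * ρ ^ len x) :=
            mul_le_mul (hn.2 u hu.ge) hx ENNReal.toReal_nonneg (by norm_num)
        _ = C * (1 / 2 * ρ ^ len x) := by ring

theorem sphere_real {p : ℝ} (hsum : ∀ q : ℝ, 1 < q → ∑' v, S.AA p v ^ q ≠ ⊤) {lam : ℝ}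
    (hlam : 1 < lam) :
    ∃ K : ℝ, 0 ≤ K ∧ ∀ n : ℕ, ∑ v ∈ sph n, (S.AA p v).toReal ≤ K * lam ^ n := by
  set t := lam / 4 with ht
  have ht0 : 0 < t := by positivity
  have h4 : 0 < Real.log 4 := Real.log_pos (by norm_num)
  set e := Real.log lam / Real.log 4 with he
  have he0 : 0 < e := div_pos (Real.log_pos hlam) h4
  have hfin := AA_finite hsum
  set a := fun v => (S.AA p v).toReal with ha
  set T := (∑' v, S.AA p v ^ (1 + e)).toReal with hT
  refine ⟨1 + T, by positivity, fun n => ?_⟩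
  have hδ : 0 < t ^ n := pow_pos ht0 n
  have hpt : ∀ v, a v ≤ t ^ n + a v ^ (1 + e) * (t ^ n) ^ (-e) := by
    intro v
    have ha0 : 0 ≤ a v := ENNReal.toReal_nonneg
    rcases le_or_gt (a v) (t ^ n) with h | h
    · have : 0 ≤ a v ^ (1 + e) * (t ^ n) ^ (-e) := by positivity
      linarith
    · have hav : 0 < a v := hδ.trans h
      have h1 : a v ^ (1 + e) * a v ^ (-e) = a v := by
        rw [← Real.rpow_add hav]; simp
      have h2 : a v ^ (-e) ≤ (t ^ n) ^ (-e) :=
        Real.rpow_le_rpow_of_nonpos hδ h.le (by linarith)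
      have h3 := mul_le_mul_of_nonneg_left h2 (Real.rpow_nonneg ha0 (1 + e))
      linarith
  have hT' : ∑ v ∈ sph n, a v ^ (1 + e) ≤ T := by
    rw [Finset.sum_congr rfl (g := fun v => (S.AA p v ^ (1 + e)).toReal)
      fun v _ => by rw [ha, ENNReal.toReal_rpow]]
    rw [← ENNReal.toReal_sum fun v _ => ENNReal.rpow_ne_top_of_nonneg (by linarith) (hfin v)]
    exact ENNReal.toReal_mono (hsum _ (by linarith)) (ENNReal.sum_le_tsum _)
  have hkey : (t ^ n) ^ (-e) ≤ lam ^ n := by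
    rw [← Real.rpow_natCast t n, ← Real.rpow_mul ht0.le, mul_comm, Real.rpow_mul ht0.le,
      Real.rpow_natCast]
    refine pow_le_pow_left₀ (Real.rpow_nonneg ht0.le _) ?_ n
    have h1 : t ^ (-e) ≤ (4 : ℝ) ^ e := by
      rw [Real.rpow_neg ht0.le, ← Real.inv_rpow ht0.le]
      refine Real.rpow_le_rpow (by positivity) ?_ he0.le
      rw [ht, inv_div, div_le_iff₀ (by linarith)]
      linarith
    refine h1.trans (le_of_eq ?_)
    rw [Real.rpow_def_of_pos (by norm_num), he, mul_div_cancel₀ _ h4.ne',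
      Real.exp_log (by linarith)]
  calc ∑ v ∈ sph n, a v ≤ ∑ v ∈ sph n, (t ^ n + a v ^ (1 + e) * (t ^ n) ^ (-e)) :=
        Finset.sum_le_sum fun v _ => hpt v
    _ = (sph n).card * t ^ n + (∑ v ∈ sph n, a v ^ (1 + e)) * (t ^ n) ^ (-e) := by
        rw [Finset.sum_add_distrib, Finset.sum_const, nsmul_eq_mul, Finset.sum_mul]
    _ ≤ 4 ^ n * t ^ n + T * lam ^ n :=
        add_le_add (mul_le_mul_of_nonneg_right (by exact_mod_cast card_sph n) hδ.le)
          (mul_le_mul hT' hkey (Real.rpow_nonneg hδ.le _) ENNReal.toReal_nonneg)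
    _ = (1 + T) * lam ^ n := by
        rw [← mul_pow, ht, mul_div_cancel₀ _ (by norm_num : (4 : ℝ) ≠ 0)]; ring

theorem AA_decay (hG : S.Geom R c L) {p : ℝ} (hp : 0 < p) (hp1 : p ≤ 1)
    (hsum : ∀ q : ℝ, 1 < q → ∑' v, S.AA p v ^ q ≠ ⊤) :
    ∃ (C : ℝ≥0∞) (ρ : ℝ), C ≠ ⊤ ∧ 0 < ρ ∧ ρ < 1 ∧
      (∀ v, S.AA p v ≤ C * ENNReal.ofReal (ρ ^ len v)) ∧
      ∀ lam : ℝ, 1 < lam → ∃ C' : ℝ≥0∞, C' ≠ ⊤ ∧ ∀ n : ℕ,
        ∑' v : {v : F2 // len v = n}, S.AA p (v : F2) ≤ C' * ENNReal.ofReal (lam ^ n) := by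
  have hfin := AA_finite hsum
  obtain ⟨C, K, ρ, hC, -, hρ0, hρ1, hdec, -⟩ := decay_real hG hp hp1 hsum
  refine ⟨ENNReal.ofReal C, ρ, ENNReal.ofReal_ne_top, hρ0, hρ1, fun v => ?_, fun lam hlam => ?_⟩
  · rw [← ENNReal.ofReal_mul hC, ← ENNReal.ofReal_toReal (hfin v)]
    exact ENNReal.ofReal_le_ofReal (hdec v)
  obtain ⟨K', hK', hs⟩ := sphere_real hsum hlam
  refine ⟨ENNReal.ofReal K', ENNReal.ofReal_ne_top, fun n => ?_⟩
  have heq : ∑' v : {v : F2 // len v = n}, S.AA p (v : F2) = ∑ v ∈ sph n, S.AA p v := by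
    rw [← Finset.tsum_subtype (sph n) fun v => S.AA p v]
    exact (Equiv.tsum_eq (Equiv.subtypeEquivRight fun v => (mem_sph (v := v) (n := n)).symm)
      (fun v : {v : F2 // v ∈ sph n} => S.AA p (v : F2)))
  rw [heq, ← ENNReal.ofReal_mul hK', ← ENNReal.ofReal_toReal
    (ENNReal.sum_ne_top.2 fun v _ => hfin v), ENNReal.toReal_sum fun v _ => hfin v]
  exact ENNReal.ofReal_le_ofReal (hs n)

/-! ## Beyond the threshold -/

theorem lt_one_of_summable (hG : S.Geom R c L) {p : ℝ} (hp : 0 < p) (hp1 : p ≤ 1)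
    (hsum : ∀ q : ℝ, 1 < q → ∑' v, S.AA p v ^ q ≠ ⊤) : p < 1 := by
  refine lt_of_le_of_ne hp1 ?_
  rintro rfl
  obtain ⟨C, K, ρ, hC, -, hρ0, hρ1, hdec, -⟩ := decay_real hG hp hp1 hsum
  have h1 : ∀ v, 1 ≤ (S.AA 1 v).toReal := by
    intro v
    obtain ⟨y, hy⟩ := exists_fib S v
    obtain ⟨i⟩ := exists_index S
    obtain ⟨w⟩ := S.conn.preconnected (S.one i) y
    have h2 := tau_pos (R := S.G.edgeSet) one_pos le_rfl w
      fun e he => w.edges_subset_edgeSet he
    rw [one_pow, ENNReal.ofReal_one] at h2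
    have h3 : (1 : ℝ≥0∞) ≤ S.AA 1 v := by
      refine h2.trans ((ENNReal.le_tsum (f := fun z : S.fib v => S.tt 1 (S.one i) (z : S.V))
        ⟨y, hy⟩).trans ?_)
      exact Finset.single_le_sum (f := fun j => ∑' z : S.fib v, S.tt 1 (S.one j) (z : S.V))
        (fun _ _ => bot_le) (Finset.mem_univ i)
    exact (ENNReal.toReal_mono (AA_finite hsum v) h3).trans_eq' ENNReal.toReal_one.symm
  obtain ⟨n, hn⟩ := exists_pow_lt_of_lt_one (show (0 : ℝ) < 1 / (C + 1) by positivity) hρ1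
  have hln : len (genA ^ n) = n := by
    rw [len, toWord_genA_pow, List.length_replicate]
  have h4 := hdec (genA ^ n)
  rw [hln] at h4
  have h5 := h1 (genA ^ n)
  have h6 := mul_le_mul_of_nonneg_left hn.le hC
  have h7 : C * (1 / (C + 1)) < 1 := by
    rw [mul_one_div, div_lt_one (by positivity)]; linarith
  linarith

theorem exists_shell_small (hG : S.Geom R c L) {p : ℝ} (hp : 0 < p) (hp1 : p ≤ 1)
    (hsum : ∀ q : ℝ, 1 < q → ∑' v, S.AA p v ^ q ≠ ⊤) :
    ∃ θ : ℝ, 0 < θ ∧ θ < 1 ∧ ∀ η : ℝ, 0 < η → ∃ N : ℕ, ∀ m, N ≤ m → ∀ Y : F2,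
      ∑ v ∈ sph m, (S.AA p v).toReal * θ ^ len (v⁻¹ * Y) ≤ η * θ ^ len Y := by
  obtain ⟨C, K, ρ, hC, hK, hρ0, hρ1, hdec, hsub⟩ := decay_real hG hp hp1 hsum
  set θ := Real.sqrt ρ with hθ
  have hθ0 : 0 < θ := Real.sqrt_pos.2 hρ0
  have hθ1 : θ < 1 := by
    rw [hθ, ← Real.sqrt_one]
    exact Real.sqrt_lt_sqrt hρ0.le hρ1
  set lam := (1 + θ⁻¹) / 2 with hlamdef
  have hinv : 1 < θ⁻¹ := (one_lt_inv₀ hθ0).2 hθ1
  have hlam : 1 < lam := by rw [hlamdef]; linarith
  set r := θ * lam with hr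
  have hr0 : 0 < r := by positivity
  have hr1 : r < 1 := by
    rw [hr, hlamdef, mul_div_assoc', mul_add, mul_inv_cancel₀ hθ0.ne', mul_one]
    linarith
  obtain ⟨K', hK', hsph⟩ := sphere_real hsum hlam
  refine ⟨θ, hθ0, hθ1, fun η hη => ?_⟩
  set B := K * C * K' with hB
  have hlim : Tendsto (fun m : ℕ => B * (((m : ℝ) + 1) * r ^ m)) atTop (𝓝 0) := by
    have h1 : Tendsto (fun m : ℕ => (m : ℝ) * r ^ m + r ^ m) atTop (𝓝 (0 + 0)) :=
      (tendsto_self_mul_const_pow_of_lt_one hr0.le hr1).add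
        (tendsto_pow_atTop_nhds_zero_of_lt_one hr0.le hr1)
    simpa [add_mul] using h1.const_mul B
  obtain ⟨N, hN⟩ := eventually_atTop.1 (hlim.eventually (eventually_le_nhds hη))
  refine ⟨N, fun m hm Y => ?_⟩
  choose u x y e1 f1 e3 f3 h4 h5 using fun v => exists_meet v Y
  let g : (_j : ℕ) × F2 → ℝ := fun q => K * C * θ ^ (m + len Y) * (S.AA p q.2).toReal
  have hterm : ∀ v ∈ sph m, (S.AA p v).toReal * θ ^ len (v⁻¹ * Y) ≤ g ⟨len (u v), x v⟩ := by
    intro v hv
    have hlv := len_append (e3 v)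
    rw [mem_sph.1 hv] at hlv
    have hlY := len_append (f3 v)
    have hexp : m + len Y = 2 * len (u v) + len (v⁻¹ * Y) := by rw [h5 v]; omega
    have hρ2 : θ ^ 2 = ρ := Real.sq_sqrt hρ0.le
    calc (S.AA p v).toReal * θ ^ len (v⁻¹ * Y)
        ≤ K * (C * ρ ^ len (u v)) * (S.AA p (x v)).toReal * θ ^ len (v⁻¹ * Y) := by
          refine mul_le_mul_of_nonneg_right ((hsub _ _ _ (e1 v) (e3 v)).trans ?_) (by positivity)
          exact mul_le_mul_of_nonneg_right (mul_le_mul_of_nonneg_left (hdec _) hK)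
            ENNReal.toReal_nonneg
      _ = g ⟨len (u v), x v⟩ := by
          simp only [g]
          rw [hexp, pow_add θ (2 * len (u v)), pow_mul, hρ2]; ring
  have hinj : Set.InjOn (fun v => (⟨len (u v), x v⟩ : (_j : ℕ) × F2)) (sph m) := by
    intro v _ w _ h
    simp only [Sigma.mk.injEq, heq_eq_eq] at h
    have hu : u v = u w := by
      refine FreeGroup.toWord_injective ?_
      exact (List.append_inj ((f3 v).symm.trans (f3 w)) h.1).1
    rw [e1 v, e1 w, hu, h.2]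
  calc ∑ v ∈ sph m, (S.AA p v).toReal * θ ^ len (v⁻¹ * Y)
      ≤ ∑ v ∈ sph m, g ⟨len (u v), x v⟩ := Finset.sum_le_sum hterm
    _ = ∑ q ∈ (sph m).image (fun v => (⟨len (u v), x v⟩ : (_j : ℕ) × F2)), g q :=
        (Finset.sum_image hinj).symm
    _ ≤ ∑ q ∈ (Finset.range (m + 1)).sigma (fun j => sph (m - j)), g q := by
        refine Finset.sum_le_sum_of_subset_of_nonneg (fun q hq => ?_) fun q _ _ => ?_
        · obtain ⟨v, hv, rfl⟩ := Finset.mem_image.1 hq
          have hlv := len_append (e3 v)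
          rw [mem_sph.1 hv] at hlv
          refine Finset.mem_sigma.2 ⟨Finset.mem_range.2 ?_, mem_sph.2 ?_⟩ <;> dsimp only <;> omega
        · exact mul_nonneg (by positivity) ENNReal.toReal_nonneg
    _ = ∑ j ∈ Finset.range (m + 1), K * C * θ ^ (m + len Y) *
          ∑ w ∈ sph (m - j), (S.AA p w).toReal := by
        rw [Finset.sum_sigma]
        exact Finset.sum_congr rfl fun j _ => (Finset.mul_sum _ _ _).symm
    _ ≤ ∑ _j ∈ Finset.range (m + 1), K * C * θ ^ (m + len Y) * (K' * lam ^ m) :=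
        Finset.sum_le_sum fun j _ => mul_le_mul_of_nonneg_left ((hsph _).trans
          (mul_le_mul_of_nonneg_left (pow_le_pow_right₀ hlam.le (Nat.sub_le m j)) hK'))
          (by positivity)
    _ = B * (((m : ℝ) + 1) * r ^ m) * θ ^ len Y := by
        rw [Finset.sum_const, Finset.card_range, nsmul_eq_mul, hB, hr, mul_pow, pow_add]
        push_cast
        ring
    _ ≤ η * θ ^ len Y := mul_le_mul_of_nonneg_right (hN m hm) (by positivity)

open Classical in
/-- A finite set around each base vertex whose weighted exit sum is small. -/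
theorem exists_set (hG : S.Geom R c L) {p : ℝ} (hp : 0 < p) (hp1 : p ≤ 1)
    (hsum : ∀ q : ℝ, 1 < q → ∑' v, S.AA p v ^ q ≠ ⊤) :
    ∃ (θ : ℝ) (M : ℕ), 0 < θ ∧ θ < 1 ∧ ∀ i : Fin S.k, ∃ B : Finset S.V, S.one i ∈ B ∧
      (∀ u ∈ B, len (S.π u) < M) ∧
      (∀ u ∈ B, ∀ z, S.G.Adj u z → len (S.π z) ≤ M) ∧
      ∀ Y, len Y = M →
        wsum p (S.edT B) B (S.one i) (fun z => θ ^ len ((S.π z)⁻¹ * Y)) < θ ^ M := by
  obtain ⟨θ, hθ0, hθ1, hshell⟩ := exists_shell_small hG hp hp1 hsum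
  obtain ⟨D, hD⟩ := exists_deg S
  obtain ⟨N, hN⟩ := hshell (θ ^ R / (4 * ((D : ℝ) + 1) * ((R : ℝ) + 1))) (by positivity)
  set n := N + R + 1 with hn
  set M := n + R with hM
  refine ⟨θ, M, hθ0, hθ1, fun i => ?_⟩
  have hfin := AA_finite hsum
  set tr := fun z => (S.tt p (S.one i) z).toReal with htr
  set g := fun z => if len (S.π z) < n then tr z else 0 with hg
  have hbdd : ∀ F : Finset S.V, ∑ z ∈ F, g z ≤ ∑ v ∈ (finite_ball n).toFinset, (S.AA p v).toReal := by
    intro F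
    simp only [hg]
    rw [← Finset.sum_filter]
    have h := sum_fib_le hp.le hp1 hfin i (F.filter fun z => len (S.π z) < n) (fun _ => (1 : ℝ))
      fun _ => zero_le_one
    simp only [mul_one] at h
    refine h.trans (Finset.sum_le_sum_of_subset_of_nonneg ?_ fun v _ _ => ENNReal.toReal_nonneg)
    intro v hv
    obtain ⟨z, hz, rfl⟩ := Finset.mem_image.1 hv
    rw [Set.Finite.mem_toFinset, Set.mem_ofPred_eq]
    exact (Finset.mem_filter.1 hz).2.le
  set sums : Set ℝ := Set.range fun F : Finset S.V => ∑ z ∈ F, g z with hsums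
  have hba : BddAbove sums := ⟨_, by rintro _ ⟨F, rfl⟩; exact hbdd F⟩
  set δ := θ ^ M / (4 * ((D : ℝ) + 1)) with hδ
  have hδ0 : 0 < δ := by positivity
  obtain ⟨F₀, hF₀⟩ : ∃ F₀ : Finset S.V, ∀ Z : Finset S.V, ∑ z ∈ Z, g z ≤ ∑ z ∈ F₀, g z + δ := by
    obtain ⟨_, ⟨F₀, rfl⟩, hlt⟩ :=
      exists_lt_of_lt_csSup (Set.range_nonempty _) (sub_lt_self (sSup sums) hδ0)
    exact ⟨F₀, fun Z => by have := le_csSup hba ⟨Z, rfl⟩; linarith⟩
  set B := insert (S.one i) (F₀.filter fun z => len (S.π z) < n) with hB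
  have hBn : ∀ u ∈ B, len (S.π u) < n := by
    intro u hu
    rcases Finset.mem_insert.1 hu with rfl | h
    · rw [π_one_fib, len_eq_zero.2 rfl]; omega
    · exact (Finset.mem_filter.1 h).2
  have hstep : ∀ u z, S.G.Adj u z → len (S.π z) ≤ len (S.π u) + R := fun u z h =>
    calc len (S.π z) = len (S.π u * ((S.π u)⁻¹ * S.π z)) := by rw [mul_inv_cancel_left]
      _ ≤ len (S.π u) + R := (len_mul_le _ _).trans (Nat.add_le_add_left (hG.lip u z h) _)
  refine ⟨B, Finset.mem_insert_self _ _, fun u hu => (hBn u hu).trans_le (by omega),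
    fun u hu z hz => (hstep u z hz).trans (by have := hBn u hu; omega), fun Y hY => ?_⟩
  set E := S.edT B with hE
  have hEs : (E : Set (Sym2 S.V)) ⊆ S.G.edgeSet := edT_subset B
  have hIs : (insideF E B : Set (Sym2 S.V)) ⊆ S.G.edgeSet :=
    (Finset.coe_subset.2 (insideF_subset E B)).trans hEs
  set P := fun u => p * PE p (insideF E B) (fun ω => Conn ω (S.one i) u) with hP
  have hP0 : ∀ u, 0 ≤ P u := fun u => mul_nonneg hp.le (PE_nonneg hp.le hp1 _)
  have hPu : ∀ u, P u ≤ tr u := fun u =>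
    (mul_le_of_le_one_left (PE_nonneg hp.le hp1 _) hp1).trans (PE_conn_le_tt hp.le hp1 hIs _ _)
  have hPz : ∀ u, ∀ z ∈ outN E B u, P u ≤ tr z := by
    intro u z hz
    rw [mem_outN] at hz
    have h := EE_edge_inside p hz.2
      (fun h => hz.1 ((mem_insideF.1 h).2 z (Sym2.mem_mk_right u z))) (insideF_subset E B)
      (fun a => Conn a (S.one i) u)
    simp only [hP]
    rw [← h]
    refine le_trans ?_ (PE_conn_le_tt hp.le hp1 hEs _ _)
    exact EE_mono hp.le hp1 fun ω _ => ind_mono fun hc =>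
      conn_trans (conn_mono Finset.inter_subset_left hc.1) (conn_edge hc.2)
  have hout : ∀ u, outN E B u ⊆ S.G.neighborFinset u := fun u z hz => by
    rw [SimpleGraph.mem_neighborFinset]
    exact hEs (mem_outN.1 hz).2
  set Φ := fun v : F2 => θ ^ len (v⁻¹ * Y) with hΦ
  have hΦ0 : ∀ v, 0 ≤ Φ v := fun v => pow_nonneg hθ0.le _
  set U := B.filter fun u => n - R ≤ len (S.π u) with hU
  have hsplit : wsum p E B (S.one i) (fun z => Φ (S.π z)) ≤
      (∑ u ∈ B, ∑ z ∈ (outN E B u).filter (fun z => len (S.π z) < n), tr z) +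
        ∑ u ∈ U, (D : ℝ) * (θ ^ R)⁻¹ * (tr u * Φ (S.π u)) := by
    rw [wsum, Finset.sum_congr rfl fun u _ => (Finset.sum_filter_add_sum_filter_not (outN E B u)
      (fun z => len (S.π z) < n) fun z => P u * Φ (S.π z)).symm, Finset.sum_add_distrib]
    refine add_le_add (Finset.sum_le_sum fun u _ => Finset.sum_le_sum fun z hz => ?_) ?_
    · exact (mul_le_of_le_one_right (hP0 u) (pow_le_one₀ hθ0.le hθ1.le)).trans
        (hPz u z (Finset.mem_filter.1 hz).1)
    · rw [hU, Finset.sum_filter]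
      refine Finset.sum_le_sum fun u hu => ?_
      have hdeep : ∀ z ∈ (outN E B u).filter (fun z => ¬ len (S.π z) < n),
          n - R ≤ len (S.π u) ∧ P u * Φ (S.π z) ≤ (θ ^ R)⁻¹ * (tr u * Φ (S.π u)) := by
        intro z hz
        obtain ⟨hz, hzn⟩ := Finset.mem_filter.1 hz
        have hadj : S.G.Adj u z := hEs (mem_outN.1 hz).2
        have := hstep u z hadj
        refine ⟨by omega, ?_⟩
        have hd : len ((S.π u)⁻¹ * Y) ≤ len ((S.π z)⁻¹ * Y) + R :=
          calc len ((S.π u)⁻¹ * Y) = len (((S.π u)⁻¹ * S.π z) * ((S.π z)⁻¹ * Y)) := by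
                congr 1; group
            _ ≤ R + len ((S.π z)⁻¹ * Y) :=
                (len_mul_le _ _).trans (Nat.add_le_add_right (hG.lip u z hadj) _)
            _ = _ := Nat.add_comm _ _
        have hpow : Φ (S.π z) * θ ^ R ≤ Φ (S.π u) := by
          simp only [hΦ, ← pow_add]
          exact pow_le_pow_of_le_one hθ0.le hθ1.le hd
        calc P u * Φ (S.π z) ≤ tr u * ((θ ^ R)⁻¹ * Φ (S.π u)) := by
              refine mul_le_mul (hPu u) ?_ (hΦ0 _) ENNReal.toReal_nonneg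
              rw [inv_mul_eq_div, le_div_iff₀ (pow_pos hθ0 R)]
              exact hpow
          _ = _ := by ring
      have hnn : 0 ≤ (θ ^ R)⁻¹ * (tr u * Φ (S.π u)) :=
        mul_nonneg (by positivity) (mul_nonneg ENNReal.toReal_nonneg (hΦ0 _))
      by_cases hu' : n - R ≤ len (S.π u)
      · rw [if_pos hu', mul_assoc]
        refine (Finset.sum_le_card_nsmul _ _ _ fun z hz => (hdeep z hz).2).trans ?_
        rw [nsmul_eq_mul]
        exact mul_le_mul_of_nonneg_right (by exact_mod_cast (Finset.card_le_card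
          ((Finset.filter_subset _ _).trans (hout u))).trans (hD u)) hnn
      · rw [if_neg hu']
        exact le_of_eq (Finset.sum_eq_zero fun z hz => absurd (hdeep z hz).1 hu')
  have h1 : ∑ u ∈ B, ∑ z ∈ (outN E B u).filter (fun z => len (S.π z) < n), tr z ≤ D * δ := by
    set Z := B.biUnion fun u => (outN E B u).filter fun z => len (S.π z) < n with hZ
    rw [Finset.sum_comm' (t' := Z) (s' := fun z => B.filter fun u =>
      z ∈ (outN E B u).filter fun z => len (S.π z) < n) fun u z => ?_]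
    swap
    · simp only [hZ, Finset.mem_biUnion, Finset.mem_filter]
      exact ⟨fun h => ⟨⟨h.1, h.2⟩, u, h.1, h.2⟩, fun h => ⟨h.1.1, h.1.2⟩⟩
    calc ∑ z ∈ Z, ∑ _u ∈ B.filter (fun u => z ∈ (outN E B u).filter fun z => len (S.π z) < n), tr z
        ≤ ∑ z ∈ Z, (D : ℝ) * tr z := by
          refine Finset.sum_le_sum fun z _ => ?_
          rw [Finset.sum_const, nsmul_eq_mul]
          refine mul_le_mul_of_nonneg_right ?_ ENNReal.toReal_nonneg
          refine Nat.cast_le.2 (le_trans (Finset.card_le_card fun u hu => ?_) (hD z))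
          rw [SimpleGraph.mem_neighborFinset]
          have : S.G.Adj u z := hEs (mem_outN.1 (Finset.mem_filter.1 (Finset.mem_filter.1 hu).2).1).2
          exact this.symm
      _ = (D : ℝ) * ∑ z ∈ Z, tr z := (Finset.mul_sum _ _ _).symm
      _ ≤ D * δ := by
          refine mul_le_mul_of_nonneg_left ?_ (Nat.cast_nonneg D)
          have hZn : ∀ z ∈ Z, len (S.π z) < n ∧ z ∉ B := by
            intro z hz
            obtain ⟨u, -, hz⟩ := Finset.mem_biUnion.1 hz
            exact ⟨(Finset.mem_filter.1 hz).2, (mem_outN.1 (Finset.mem_filter.1 hz).1).1⟩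
          have hdisj : Disjoint Z F₀ := Finset.disjoint_left.2 fun z hz hz' =>
            (hZn z hz).2 (Finset.mem_insert_of_mem (Finset.mem_filter.2 ⟨hz', (hZn z hz).1⟩))
          have := hF₀ (Z ∪ F₀)
          rw [Finset.sum_union hdisj] at this
          have hgz : ∑ z ∈ Z, g z = ∑ z ∈ Z, tr z :=
            Finset.sum_congr rfl fun z hz => if_pos (hZn z hz).1
          linarith
  have h2 : ∑ u ∈ U, tr u * Φ (S.π u) ≤
      R * (θ ^ R / (4 * ((D : ℝ) + 1) * ((R : ℝ) + 1)) * θ ^ M) := by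
    refine (sum_fib_le hp.le hp1 hfin i U Φ hΦ0).trans ?_
    have hsub : U.image S.π ⊆ (Finset.Ico (n - R) n).biUnion sph := by
      intro v hv
      obtain ⟨u, hu, rfl⟩ := Finset.mem_image.1 hv
      obtain ⟨huB, hu'⟩ := Finset.mem_filter.1 hu
      exact Finset.mem_biUnion.2 ⟨len (S.π u), Finset.mem_Ico.2 ⟨hu', hBn u huB⟩, mem_sph.2 rfl⟩
    refine (Finset.sum_le_sum_of_subset_of_nonneg hsub fun v _ _ =>
      mul_nonneg ENNReal.toReal_nonneg (hΦ0 v)).trans ?_
    rw [Finset.sum_biUnion fun a _ b _ hab => Finset.disjoint_left.2 fun v ha hb =>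
      hab ((mem_sph.1 ha).symm.trans (mem_sph.1 hb))]
    refine (Finset.sum_le_card_nsmul _ _
      (θ ^ R / (4 * ((D : ℝ) + 1) * ((R : ℝ) + 1)) * θ ^ M) fun m hm => ?_).trans (le_of_eq ?_)
    · rw [← hY]
      exact hN m (by rw [Finset.mem_Ico] at hm; omega) Y
    · rw [Nat.card_Ico, nsmul_eq_mul]
      congr 2
      omega
  refine hsplit.trans_lt ?_
  rw [← Finset.mul_sum]
  have h3 : (D : ℝ) * (θ ^ R)⁻¹ * (R * (θ ^ R / (4 * ((D : ℝ) + 1) * ((R : ℝ) + 1)) * θ ^ M))
      ≤ θ ^ M / 4 := by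
    have hθR : θ ^ R ≠ 0 := (pow_pos hθ0 R).ne'
    have h : (D : ℝ) * R ≤ ((D : ℝ) + 1) * ((R : ℝ) + 1) := by
      have h1 : (0 : ℝ) ≤ D := Nat.cast_nonneg D
      have h2 : (0 : ℝ) ≤ R := Nat.cast_nonneg R
      nlinarith
    calc (D : ℝ) * (θ ^ R)⁻¹ * (R * (θ ^ R / (4 * ((D : ℝ) + 1) * ((R : ℝ) + 1)) * θ ^ M))
        = (D : ℝ) * R / (((D : ℝ) + 1) * ((R : ℝ) + 1)) * (θ ^ M / 4) := by
          field_simp
      _ ≤ 1 * (θ ^ M / 4) := mul_le_mul_of_nonneg_right
          ((div_le_one (by positivity)).2 h) (by positivity)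
      _ = _ := one_mul _
  have h4 : (D : ℝ) * δ ≤ θ ^ M / 4 := by
    rw [hδ, ← mul_div_assoc, div_le_iff₀ (by positivity)]
    have : 0 < θ ^ M := pow_pos hθ0 M
    nlinarith
  have h5 := mul_le_mul_of_nonneg_left h2 (show 0 ≤ (D : ℝ) * (θ ^ R)⁻¹ by positivity)
  have : 0 < θ ^ M := pow_pos hθ0 M
  linarith

/-- The two point function still tends to zero slightly beyond. -/
theorem exists_beyond (hG : S.Geom R c L) {p : ℝ} (hp : 0 < p) (hp1 : p ≤ 1)
    (hsum : ∀ q : ℝ, 1 < q → ∑' v, S.AA p v ^ q ≠ ⊤) :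
    ∃ p' : ℝ, p < p' ∧ p' ≤ 1 ∧ ∀ δ : ℝ≥0∞, 0 < δ → ∃ x y : S.V, S.tt p' x y ≤ δ := by
  classical
  obtain ⟨θ, M, hθ0, hθ1, hset⟩ := exists_set hG hp hp1 hsum
  choose B hxB hBM hBz hw using hset
  have hplt := lt_one_of_summable hG hp hp1 hsum
  have hev : ∀ᶠ q in 𝓝 p, ∀ i : Fin S.k, ∀ Y ∈ sph M,
      wsum q (S.edT (B i)) (B i) (S.one i) (fun z => θ ^ len ((S.π z)⁻¹ * Y)) < θ ^ M := by
    refine eventually_all.2 fun i => (Finset.eventually_all (sph M)).2 fun Y hY => ?_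
    exact ((continuous_wsum _ _ _ _).tendsto p).eventually
      (gt_mem_nhds (hw i Y (mem_sph.1 hY)))
  obtain ⟨p', ⟨hp'w, hp'1⟩, hlt⟩ :=
    (((hev.filter_mono nhdsWithin_le_nhds).and (Ioo_mem_nhdsGT hplt)).exists).imp
      fun q hq => And.intro hq hq.2.1
  have hle : p' ≤ 1 := hp'1.2.le
  have hp'0 : 0 ≤ p' := (hp.trans hlt).le
  refine ⟨p', hlt, hle, fun δ hδ => ?_⟩
  -- extend the condition to all distant targets
  have hext : ∀ i : Fin S.k, ∀ Y, M ≤ len Y →
      wsum p' (S.edT (B i)) (B i) (S.one i) (fun z => θ ^ len ((S.π z)⁻¹ * Y)) ≤ θ ^ len Y := by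
    intro i Y hY
    obtain ⟨Y₁, r, e1, e2, e3⟩ := exists_split Y M
    have hY₁ : len Y₁ = M := by
      rw [len, e2, List.length_take]
      simp only [len] at hY
      omega
    rw [len_append e3, hY₁, pow_add, mul_comm (θ ^ M)]
    refine le_trans ?_ (mul_le_mul_of_nonneg_left (hp'w i Y₁ (mem_sph.2 hY₁)).le
      (pow_nonneg hθ0.le _))
    rw [← wsum_mul]
    refine wsum_mono_f hp'0 hle _ fun u hu z hz => le_of_eq ?_
    have hz' : len (S.π z) ≤ len Y₁ := by
      rw [hY₁]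
      exact hBz i u hu z (edT_subset _ (mem_outN.1 hz).2)
    rw [← pow_add, e1, len_extend (by rw [← e1]; exact e3) hz', Nat.add_comm]
  have hbound : ∀ x y : S.V, S.tt p' x y ≤
      ENNReal.ofReal ((θ ^ M)⁻¹ * θ ^ len ((S.π x)⁻¹ * S.π y)) := by
    intro x y
    refine iSup_le fun E => ENNReal.ofReal_le_ofReal ?_
    simp only [connTo_singleton]
    refine PE_le_weight hp'0 hle S.G.edgeSet (f := fun z => θ ^ len ((S.π z)⁻¹ * S.π y))
      (fun z => pow_nonneg hθ0.le _) (by positivity) (fun z => ?_) E E.2 x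
    rcases le_or_gt (len ((S.π z)⁻¹ * S.π y)) M with h | h
    · left
      rw [inv_mul_eq_div, one_le_div (pow_pos hθ0 M)]
      exact pow_le_pow_of_le_one hθ0.le hθ1.le h
    right
    set i := z.2
    set g := S.act z.1 with hg
    have hz : g (S.one i) = z := act_one_eq z
    have hπ : S.π z = S.φ z.1 := rfl
    refine ⟨(B i).map g.toEmbedding, Finset.mem_map.2 ⟨_, hxB i, hz⟩, ?_,
      (S.edT (B i)).map (sym2Emb g), touch_map z.1 fun e he hv => mem_edT.2 ⟨he, hv⟩, ?_⟩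
    · intro hy
      obtain ⟨w, hw, hwy⟩ := Finset.mem_map.1 hy
      have h1 := hBM i w hw
      rw [← hwy, Equiv.coe_toEmbedding, hg, π_act, hπ, inv_mul_cancel_left] at h
      omega
    · conv_lhs => rw [← hz]
      rw [wsum_map]
      refine le_trans (le_of_eq ?_) (hext i ((S.π z)⁻¹ * S.π y) h.le)
      congr 1
      funext w
      simp only [Function.comp_apply, hg, π_act, hπ]
      congr 2
      group
  obtain ⟨i⟩ := exists_index S
  obtain ⟨η, hη0, hηδ⟩ : ∃ η : ℝ, 0 < η ∧ ENNReal.ofReal η ≤ δ := by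
    rcases eq_or_ne δ ⊤ with rfl | hδt
    · exact ⟨1, one_pos, le_top⟩
    · exact ⟨δ.toReal, ENNReal.toReal_pos hδ.ne' hδt, le_of_eq (ENNReal.ofReal_toReal hδt)⟩
  obtain ⟨n, hn⟩ := exists_pow_lt_of_lt_one (mul_pos hη0 (pow_pos hθ0 M)) hθ1
  obtain ⟨y, hy⟩ := exists_fib S (genA ^ n)
  refine ⟨S.one i, y, (hbound _ _).trans (le_trans (ENNReal.ofReal_le_ofReal ?_) hηδ)⟩
  rw [π_one_fib, inv_one, one_mul, hy, len, toWord_genA_pow, List.length_replicate, inv_mul_eq_div,
    div_le_iff₀ (pow_pos hθ0 M)]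
  exact hn.le

end Setting

end Vale.Agent.P165.Tree
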