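import Vale.Agent.P165.Tree.Fibre
import Vale.Agent.P165.Tree.Fin.ExpTail

/-!
# Exit sums above the threshold (P165, tree quotient)
-/

namespace Vale.Agent.P165.Tree

open scoped ENNReal

universe u

section Aux

variable {V : Type*} [DecidableEq V]

/-- Exit sums only see the edges touching the set. -/
theorem exitSum_mono_touch {p : ℝ} (hp0 : 0 ≤ p) (hp1 : p ≤ 1) {E' E : Finset (Sym2 V)}
    {B : Finset V} (h : touch E' B ⊆ E) (x : V) : exitSum p E' B x ≤ exitSum p E B x := by
  rw [exitSum_eq, exitSum_eq]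
  refine Finset.sum_le_sum fun u hu => mul_le_mul ?_ ?_ ?_ (Nat.cast_nonneg _)
  · exact_mod_cast Finset.card_le_card fun e he => by
      obtain ⟨he', hue, hv⟩ := mem_outE.1 he
      exact mem_outE.2 ⟨h (Finset.mem_filter.2 ⟨he', u, hue, hu⟩), hue, hv⟩
  · refine mul_le_mul_of_nonneg_left (PE_mono_set hp0 hp1 (incr_conn x u) ?_) hp0
    intro e he
    rw [mem_insideF] at he ⊢
    induction e with
    | _ a b =>
      exact ⟨h (Finset.mem_filter.2 ⟨he.1, a, by simp, he.2 a (by simp)⟩), he.2⟩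
  · exact mul_nonneg hp0 (PE_nonneg hp0 hp1 _)

theorem mem_map_sym2Emb {W : Type*} (f : V ≃ W) {e : Sym2 V} {v : V} :
    f v ∈ sym2Emb f e ↔ v ∈ e := by
  simp [sym2Emb]

theorem exitSum_map {W : Type*} [DecidableEq W] (p : ℝ) (f : V ≃ W) (E : Finset (Sym2 V))
    (B : Finset V) (x : V) :
    exitSum p (E.map (sym2Emb f)) (B.map f.toEmbedding) (f x) = exitSum p E B x := by
  have hall : ∀ e : Sym2 V, (∀ v ∈ sym2Emb f e, v ∈ B.map f.toEmbedding) ↔ ∀ v ∈ e, v ∈ B := by
    intro e
    rw [f.surjective.forall]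
    simp [mem_map_sym2Emb]
  have hin : insideF (E.map (sym2Emb f)) (B.map f.toEmbedding) =
      (insideF E B).map (sym2Emb f) := by
    ext e
    constructor
    · intro he
      obtain ⟨he, hdB⟩ := mem_insideF.1 he
      obtain ⟨d, hd, rfl⟩ := Finset.mem_map.1 he
      exact Finset.mem_map.2 ⟨d, mem_insideF.2 ⟨hd, (hall d).1 hdB⟩, rfl⟩
    · intro he
      obtain ⟨d, hd, rfl⟩ := Finset.mem_map.1 he
      obtain ⟨hd, hdB⟩ := mem_insideF.1 hd
      exact mem_insideF.2 ⟨Finset.mem_map.2 ⟨d, hd, rfl⟩, (hall d).2 hdB⟩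
  have hout : ∀ u, outE (E.map (sym2Emb f)) (B.map f.toEmbedding) (f u) =
      (outE E B u).map (sym2Emb f) := by
    intro u
    ext e
    simp only [mem_outE, Finset.mem_map]
    constructor
    · rintro ⟨⟨d, hd, rfl⟩, hu, v, hv, hvB⟩
      obtain ⟨v, rfl⟩ := f.surjective v
      exact ⟨d, ⟨hd, (mem_map_sym2Emb f).1 hu, v, (mem_map_sym2Emb f).1 hv,
        fun h => hvB ⟨v, h, rfl⟩⟩, rfl⟩
    · rintro ⟨d, ⟨hd, hu, v, hv, hvB⟩, rfl⟩
      refine ⟨⟨d, hd, rfl⟩, (mem_map_sym2Emb f).2 hu, f v, (mem_map_sym2Emb f).2 hv, ?_⟩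
      rintro ⟨a, ha, hav⟩
      exact hvB (f.injective hav ▸ ha)
  rw [exitSum_eq, exitSum_eq, Finset.sum_map, hin]
  refine Finset.sum_congr rfl fun u _ => ?_
  simp only [Equiv.coe_toEmbedding]
  rw [hout, Finset.card_map]
  congr 2
  unfold PE
  rw [EE_map]
  refine EE_congr p fun ω _ => ?_
  congr 1
  refine propext ⟨fun hc => ?_, fun hc => conn_map f hc⟩
  have h2 := conn_map f.symm hc
  rwa [map_symm_map, Equiv.symm_apply_apply, Equiv.symm_apply_apply] at h2

end Aux

namespace Setting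

variable {S : Setting.{u}}

/-- Above the threshold some vertex has all exit sums at least one. -/
theorem exit_ge_one {p : ℝ} (hp : S.pT < p) (hp1 : p ≤ 1) :
    ∃ x : S.V, ∀ (B : Finset S.V) (E : Finset (Sym2 S.V)), x ∈ B →
      (E : Set (Sym2 S.V)) ⊆ S.G.edgeSet →
      (∀ e ∈ S.G.edgeSet, (∃ v ∈ e, v ∈ B) → e ∈ E) → 1 ≤ exitSum p E B x := by
  classical
  by_contra hcon
  push Not at hcon
  have hp0 : 0 ≤ p := le_trans (Real.sSup_nonneg fun r hr => hr.1) hp.le
  choose B E hxB hEsub hEall hlt using hcon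
  obtain ⟨ρ, hρ0, hρ1, hρ⟩ : ∃ ρ : ℝ, 0 ≤ ρ ∧ ρ < 1 ∧
      ∀ i, exitSum p (E (S.one i)) (B (S.one i)) (S.one i) ≤ ρ := by
    set ex : Fin S.k → ℝ := fun i => exitSum p (E (S.one i)) (B (S.one i)) (S.one i) with hex
    rcases isEmpty_or_nonempty (Fin S.k) with h | h
    · exact ⟨0, le_rfl, one_pos, fun i => isEmptyElim i⟩
    · refine ⟨max 0 (Finset.univ.sup' Finset.univ_nonempty ex), le_max_left _ _, ?_, fun i =>
        (Finset.le_sup' ex (Finset.mem_univ i)).trans (le_max_right _ _)⟩
      exact max_lt one_pos ((Finset.sup'_lt_iff _).2 fun i _ => hlt (S.one i))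
  set N := (∑ i, (B (S.one i)).card) + ∑ i, (E (S.one i)).card
  obtain ⟨h, t, hh, -, htail⟩ := exp_tail (V := S.V) hp0 hp1 hρ0 hρ1 N
  have hchi : ∀ x, S.chi p x ≠ ⊤ := by
    intro x
    refine ne_top_of_le_ne_top (ENNReal.ofReal_ne_top (r := Real.exp t / h)) ?_
    rw [chi, ENNReal.tsum_eq_iSup_sum]
    refine iSup_le fun F => ?_
    rw [show (∑ y ∈ F, S.tt p x y) = ∑ y ∈ F, ⨆ E : {E : Finset (Sym2 S.V) //
        (E : Set (Sym2 S.V)) ⊆ S.G.edgeSet}, ENNReal.ofReal (PE p (E : Finset (Sym2 S.V))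
          fun ω => ConnTo ω x {y}) from rfl,
      ENNReal.finsetSum_iSup fun E₁ E₂ => ?_]
    · refine iSup_le fun E₀ => ?_
      rw [← ENNReal.ofReal_sum_of_nonneg fun y _ => PE_nonneg hp0 hp1 _]
      refine ENNReal.ofReal_le_ofReal ?_
      have hmom := htail (E₀ : Finset (Sym2 S.V))
        (fun e he => S.G.not_isDiag_of_mem_edgeSet (E₀.2 he)) (fun z => ?_) x
      · rw [le_div_iff₀ hh]
        refine le_trans ?_ hmom
        rw [mul_comm, Finset.mul_sum]
        simp only [PE, ← EE_mul_left, ← EE_sum]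
        refine EE_mono hp0 hp1 fun ω _ => ?_
        rw [← Finset.mul_sum]
        refine le_trans (mul_le_mul_of_nonneg_left (b := ∑ y ∈ F, ind (ConnTo ω x {y}))
          (c := ((clF ω x).card : ℝ)) ?_ hh.le) ?_
        · calc ∑ y ∈ F, ind (ConnTo ω x {y}) = ((F.filter fun y => Conn ω x y).card : ℝ) := by
                rw [Finset.natCast_card_filter]
                refine Finset.sum_congr rfl fun y _ => ?_
                simp [ind, connTo_singleton]
            _ ≤ _ := by
                exact_mod_cast Finset.card_le_card fun y hy =>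
                  mem_clF.2 (Finset.mem_filter.1 hy).2
        · linarith [Real.add_one_le_exp (h * ((clF ω x).card : ℝ))]
      · -- translate the witness of the orbit of `z`
        obtain ⟨γ, i⟩ := z
        set f : S.V ≃ S.V := S.act γ with hf
        have hz : f (S.one i) = (γ, i) := by simp [hf, act, one]
        have htouch : touch (E₀ : Finset (Sym2 S.V)) ((B (S.one i)).map f.toEmbedding) ⊆
            (E (S.one i)).map (sym2Emb f) := by
          intro e he
          obtain ⟨heE, v, hve, hv⟩ := Finset.mem_filter.1 he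
          obtain ⟨u, hu, rfl⟩ := Finset.mem_map.1 hv
          have he' : e = sym2Emb f (Sym2.map f.symm e) := by simp [sym2Emb, Sym2.map_map]
          refine Finset.mem_map.2 ⟨Sym2.map f.symm e, hEall (S.one i) _ ?_ ⟨u, ?_, hu⟩, he'.symm⟩
          · have hG : e ∈ S.G.edgeSet := E₀.2 heE
            clear he he' hve heE
            induction e with
            | _ a b =>
              simp only [Sym2.map_mk, SimpleGraph.mem_edgeSet] at hG ⊢
              rw [← adj_act γ]
              simpa [hf] using hG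
          · rw [he'] at hve
            exact (mem_map_sym2Emb f).1 hve
        refine ⟨(B (S.one i)).map f.toEmbedding, ?_, ?_, ?_, ?_⟩
        · exact Finset.mem_map.2 ⟨_, hxB _, hz⟩
        · rw [Finset.card_map]
          exact le_add_right (Finset.single_le_sum (f := fun j => (B (S.one j)).card)
            (fun _ _ => zero_le) (Finset.mem_univ i))
        · refine (Finset.card_le_card htouch).trans ?_
          rw [Finset.card_map]
          exact le_add_left (Finset.single_le_sum (f := fun j => (E (S.one j)).card)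
            (fun _ _ => zero_le) (Finset.mem_univ i))
        · refine (exitSum_mono_touch hp0 hp1 htouch _).trans ?_
          rw [← hz, exitSum_map]
          exact hρ i
    · have hsub : (((E₁ : Finset (Sym2 S.V)) ∪ E₂ : Finset (Sym2 S.V)) : Set (Sym2 S.V)) ⊆
          S.G.edgeSet := by
        rw [Finset.coe_union]; exact Set.union_subset E₁.2 E₂.2
      refine ⟨⟨_, hsub⟩, fun y => ?_⟩
      exact ⟨ENNReal.ofReal_le_ofReal
            (PE_mono_set hp0 hp1 (incr_connTo x _) Finset.subset_union_left),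
          ENNReal.ofReal_le_ofReal
            (PE_mono_set hp0 hp1 (incr_connTo x _) Finset.subset_union_right)⟩
  have hbdd : BddAbove {r : ℝ | 0 ≤ r ∧ r ≤ 1 ∧ ∀ x, S.chi r x ≠ ⊤} := ⟨1, fun r hr => hr.2.1⟩
  have hle : p ≤ S.pT := le_csSup hbdd ⟨hp0, hp1, hchi⟩
  exact absurd hle (not_le.2 hp)

end Setting

end Vale.Agent.P165.Tree
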