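import Vale.Agent.P165.Tree.Quant

/-!
# Fibre sums: translations, Harnack bounds and cuts (P165, tree quotient)
-/

namespace Vale.Agent.P165.Tree

open scoped ENNReal

universe u

/-- A product of full length is a concatenation. -/
theorem toWord_mul_of_len {u v : F2} (h : len (u * v) = len u + len v) :
    (u * v).toWord = u.toWord ++ v.toWord := by
  rw [len, len, len, ← List.length_append, FreeGroup.toWord_mul] at h
  rw [FreeGroup.toWord_mul]
  exact FreeGroup.reduce.red.sublist.eq_of_length h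

/-- Stepping into the cone of `u` passes near `u`. -/
theorem len_enter {u a b : F2} (ha : ¬ Pre u a) (hb : Pre u b) :
    len (u⁻¹ * b) ≤ len (a⁻¹ * b) := by
  obtain ⟨x, hbx, -, hm⟩ := split_of_prefix hb
  subst hbx
  set t := u⁻¹ * a with ht
  have hat : a = u * t := by rw [ht, mul_inv_cancel_left]
  obtain ⟨p, hp, y, hy, h1, h2⟩ :
      ∃ p ∈ u.toWord.getLast?, ∃ y ∈ t.toWord.head?, p.1 = y.1 ∧ p.2 ≠ y.2 := by
    by_contra hne
    push Not at hne
    exact ha ⟨t.toWord, by rw [hat, toWord_mul_of_meet hne]⟩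
  have key : (t⁻¹ * x).toWord = t⁻¹.toWord ++ x.toWord := by
    refine toWord_mul_of_meet fun q hq z hz hqz => ?_
    rw [FreeGroup.toWord_inv, FreeGroup.invRev, List.getLast?_reverse, List.head?_map,
      Option.mem_def.1 hy, Option.map_some, Option.mem_some_iff] at hq
    subst hq
    have := hm p hp z hz (by simpa [h1] using hqz)
    rw [← this]
    revert h2
    cases p.2 <;> cases y.2 <;> simp
  rw [inv_mul_cancel_left, show a⁻¹ * (u * x) = t⁻¹ * x by rw [hat]; group, len, len, key,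
    List.length_append]
  exact Nat.le_add_left _ _

theorem inv_bound {a b C : ℝ≥0∞} (h0 : a ≠ 0) (ht : a ≠ ⊤) (h : a * b ≤ C) : b ≤ a⁻¹ * C := by
  calc b = a⁻¹ * (a * b) := by rw [← mul_assoc, ENNReal.inv_mul_cancel h0 ht, one_mul]
    _ ≤ a⁻¹ * C := mul_le_mul_right h _

namespace Setting

variable {S : Setting.{u}} {R c L : ℕ}

/-- Translation as an endomorphism of the graph. -/
def hom (S : Setting.{u}) (γ : S.Γ) : S.G →g S.G := ⟨S.act γ, fun h => (adj_act γ).2 h⟩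

theorem act_one_fib (x : S.V) : S.act x.1 (S.one x.2) = x := by
  simp [act, one]

theorem act_inv_act_fib (γ : S.Γ) (x : S.V) : S.act γ⁻¹ (S.act γ x) = x :=
  Prod.ext (inv_mul_cancel_left γ x.1) rfl

theorem act_act_inv_fib (γ : S.Γ) (x : S.V) : S.act γ (S.act γ⁻¹ x) = x :=
  Prod.ext (mul_inv_cancel_left γ x.1) rfl

theorem π_one_fib (i : Fin S.k) : S.π (S.one i) = 1 := by
  simp [π, one]

theorem act_edgeSet (γ : S.Γ) : Sym2.map (S.act γ) '' S.G.edgeSet = S.G.edgeSet := by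
  ext e
  constructor
  · rintro ⟨d, hd, rfl⟩
    induction d using Sym2.ind with
    | _ a b => exact (adj_act γ).2 hd
  · intro he
    refine ⟨Sym2.map (S.act γ⁻¹) e, ?_, ?_⟩
    · induction e using Sym2.ind with
      | _ a b => exact (adj_act γ⁻¹).2 he
    · induction e using Sym2.ind with
      | _ a b => simp [Sym2.map_mk, act_act_inv_fib]

theorem exists_k (S : Setting.{u}) : Nonempty (Fin S.k) :=
  S.conn.nonempty.map fun x => x.2

/-- A walk of bounded length in every given direction. -/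
theorem link_any (g : F2) :
    ∃ n : ℕ, ∀ x : S.V, ∃ y, S.π y = S.π x * g ∧ y.2 = x.2 ∧
      ∃ w : S.G.Walk x y, w.length ≤ n := by
  obtain ⟨δ, hδ⟩ := S.surj g
  let w := fun i : Fin S.k => (S.conn.preconnected (S.one i) ((δ, i) : S.V)).some
  refine ⟨Finset.univ.sup fun i => (w i).length, fun x => ?_⟩
  refine ⟨S.act x.1 (δ, x.2), by simp [π, act, hδ], by simp [act],
    ((w x.2).map (S.hom x.1)).copy (act_one_fib x) rfl, ?_⟩
  exact le_of_eq_of_le ((SimpleGraph.Walk.length_copy _ _ _).trans (SimpleGraph.Walk.length_map _ _))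
    (Finset.le_sup (f := fun i => (w i).length) (Finset.mem_univ x.2))

theorem near_finite (n : ℕ) : ∀ x : S.V,
    {y | ∃ w : S.G.Walk x y, w.length ≤ n}.Finite := by
  induction n with
  | zero =>
    refine fun x => (Set.finite_singleton x).subset ?_
    rintro y ⟨w, hw⟩
    cases w with
    | nil => exact Set.mem_singleton _
    | cons h q => simp at hw
  | succ n ih =>
    refine fun x => (((S.nbrFin x).biUnion fun z _ => ih z).insert x).subset ?_
    rintro y ⟨w, hw⟩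
    cases w with
    | nil => exact Set.mem_insert _ _
    | cons h q =>
      refine Set.mem_insert_of_mem _ (Set.mem_biUnion h ⟨q, ?_⟩)
      simpa using hw

theorem near_bound (n : ℕ) : ∃ M : ℕ, ∀ y' : S.V, ∃ B : Finset S.V, B.card ≤ M ∧
    ∀ y, (∃ w : S.G.Walk y y', w.length ≤ n) → y ∈ B := by
  refine ⟨∑ i, (near_finite n (S.one i)).toFinset.card, fun y' =>
    ⟨(near_finite n (S.one y'.2)).toFinset.map (S.act y'.1).toEmbedding, ?_, ?_⟩⟩
  · rw [Finset.card_map]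
    exact Finset.single_le_sum (f := fun i => (near_finite n (S.one i)).toFinset.card)
      (fun _ _ => Nat.zero_le _) (Finset.mem_univ _)
  · rintro y ⟨w, hw⟩
    refine Finset.mem_map.2 ⟨S.act y'.1⁻¹ y, (Set.Finite.mem_toFinset _).2 ?_, act_act_inv_fib _ _⟩
    have h1 : S.hom y'.1⁻¹ y' = S.one y'.2 := by
      show S.act y'.1⁻¹ y' = _
      exact Prod.ext (inv_mul_cancel y'.1) rfl
    refine ⟨(w.reverse.map (S.hom y'.1⁻¹)).copy h1 rfl, ?_⟩
    exact le_of_eq_of_le (((SimpleGraph.Walk.length_copy _ _ _).trans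
      (SimpleGraph.Walk.length_map _ _)).trans w.length_reverse) hw

/-- Sums over two sets of uniformly nearby vertices compare. -/
theorem tsum_near_le (n : ℕ) : ∃ M : ℕ, ∀ (P Q : Set S.V) (f g : S.V → ℝ≥0∞) (K : ℝ≥0∞),
    (∀ y ∈ P, ∃ y' ∈ Q, (∃ w : S.G.Walk y y', w.length ≤ n) ∧ f y ≤ K * g y') →
    ∑' y : P, f y ≤ M * K * ∑' y' : Q, g y' := by
  classical
  obtain ⟨M, hM⟩ := near_bound (S := S) n
  choose B hB hmem using hM
  refine ⟨M, fun P Q f g K h => ?_⟩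
  have h1 : ∀ y : P, f y ≤ K * ∑' y' : Q, if (y : S.V) ∈ B y' then g y' else 0 := by
    rintro ⟨y, hy⟩
    obtain ⟨y', hy', hw, hf⟩ := h y hy
    refine hf.trans (mul_le_mul_right (le_trans (le_of_eq ?_) (ENNReal.le_tsum ⟨y', hy'⟩)) _)
    exact (if_pos (hmem y' y hw)).symm
  refine (ENNReal.tsum_le_tsum h1).trans ?_
  rw [ENNReal.tsum_mul_left, ENNReal.tsum_comm, mul_comm (M : ℝ≥0∞) K, mul_assoc,
    ← ENNReal.tsum_mul_left (a := (M : ℝ≥0∞))]
  refine mul_le_mul_right (ENNReal.tsum_le_tsum fun y' => ?_) _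
  refine (ENNReal.tsum_comp_le_tsum_of_injective Subtype.val_injective
    (fun y => if y ∈ B y' then g y' else 0)).trans ?_
  rw [tsum_eq_sum (s := B y') fun y hy => if_neg hy, Finset.sum_congr rfl fun y hy => if_pos hy,
    Finset.sum_const, nsmul_eq_mul]
  exact mul_le_mul_left (Nat.cast_le.2 (hB y')) _

/-- Moving the end of a connection along walks of bounded length. -/
theorem tau_near_le {p₁ : ℝ} (hp₁ : 0 < p₁) (n : ℕ) :
    ∃ C : ℝ≥0∞, C ≠ ⊤ ∧ ∀ p, p₁ ≤ p → p ≤ 1 → ∀ (Rs : Set (Sym2 S.V)) (z : S.V) (P Q : Set S.V),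
      (∀ y ∈ P, ∃ y' ∈ Q, ∃ w : S.G.Walk y y', w.length ≤ n ∧ ∀ e ∈ w.edges, e ∈ Rs) →
      ∑' y : P, tau p Rs z (y : S.V) ≤ C * ∑' y' : Q, tau p Rs z (y' : S.V) := by
  obtain ⟨M, hM⟩ := tsum_near_le (S := S) n
  have h0 : ENNReal.ofReal (p₁ ^ n) ≠ 0 := by simp [pow_pos hp₁ n]
  refine ⟨M * (ENNReal.ofReal (p₁ ^ n))⁻¹,
    ENNReal.mul_ne_top (ENNReal.natCast_ne_top M) (ENNReal.inv_ne_top.2 h0),
    fun p hp hp1 Rs z P Q h => hM P Q (fun y => tau p Rs z y) (fun y => tau p Rs z y) _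
      fun y hy => ?_⟩
  obtain ⟨y', hy', w, hw, he⟩ := h y hy
  refine ⟨y', hy', ⟨w, hw⟩, inv_bound h0 ENNReal.ofReal_ne_top ?_⟩
  have h2 := walk_mul_tauT (T := ({z} : Set S.V)) (hp₁.le.trans hp) hp1 w.reverse
    (by simpa using he)
  rw [← tau.eq_1, ← tau.eq_1, tau_comm p Rs y z, tau_comm p Rs y' z] at h2
  refine le_trans (mul_le_mul_left (ENNReal.ofReal_le_ofReal ?_) _) h2
  rw [SimpleGraph.Walk.length_reverse]
  exact (pow_le_pow_left₀ hp₁.le hp n).trans
    (pow_le_pow_of_le_one (hp₁.le.trans hp) hp1 hw)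

theorem tsum_le_fibres (f : S.V → ℝ≥0∞) (P : Set S.V) (F : Finset F2) (h : ∀ z ∈ P, S.π z ∈ F) :
    ∑' z : P, f z ≤ ∑ v ∈ F, ∑' y : S.fib v, f y :=
  (ENNReal.tsum_mono_subtype f fun z hz => Set.mem_biUnion (h z hz) rfl).trans
    (ENNReal.tsum_biUnion_le f F S.fib)

theorem port_len' (hG : S.Geom R c L) {g : F2} {z : S.V} (hz : z ∈ S.Port L g) :
    len (g⁻¹ * S.π z) < R := by
  obtain ⟨γ, rfl⟩ := S.surj g
  rw [← mul_one (S.φ γ), ← act_Port] at hz
  obtain ⟨z', hz', rfl⟩ := hz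
  rw [π_act, inv_mul_cancel_left]
  exact port_len hG hz'

theorem R_pos (hG : S.Geom R c L) : 0 < R := by
  obtain ⟨z, hz⟩ := exists_port hG
  exact lt_of_le_of_lt (Nat.zero_le _) (port_len hG hz)

/-- A path inside `ω`. -/
theorem exists_path {ω : Finset (Sym2 S.V)} (hω : (ω : Set (Sym2 S.V)) ⊆ S.G.edgeSet) {x y : S.V}
    (hc : Conn ω x y) : ∃ w : S.G.Walk x y, w.IsPath ∧ w.edges.toFinset ⊆ ω := by
  obtain ⟨w⟩ := hc
  have he : ∀ e ∈ w.bypass.edges, e ∈ S.G.edgeSet := fun e he => hω (edges_mem _ e he)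
  refine ⟨w.bypass.transfer S.G he, w.bypass_isPath.transfer he, fun e h => ?_⟩
  rw [SimpleGraph.Walk.edges_transfer] at h
  exact edges_mem _ e (List.mem_toFinset.1 h)

theorem within_walk {Rs : Set (Sym2 S.V)} {s : Finset (Sym2 S.V)} {x y : S.V}
    (w : S.G.Walk x y) (hs : w.edges.toFinset ⊆ s) (hR : ∀ e ∈ w.edges, e ∈ Rs) :
    ∃ t ⊆ s, (t : Set (Sym2 S.V)) ⊆ Rs ∧ Conn t x y :=
  ⟨w.edges.toFinset, hs, fun e he => hR e (List.mem_toFinset.1 he), conn_of_gwalk w subset_rfl⟩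

theorem path_split {x y z : S.V} {w : S.G.Walk x y} (hw : w.IsPath) (hz : z ∈ w.support) :
    Disjoint (w.takeUntil z hz).edges.toFinset (w.dropUntil z hz).edges.toFinset := by
  have hnd := hw.isTrail.edges_nodup
  rw [← w.take_spec hz, SimpleGraph.Walk.edges_append, List.nodup_append'] at hnd
  rw [Finset.disjoint_left]
  exact fun e he he' => hnd.2.2 (List.mem_toFinset.1 he) (List.mem_toFinset.1 he')

theorem tt_act (p : ℝ) (γ : S.Γ) (x y : S.V) : S.tt p (S.act γ x) (S.act γ y) = S.tt p x y := by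
  unfold tt tau
  conv_lhs => rw [← act_edgeSet γ]
  rw [← Set.image_singleton, tauT_map]

theorem tsum_fib_le_AA (p : ℝ) (x : S.V) (v : F2) :
    ∑' y : S.fib v, S.tt p x (y : S.V) ≤ S.AA p ((S.π x)⁻¹ * v) := by
  refine le_trans ?_ (Finset.single_le_sum
    (f := fun i => ∑' y : S.fib ((S.π x)⁻¹ * v), S.tt p (S.one i) (y : S.V))
    (fun _ _ => bot_le) (Finset.mem_univ x.2))
  let e : S.fib v → S.fib ((S.π x)⁻¹ * v) := fun y => ⟨S.act x.1⁻¹ y, by
    simp only [fib, Set.mem_ofPred_eq, π_act, map_inv, show S.π (y : S.V) = v from y.2]; rfl⟩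
  refine le_trans (le_of_eq (tsum_congr fun y => ?_))
    (ENNReal.tsum_comp_le_tsum_of_injective (f := e)
      (fun a b h => Subtype.ext ((S.act x.1⁻¹).injective (Subtype.ext_iff.1 h))) _)
  show _ = S.tt p (S.one x.2) (S.act x.1⁻¹ y)
  rw [← tt_act p x.1 (S.one x.2), act_act_inv_fib, act_one_fib]

theorem one_le_AA_one {p : ℝ} (hp0 : 0 ≤ p) (hp1 : p ≤ 1) : 1 ≤ S.AA p 1 := by
  obtain ⟨i⟩ := S.exists_k
  refine le_trans ?_ (Finset.single_le_sum
    (f := fun i => ∑' y : S.fib 1, S.tt p (S.one i) (y : S.V)) (fun _ _ => bot_le)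
    (Finset.mem_univ i))
  refine le_trans (le_of_eq ?_) (ENNReal.le_tsum ⟨S.one i, π_one_fib i⟩)
  exact (tau_self hp0 hp1).symm

theorem AA_ne_top {p : ℝ} (hp0 : 0 ≤ p) (h : p < S.pT) :
    (∀ v, S.AA p v ≠ ⊤) ∧ S.QQ p ≠ ⊤ := by
  set P := {p : ℝ | 0 ≤ p ∧ p ≤ 1 ∧ ∀ x, S.chi p x ≠ ⊤} with hP
  have hne : P.Nonempty := by
    by_contra hne
    rw [Set.not_nonempty_iff_eq_empty] at hne
    rw [pT, ← hP, hne, Real.sSup_empty] at h
    linarith
  obtain ⟨p', ⟨-, hp'1, hchi⟩, hpp'⟩ := exists_lt_of_lt_csSup hne h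
  have hsum : ∑' v, S.AA p v ≠ ⊤ := by
    refine ne_top_of_le_ne_top (ENNReal.sum_ne_top.2 fun i _ => hchi (S.one i))
      (b := ∑ i : Fin S.k, S.chi p' (S.one i)) ?_
    unfold AA
    rw [Summable.tsum_finsetSum fun i _ => ENNReal.summable]
    refine Finset.sum_le_sum fun i _ => ?_
    rw [← ENNReal.tsum_sigma fun v (y : S.fib v) => S.tt p (S.one i) (y : S.V)]
    refine (ENNReal.tsum_le_tsum fun y => tauT_mono_p hp0 hpp'.le hp'1).trans ?_
    refine ENNReal.tsum_comp_le_tsum_of_injective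
      (f := fun y : (v : F2) × S.fib v => (y.2 : S.V)) ?_ (S.tt p' (S.one i))
    rintro ⟨v, y, hy⟩ ⟨v', y', hy'⟩ (h : y = y')
    subst h
    obtain rfl : v = v' := hy.symm.trans hy'
    rfl
  refine ⟨fun v => ne_top_of_le_ne_top hsum (ENNReal.le_tsum v), ?_⟩
  refine ne_top_of_le_ne_top (ENNReal.mul_ne_top (ENNReal.pow_ne_top hsum (n := 2)) hsum) ?_
  rw [← ENNReal.tsum_mul_left]
  refine ENNReal.tsum_le_tsum fun v => ?_
  rw [pow_succ]
  exact mul_le_mul_left (pow_le_pow_left' (ENNReal.le_tsum v) 2) _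

theorem AA_shift {p₁ : ℝ} (hp₁ : 0 < p₁) (g : F2) :
    ∃ C : ℝ≥0∞, C ≠ ⊤ ∧ ∀ p, p₁ ≤ p → p ≤ 1 → ∀ v, S.AA p v ≤ C * S.AA p (g * v) := by
  obtain ⟨n, hn⟩ := link_any (S := S) g
  have h0 : ENNReal.ofReal (p₁ ^ n) ≠ 0 := by simp [pow_pos hp₁ n]
  refine ⟨S.k * (ENNReal.ofReal (p₁ ^ n))⁻¹,
    ENNReal.mul_ne_top (ENNReal.natCast_ne_top _) (ENNReal.inv_ne_top.2 h0), fun p hp hp1 v => ?_⟩
  refine (Finset.sum_le_card_nsmul _ _ ((ENNReal.ofReal (p₁ ^ n))⁻¹ * S.AA p (g * v))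
    fun i _ => ?_).trans (le_of_eq ?_)
  swap
  · rw [Finset.card_univ, Fintype.card_fin, nsmul_eq_mul, mul_assoc]
  obtain ⟨y₀, hy₀, hy₀i, w, hw⟩ := hn (S.one i)
  rw [π_one_fib, one_mul] at hy₀
  let e : S.fib v → S.fib (g * v) := fun y => ⟨S.act y₀.1 y, by
    simp only [fib, Set.mem_ofPred_eq, π_act, show S.π (y : S.V) = v from y.2]
    rw [← hy₀]; rfl⟩
  refine (ENNReal.tsum_le_tsum
    (g := fun y => (ENNReal.ofReal (p₁ ^ n))⁻¹ * S.tt p (S.one i) (e y : S.V)) fun y => ?_).trans ?_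
  · rw [← tt_act p y₀.1 (S.one i) y, show S.act y₀.1 (S.one i) = y₀ by
      rw [show i = y₀.2 from hy₀i.symm]; exact act_one_fib y₀]
    refine inv_bound h0 ENNReal.ofReal_ne_top (le_trans
      (mul_le_mul_left (ENNReal.ofReal_le_ofReal ?_) _)
      (walk_mul_tauT (hp₁.le.trans hp) hp1 w fun e he => w.edges_subset_edgeSet he))
    exact (pow_le_pow_left₀ hp₁.le hp n).trans
      (pow_le_pow_of_le_one (hp₁.le.trans hp) hp1 hw)
  · rw [ENNReal.tsum_mul_left]
    refine mul_le_mul_right ((ENNReal.tsum_comp_le_tsum_of_injective (f := e)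
      (fun a b h => Subtype.ext ((S.act y₀.1).injective (Subtype.ext_iff.1 h)))
      (fun y => S.tt p (S.one i) (y : S.V))).trans ?_) _
    refine le_trans ?_ (Finset.single_le_sum
      (f := fun i => ∑' y : S.fib (g * v), S.tt p (S.one i) (y : S.V)) (fun _ _ => bot_le)
      (Finset.mem_univ i))
    exact le_rfl

/-- The sum over boundary vertices of a half space, seen from the fibre of the root. -/
theorem port_sum_le (hG : S.Geom R c L) {p₁ : ℝ} (hp₁ : 0 < p₁) (g : F2) :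
    ∃ C : ℝ≥0∞, C ≠ ⊤ ∧ ∀ p, p₁ ≤ p → p ≤ 1 → ∀ x : S.V, len (S.π x) < R →
      ∑' z : S.Port L g, S.tt p x (z : S.V) ≤ C * S.AA p 1 := by
  choose C hC hC' using fun u : F2 => AA_shift (S := S) hp₁ u⁻¹
  set B := (finite_ball (len g + R)).toFinset with hB
  set B' := (finite_ball (R + (len g + R))).toFinset with hB'
  refine ⟨B.card * ∑ u ∈ B', C u,
    ENNReal.mul_ne_top (ENNReal.natCast_ne_top _) (ENNReal.sum_ne_top.2 fun u _ => hC u),
    fun p hp hp1 x hx => ?_⟩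
  refine (tsum_le_fibres (S.tt p x) (S.Port L g) B fun z hz => ?_).trans ?_
  · simp only [hB, Set.Finite.mem_toFinset, Set.mem_ofPred_eq]
    have := len_mul_le g (g⁻¹ * S.π z)
    rw [mul_inv_cancel_left] at this
    have := port_len' hG hz
    omega
  refine (Finset.sum_le_card_nsmul _ _ ((∑ u ∈ B', C u) * S.AA p 1) fun v hv => ?_).trans
    (le_of_eq (by rw [nsmul_eq_mul, mul_assoc]))
  refine (tsum_fib_le_AA p x v).trans ?_
  have h := hC' ((S.π x)⁻¹ * v) p hp hp1 ((S.π x)⁻¹ * v)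
  rw [inv_mul_cancel] at h
  refine h.trans (mul_le_mul_left ?_ _)
  refine Finset.single_le_sum (f := C) (fun _ _ => bot_le) ?_
  simp only [hB, hB', Set.Finite.mem_toFinset, Set.mem_ofPred_eq] at hv ⊢
  have := len_mul_le (S.π x)⁻¹ v
  have := len_inv (S.π x)
  omega

theorem Mb_step (hG : S.Geom R c L) {p₁ : ℝ} (hp₁ : 0 < p₁) :
    ∃ C : ℝ≥0∞, C ≠ ⊤ ∧ ∀ p, p₁ ≤ p → p ≤ 1 → ∀ v c', Deep L v → c' ∈ kids v →
      S.Mb L p v ≤ C * S.Mb L p c' := by
  obtain ⟨i₀⟩ := S.exists_k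
  obtain ⟨C, hC, h⟩ := tau_near_le (S := S) hp₁ c
  refine ⟨C, hC, fun p hp hp1 v c' hv hc' => iSup_le fun z => ?_⟩
  refine le_trans (h p hp hp1 (S.EH L 1) z (S.fib v) (S.fib c') fun y hy => ?_)
    (mul_le_mul_right (le_iSup (fun z : S.Port L 1 => S.Mz L p c' (z : S.V)) z) _)
  obtain ⟨s, hs⟩ := mem_kids.1 hc'
  have hpre : Pre v c' := ⟨[s], hs.symm⟩
  obtain ⟨x, hx, hx', -⟩ := split_of_prefix hpre
  have hd : len ((S.π y)⁻¹ * c') ≤ 1 := by
    rw [show S.π y = v from hy, hx, inv_mul_cancel_left, len]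
    rw [hs] at hx'
    rw [← List.append_cancel_left hx']
    simp
  obtain ⟨y', hy', -, w, hw, hwe⟩ :=
    deep_step hG i₀ (x := y) (by rwa [show S.π y = v from hy]) hd (hv.of_pre hpre)
  exact ⟨y', hy', w, hw, hwe⟩

/-- Translation inside a half space. -/
theorem tau_EH_act (L : ℕ) (p : ℝ) (γ : S.Γ) (g : F2) (a b : S.V) :
    tau p (S.EH L (S.φ γ * g)) (S.act γ a) (S.act γ b) = tau p (S.EH L g) a b := by
  unfold tau
  rw [← act_EH, ← Set.image_singleton, tauT_map]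

theorem tsum_EH_le_Mb (p : ℝ) {g : F2} {z : S.V} (hz : z ∈ S.Port L g) (v : F2) :
    ∑' y : S.fib (g * v), tau p (S.EH L g) z (y : S.V) ≤ S.Mb L p v := by
  obtain ⟨γ, rfl⟩ := S.surj g
  rw [← mul_one (S.φ γ), ← act_Port] at hz
  obtain ⟨z', hz', rfl⟩ := hz
  refine le_trans ?_ (le_iSup (fun z : S.Port L 1 => S.Mz L p v (z : S.V)) ⟨z', hz'⟩)
  let e : S.fib (S.φ γ * v) → S.fib v := fun y => ⟨S.act γ⁻¹ y, by
    simp only [fib, Set.mem_ofPred_eq, π_act, map_inv,
      show S.π (y : S.V) = S.φ γ * v from y.2, inv_mul_cancel_left]⟩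
  refine le_trans (le_of_eq (tsum_congr fun y => ?_))
    (ENNReal.tsum_comp_le_tsum_of_injective (f := e)
      (fun a b h => Subtype.ext ((S.act γ⁻¹).injective (Subtype.ext_iff.1 h)))
      (fun y => tau p (S.EH L 1) z' (y : S.V)))
  rw [← tau_EH_act L p γ 1 z' (e y : S.V), mul_one]
  show _ = tau p _ _ (S.act γ (S.act γ⁻¹ y))
  rw [act_act_inv_fib]

/-- Reversal: from a fixed vertex above `v` to all boundary vertices. -/
theorem port_rev_le (hG : S.Geom R c L) :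
    ∃ C : ℝ≥0∞, C ≠ ⊤ ∧ ∀ p, 0 ≤ p → p ≤ 1 → ∀ x : S.V,
      ∑' z : S.Port L 1, tau p (S.EH L 1) x (z : S.V) ≤ C * S.Mb L p (S.π x) := by
  set F := (finite_ball R).toFinset ×ˢ (Finset.univ : Finset (Fin S.k)) with hF
  refine ⟨F.card, ENNReal.natCast_ne_top _, fun p hp0 hp1 x => ?_⟩
  let cls : F2 × Fin S.k → Set S.V := fun a => {z | z ∈ S.Port L 1 ∧ S.π z = a.1 ∧ z.2 = a.2}
  have hsub : S.Port L 1 ⊆ ⋃ a ∈ F, cls a := fun z hz => by
    refine Set.mem_biUnion (x := (S.π z, z.2)) ?_ ⟨hz, rfl, rfl⟩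
    simpa [hF] using (port_len hG hz).le
  refine ((ENNReal.tsum_mono_subtype (fun z => tau p (S.EH L 1) x z) hsub).trans
    (ENNReal.tsum_biUnion_le (fun z => tau p (S.EH L 1) x z) F cls)).trans ?_
  refine (Finset.sum_le_card_nsmul _ _ (S.Mb L p (S.π x)) fun a _ => ?_).trans
    (le_of_eq (nsmul_eq_mul _ _))
  by_cases hne : ∃ z, z ∈ cls a
  swap
  · have : IsEmpty (cls a) := ⟨fun z => hne ⟨z.1, z.2⟩⟩
    simp [tsum_empty]
  obtain ⟨z₀, hz₀, hπ₀, hi₀⟩ := hne
  refine le_trans ?_ (le_iSup (fun z : S.Port L 1 => S.Mz L p (S.π x) (z : S.V)) ⟨z₀, hz₀⟩)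
  have hφ : ∀ z : cls a, S.φ (z₀.1 * (z : S.V).1⁻¹) = 1 := fun z => by
    rw [map_mul, map_inv, show S.φ z₀.1 = a.1 from hπ₀, show S.φ (z : S.V).1 = a.1 from z.2.2.1,
      mul_inv_cancel]
  let e : cls a → S.fib (S.π x) := fun z => ⟨S.act (z₀.1 * (z : S.V).1⁻¹) x, by
    simp only [fib, Set.mem_ofPred_eq, π_act, hφ, one_mul]⟩
  refine le_trans (le_of_eq (tsum_congr fun z => ?_))
    (ENNReal.tsum_comp_le_tsum_of_injective (f := e) (fun z z' h => ?_)
      (fun y => tau p (S.EH L 1) z₀ (y : S.V)))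
  · show _ = tau p (S.EH L 1) z₀ (S.act (z₀.1 * (z : S.V).1⁻¹) x)
    have h := tau_EH_act L p (z₀.1 * (z : S.V).1⁻¹) 1 (z : S.V) x
    rw [hφ, mul_one, show S.act (z₀.1 * (z : S.V).1⁻¹) (z : S.V) = z₀ from
      Prod.ext (inv_mul_cancel_right z₀.1 (z : S.V).1) (z.2.2.2.trans hi₀.symm)] at h
    rw [h]
    exact tau_comm p _ x _
  · have := congrArg (fun y : S.fib (S.π x) => (y : S.V).1) h
    simp only [e, act, Equiv.prodCongr_apply, Prod.map_fst, Equiv.coe_mulLeft] at this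
    exact Subtype.ext (Prod.ext (inv_injective (mul_left_cancel (mul_right_cancel this)))
      (z.2.2.2.trans z'.2.2.2.symm))

theorem AA_le_Mb (hG : S.Geom R c L) {p₁ : ℝ} (hp₁ : 0 < p₁) :
    ∃ C : ℝ≥0∞, C ≠ ⊤ ∧ ∀ p, p₁ ≤ p → p ≤ 1 →
      (∀ v, InK v → S.AA p v ≤ C * S.AA p 1 * S.Mb L p (genA ^ L * v)) ∧
      (∀ v, ¬ InK v → S.AA p v ≤ C * S.AA p 1 * S.Mb L p (genA ^ L * genB * v)) := by
  have hL : 0 < L := lt_of_lt_of_le (Nat.succ_pos _) hG.big
  obtain ⟨Cp, hCp, hport⟩ := port_sum_le hG hp₁ genA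
  have key : ∀ p, p₁ ≤ p → p ≤ 1 → ∀ u, Deep L u →
      S.AA p (genA * u) ≤ S.k * Cp * S.AA p 1 * S.Mb L p u := fun p hp hp1 u hu => by
    refine (Finset.sum_le_card_nsmul _ _ (Cp * S.AA p 1 * S.Mb L p u) fun i _ => ?_).trans
      (le_of_eq (by rw [Finset.card_univ, Fintype.card_fin, nsmul_eq_mul]; ring))
    refine (ENNReal.tsum_le_tsum
      (g := fun y : S.fib (genA * u) => ∑' z : S.Port L genA,
        S.tt p (S.one i) (z : S.V) * tau p (S.EH L genA) (z : S.V) (y : S.V)) fun y => ?_).trans ?_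
    · refine tau_le_cut (hp₁.le.trans hp) hp1 _ _ _ fun ω hω hc => ?_
      obtain ⟨w, hw, hwω⟩ := exists_path hω hc
      have hy : S.π (y : S.V) = genA * u := y.2
      have hnot : ¬ S.InH L genA (S.one i) := by
        rintro ⟨z, w', -, h⟩
        have := h _ w'.start_mem_support
        rw [π_one_fib, mul_one] at this
        exact not_inK_genA_inv this
      rcases cut_port hG (g := genA) w hw (by rwa [hy, inv_mul_cancel_left]) with
        hall | ⟨z, hz, hzs, hdrop⟩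
      · have hne : S.one i ≠ (y : S.V) := fun e => by
          rw [← e, π_one_fib] at hy
          exact not_inK_genA_inv (eq_inv_of_mul_eq_one_right hy.symm ▸ hu.inK hL)
        obtain ⟨z, h, q, rfl⟩ := SimpleGraph.Walk.exists_eq_cons_of_ne hne w
        exact absurd ((hall _ (by rw [SimpleGraph.Walk.edges_cons]; exact List.mem_cons_self)).2
          _ (Sym2.mem_mk_left _ _)) hnot
      · refine ⟨z, hz, _, _, path_split hw hzs, ?_, ?_,
          within_walk (w.takeUntil z hzs) subset_rfl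
            (fun e he => SimpleGraph.Walk.edges_subset_edgeSet _ he),
          within_walk (w.dropUntil z hzs) subset_rfl hdrop⟩
        · exact fun e he => hwω (List.mem_toFinset.2
            (w.edges_takeUntil_subset_edges hzs (List.mem_toFinset.1 he)))
        · exact fun e he => hwω (List.mem_toFinset.2
            (w.edges_dropUntil_subset_edges hzs (List.mem_toFinset.1 he)))
    rw [ENNReal.tsum_comm]
    refine (ENNReal.tsum_le_tsum
      (g := fun z : S.Port L genA => S.tt p (S.one i) (z : S.V) * S.Mb L p u) fun z => ?_).trans ?_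
    · rw [ENNReal.tsum_mul_left]
      exact mul_le_mul_right (tsum_EH_le_Mb p z.2 u) _
    · rw [ENNReal.tsum_mul_right]
      refine mul_le_mul_left (hport p hp hp1 _ ?_) _
      rw [π_one_fib]
      simpa [len] using R_pos hG
  obtain ⟨C₁, hC₁, h₁⟩ := AA_shift (S := S) hp₁ (genA * genA ^ L)
  obtain ⟨C₂, hC₂, h₂⟩ := AA_shift (S := S) hp₁ (genA * (genA ^ L * genB))
  refine ⟨(C₁ + C₂) * (S.k * Cp), ENNReal.mul_ne_top (ENNReal.add_ne_top.2 ⟨hC₁, hC₂⟩)
    (ENNReal.mul_ne_top (ENNReal.natCast_ne_top _) hCp), fun p hp hp1 => ⟨fun v hv => ?_,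
    fun v hv => ?_⟩⟩
  · refine (h₁ p hp hp1 v).trans ?_
    rw [mul_assoc genA, mul_assoc _ _ (S.AA p 1), mul_assoc _ _ (S.Mb L p _)]
    exact mul_le_mul' le_self_add (key p hp hp1 _ ⟨_, ((toWord_pad L hL).1 hv).symm⟩)
  · refine (h₂ p hp hp1 v).trans ?_
    rw [mul_assoc genA, mul_assoc _ _ (S.AA p 1), mul_assoc _ _ (S.Mb L p _)]
    exact mul_le_mul' le_add_self (key p hp hp1 _ ⟨_, ((toWord_pad L hL).2 hv).symm⟩)

theorem AA_one_le (hG : S.Geom R c L) :
    ∃ N : ℕ, ∀ {p₁ : ℝ}, 0 < p₁ → ∃ C : ℝ≥0∞, C ≠ ⊤ ∧ ∀ p, p₁ ≤ p → p ≤ 1 → ∀ v, Deep L v →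
      S.AA p 1 ≤ C * (ENNReal.ofReal p)⁻¹ ^ (N * (len v + 1)) * S.Mb L p v +
        C * S.AA p 1 * S.Mb L p v ^ 2 := by
  have hL : 0 < L := lt_of_lt_of_le (Nat.succ_pos _) hG.big
  obtain ⟨c₀, hc₀⟩ := port_link hG
  obtain ⟨z₀, hz₀⟩ := exists_port hG
  refine ⟨c₀ + c + 1, fun {p₁} hp₁ => ?_⟩
  obtain ⟨Cp, hCp, hport⟩ := port_sum_le hG hp₁ 1
  obtain ⟨Cr, hCr, hrev⟩ := port_rev_le hG
  refine ⟨S.k * (1 + Cp * Cr), ENNReal.mul_ne_top (ENNReal.natCast_ne_top _)
    (ENNReal.add_ne_top.2 ⟨ENNReal.one_ne_top, ENNReal.mul_ne_top hCp hCr⟩),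
    fun p hp hp1 v hv => ?_⟩
  have hp0 : 0 < p := hp₁.trans_le hp
  set N := (c₀ + c + 1) * (len v + 1) with hN
  set K := (ENNReal.ofReal p)⁻¹ ^ N with hK
  refine (Finset.sum_le_card_nsmul _ _ (K * S.Mb L p v +
    Cp * Cr * S.AA p 1 * S.Mb L p v ^ 2) fun i _ => ?_).trans ?_
  swap
  · rw [Finset.card_univ, Fintype.card_fin, nsmul_eq_mul, mul_add]
    refine add_le_add ?_ ?_
    · rw [← mul_assoc]
      exact mul_le_mul_left (mul_le_mul_left
        (le_mul_of_one_le_right bot_le le_self_add) _) _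
    · rw [← mul_assoc, ← mul_assoc]
      exact mul_le_mul_left (mul_le_mul_left (mul_le_mul_right le_add_self _) _) _
  obtain ⟨y₀, hy₀, -, w₀, hw₀, hw₀e⟩ := hc₀ z₀ hz₀ i
  have hLv : L ≤ len v := hv.le_len
  have hlen : len (S.π y₀) = L := by rw [hy₀, len, toWord_genA_pow, List.length_replicate]
  obtain ⟨x, hx, hxi, w₁, hw₁, hw₁e⟩ := deep_link hG i (x := y₀)
    (by rw [hy₀]; exact genA_pow_deep L) hv
    (Or.inl (by rw [hy₀, Pre, toWord_genA_pow]; exact hv))
  have hwlen : (w₀.append w₁).reverse.length ≤ N := by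
    rw [SimpleGraph.Walk.length_reverse, SimpleGraph.Walk.length_append]
    rw [hlen] at hw₁
    have e : c * (1 + (len v - L) + (L - len v)) ≤ c * (len v + 1) :=
      Nat.mul_le_mul_left c (by omega)
    have e' : c₀ ≤ c₀ * (len v + 1) := Nat.le_mul_of_pos_right c₀ (Nat.succ_pos _)
    calc _ ≤ c₀ * (len v + 1) + c * (len v + 1) + 0 := by omega
      _ ≤ N := by rw [hN, add_mul, add_mul]; exact Nat.add_le_add_left (Nat.zero_le _) _
  have hfirst : ∑' y : S.fib v, tau p (S.EH L 1) x (y : S.V) ≤ K * S.Mb L p v := by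
    refine le_trans ?_ (mul_le_mul_right
      (le_iSup (fun z : S.Port L 1 => S.Mz L p v (z : S.V)) ⟨z₀, hz₀⟩) _)
    rw [Mz, ← ENNReal.tsum_mul_left]
    refine ENNReal.tsum_le_tsum fun y => ?_
    rw [hK, ← ENNReal.inv_pow]
    refine inv_bound (by simp [hp0]) (by simp) (le_trans (mul_le_mul_left ?_ _)
      (walk_mul_tauT hp0.le hp1 (w₀.append w₁) (fun e he => ?_)))
    · rw [← ENNReal.ofReal_pow hp0.le]
      exact ENNReal.ofReal_le_ofReal (pow_le_pow_of_le_one hp0.le hp1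
        (by rwa [SimpleGraph.Walk.length_reverse] at hwlen))
    · rw [SimpleGraph.Walk.edges_append, List.mem_append] at he
      exact he.elim (hw₀e e) (hw₁e e)
  refine (le_trans ?_ (b := ∑' y : S.fib v, (tau p (S.EH L 1) x (y : S.V) +
    ∑' z₁ : S.Port L 1, ∑' z₂ : S.Port L 1, tau p (S.EH L 1) x (z₁ : S.V) *
      S.tt p (z₁ : S.V) (z₂ : S.V) * tau p (S.EH L 1) (z₂ : S.V) (y : S.V))) ?_)
  · let e : S.fib 1 → S.fib v := fun y => ⟨S.act x.1 y, by
      simp only [fib, Set.mem_ofPred_eq, π_act, show S.π (y : S.V) = 1 from y.2, mul_one]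
      exact hx⟩
    refine le_trans ?_ (ENNReal.tsum_le_tsum fun y => ?_)
      (b := ∑' y : S.fib v, S.tt p x (y : S.V))
    · refine le_trans (le_of_eq (tsum_congr fun y => ?_))
        (ENNReal.tsum_comp_le_tsum_of_injective (f := e)
          (fun a b h => Subtype.ext ((S.act x.1).injective (Subtype.ext_iff.1 h)))
          (fun y => S.tt p x (y : S.V)))
      show S.tt p (S.one i) y = S.tt p x (S.act x.1 y)
      conv_rhs => rw [show S.tt p x = S.tt p (S.act x.1 (S.one i)) by rw [← hxi, act_one_fib]]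
      exact (tt_act p x.1 _ _).symm
    refine tau_le_cut₂ hp0.le hp1 _ _ _ _ fun ω hω hc => ?_
    obtain ⟨w, hw, hwω⟩ := exists_path hω hc
    have hy : Deep L ((1 : F2)⁻¹ * S.π (y : S.V)) := by
      rw [inv_one, one_mul, show S.π (y : S.V) = v from y.2]; exact hv
    rcases cut_port hG (g := 1) w hw hy with hall | ⟨z₂, hz₂, hs₂, hdrop⟩
    · exact Or.inl (within_walk w hwω hall)
    have hw' : (w.takeUntil z₂ hs₂).reverse.IsPath := (hw.takeUntil hs₂).reverse
    have hxd : Deep L ((1 : F2)⁻¹ * S.π x) := by rwa [inv_one, one_mul, hx]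
    rcases cut_port hG (g := 1) (w.takeUntil z₂ hs₂).reverse hw' hxd with
      hall | ⟨z₁, hz₁, hs₁, hdrop₁⟩
    · refine Or.inl (within_walk w hwω fun e he => ?_)
      rw [← w.take_spec hs₂, SimpleGraph.Walk.edges_append, List.mem_append] at he
      rcases he with he | he
      · exact hall e (by simpa using he)
      · exact hdrop e he
    refine Or.inr ⟨z₁, hz₁, z₂, hz₂, (w.takeUntil z₂ hs₂).edges.toFinset, _, path_split hw hs₂,
      fun e he => hwω (List.mem_toFinset.2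
        (w.edges_takeUntil_subset_edges hs₂ (List.mem_toFinset.1 he))),
      fun e he => hwω (List.mem_toFinset.2
        (w.edges_dropUntil_subset_edges hs₂ (List.mem_toFinset.1 he))), ?_,
      within_walk _ subset_rfl hdrop⟩
    refine ⟨_, _, (path_split hw' hs₁).symm, ?_, ?_,
      within_walk (((w.takeUntil z₂ hs₂).reverse).dropUntil z₁ hs₁).reverse (by simp)
        (fun e he => hdrop₁ e (by simpa using he)),
      within_walk (((w.takeUntil z₂ hs₂).reverse).takeUntil z₁ hs₁).reverse (by simp)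
        (fun e he => SimpleGraph.Walk.edges_subset_edgeSet _ he)⟩
    · intro e he
      have := SimpleGraph.Walk.edges_dropUntil_subset_edges _ hs₁ (List.mem_toFinset.1 he)
      simpa using this
    · intro e he
      have := SimpleGraph.Walk.edges_takeUntil_subset_edges _ hs₁ (List.mem_toFinset.1 he)
      simpa using this
  rw [ENNReal.tsum_add]
  refine add_le_add hfirst ?_
  rw [ENNReal.tsum_comm]
  refine (ENNReal.tsum_le_tsum (g := fun z₁ : S.Port L 1 =>
    tau p (S.EH L 1) x (z₁ : S.V) * (Cp * S.AA p 1) * S.Mb L p v) fun z₁ => ?_).trans ?_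
  · rw [ENNReal.tsum_comm]
    refine (ENNReal.tsum_le_tsum (g := fun z₂ : S.Port L 1 =>
      tau p (S.EH L 1) x (z₁ : S.V) * S.tt p (z₁ : S.V) (z₂ : S.V) * S.Mb L p v) fun z₂ => ?_).trans ?_
    · rw [ENNReal.tsum_mul_left]
      exact mul_le_mul_right (le_iSup (fun z : S.Port L 1 => S.Mz L p v (z : S.V)) z₂) _
    · rw [ENNReal.tsum_mul_right, ENNReal.tsum_mul_left]
      exact mul_le_mul_left (mul_le_mul_right (hport p hp hp1 _ (port_len hG z₁.2)) _) _
  · rw [ENNReal.tsum_mul_right, ENNReal.tsum_mul_right]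
    refine (mul_le_mul_left (mul_le_mul_left (hx ▸ hrev p hp0.le hp1 x) _) _).trans (le_of_eq ?_)
    ring

theorem AA_submul (hG : S.Geom R c L) {p₁ : ℝ} (hp₁ : 0 < p₁) :
    ∃ C : ℝ≥0∞, C ≠ ⊤ ∧ ∀ p, p₁ ≤ p → p ≤ 1 → ∀ u v : F2,
      len (u * v) = len u + len v → S.AA p (u * v) ≤ C * S.AA p u * S.AA p v := by
  choose Cs hCs hCs' using fun h : F2 => AA_shift (S := S) hp₁ h
  choose n hn using fun h : F2 => link_any (S := S) h
  set B := (finite_ball R).toFinset with hB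
  obtain ⟨Cm, hCm, hmove⟩ := tau_near_le (S := S) hp₁ (B.sup fun h => n h⁻¹)
  refine ⟨Cm * ∑ h ∈ B, Cs h, ENNReal.mul_ne_top hCm (ENNReal.sum_ne_top.2 fun h _ => hCs h),
    fun p hp hp1 u v huv => ?_⟩
  have hp0 : 0 ≤ p := hp₁.le.trans hp
  set Z : Set S.V := {z | len (u⁻¹ * S.π z) ≤ R} with hZ
  have hone : ∀ i : Fin S.k, ∀ y : S.fib (u * v), S.tt p (S.one i) (y : S.V) ≤
      ∑' z : Z, S.tt p (S.one i) (z : S.V) * S.tt p (z : S.V) (y : S.V) := fun i y => by
    refine tau_le_cut hp0 hp1 _ _ Z fun ω hω hc => ?_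
    obtain ⟨w, hw, hwω⟩ := exists_path hω hc
    obtain ⟨z, hzs, hz⟩ : ∃ z ∈ w.support, len (u⁻¹ * S.π z) ≤ R := by
      by_cases hu : u = 1
      · exact ⟨_, w.start_mem_support, by simp [hu, π_one_fib, len]⟩
      have hx : S.one i ∉ {z : S.V | Pre u (S.π z)} := by
        simp [Pre, π_one_fib, hu]
      have hy : (y : S.V) ∈ {z : S.V | Pre u (S.π z)} := by
        refine ⟨v.toWord, ?_⟩
        rw [show S.π (y : S.V) = u * v from y.2, toWord_mul_of_len huv]
      obtain ⟨d, hd, hd₁, hd₂⟩ := w.reverse.exists_boundary_dart _ hy hx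
      refine ⟨d.fst, ?_, (len_enter hd₂ hd₁).trans (hG.lip _ _ d.adj.symm)⟩
      simpa using w.reverse.dart_fst_mem_support_of_mem_darts hd
    exact ⟨z, hz, _, _, path_split hw hzs,
      fun e he => hwω (List.mem_toFinset.2
        (w.edges_takeUntil_subset_edges hzs (List.mem_toFinset.1 he))),
      fun e he => hwω (List.mem_toFinset.2
        (w.edges_dropUntil_subset_edges hzs (List.mem_toFinset.1 he))),
      within_walk (w.takeUntil z hzs) subset_rfl
        (fun e he => SimpleGraph.Walk.edges_subset_edgeSet _ he),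
      within_walk (w.dropUntil z hzs) subset_rfl
        (fun e he => SimpleGraph.Walk.edges_subset_edgeSet _ he)⟩
  have hrest : ∀ z : Z, ∑' y : S.fib (u * v), S.tt p (z : S.V) (y : S.V) ≤
      (∑ h ∈ B, Cs h) * S.AA p v := fun z => by
    have hh : u⁻¹ * S.π (z : S.V) ∈ B := by
      simpa [hB] using show len (u⁻¹ * S.π (z : S.V)) ≤ R from z.2
    refine (tsum_fib_le_AA p _ _).trans ((hCs' (u⁻¹ * S.π (z : S.V)) p hp hp1 _).trans ?_)
    refine mul_le_mul' (Finset.single_le_sum (f := Cs) (fun _ _ => bot_le) hh) (le_of_eq ?_)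
    rw [show u⁻¹ * S.π (z : S.V) * ((S.π (z : S.V))⁻¹ * (u * v)) = v by group]
  calc S.AA p (u * v)
      ≤ ∑ i : Fin S.k, (Cm * ∑' y : S.fib u, S.tt p (S.one i) (y : S.V)) *
          ((∑ h ∈ B, Cs h) * S.AA p v) := Finset.sum_le_sum fun i _ => by
        refine ((ENNReal.tsum_le_tsum (hone i)).trans (le_of_eq ENNReal.tsum_comm)).trans ?_
        refine (ENNReal.tsum_le_tsum (g := fun z : Z => S.tt p (S.one i) (z : S.V) *
          ((∑ h ∈ B, Cs h) * S.AA p v)) fun z => ?_).trans ?_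
        · rw [ENNReal.tsum_mul_left]
          exact mul_le_mul_right (hrest z) _
        · rw [ENNReal.tsum_mul_right]
          refine mul_le_mul_left (hmove p hp hp1 _ _ Z (S.fib u) fun z hz => ?_) _
          obtain ⟨y', hy', -, w, hw⟩ := hn (u⁻¹ * S.π z)⁻¹ z
          refine ⟨y', ?_, w, hw.trans (Finset.le_sup (f := fun h => n h⁻¹)
            (by simpa [hB] using show len (u⁻¹ * S.π z) ≤ R from hz)),
            fun e he => w.edges_subset_edgeSet he⟩
          show S.π y' = u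
          rw [hy']
          group
    _ = _ := by
      rw [← Finset.sum_mul, ← Finset.mul_sum]
      unfold AA
      ring

end Setting

end Vale.Agent.P165.Tree
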