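import Vale.Agent.P165.Tree.Bootstrap
import Vale.Agent.P165.Tree.Criterion
import Vale.Agent.P165.Tree.ExitGeOne
import Vale.Agent.P165.Tree.Bridge

/-!
# `p_c < p_u` for free cocompact actions of groups onto the free group (P165, tree quotient)
-/

namespace Vale.Agent.P165.Tree

open scoped ENNReal

universe u v

namespace Setting

variable (S : Setting.{u})

/-- Translation as an automorphism. -/
def actIso (γ : S.Γ) : S.G ≃g S.G where
  toEquiv := S.act γ
  map_rel_iff' := adj_act γ

theorem orbit_one (x : S.V) :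
    ∃ f : S.G ≃g S.G, ∃ s ∈ (Finset.univ.image S.one : Finset S.V), f s = x :=
  ⟨S.actIso x.1, S.one x.2, Finset.mem_image_of_mem _ (Finset.mem_univ _),
    Prod.ext (mul_one x.1) rfl⟩

/-- The theorem in the normalised setting. -/
theorem main (S : Setting.{u}) : pCritical S.G < pUniqueness S.G := by
  classical
  obtain ⟨R, c, L, hG⟩ := exists_geom S
  have hInf : Infinite S.V := infinite S
  obtain ⟨p', hlt, hp'1, hsmall⟩ := exists_beyond hG (pT_pos S) (pT_le_one S)
    fun q hq => bounded_at_pT hG hq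
  have hu : p' ≤ pUniqueness S.G :=
    le_pUniqueness S.conn (Finset.univ.image S.one) S.orbit_one hp'1 hsmall
  have h0 := pT_pos S
  obtain ⟨x, hx⟩ := exit_ge_one (S := S) (p := (S.pT + p') / 2) (by linarith) (by linarith)
  have hc : pCritical S.G ≤ (S.pT + p') / 2 :=
    pCritical_le (p := ⟨(S.pT + p') / 2, by linarith, by linarith⟩) S.conn
      (show (0 : ℝ) < (S.pT + p') / 2 by linarith) x hx
  linarith

end Setting

/-- A group with a surjection onto the free group of rank two acts freely, by automorphisms and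
with finitely many orbits of vertices. -/
theorem main_action {Γ : Type u} [Group Γ] {V : Type v} [MulAction Γ V] (G : SimpleGraph V)
    (hconn : G.Connected) (hfin : ∀ x, (G.neighborSet x).Finite)
    (hadj : ∀ (γ : Γ) (x y : V), G.Adj (γ • x) (γ • y) ↔ G.Adj x y)
    (hfree : ∀ (γ : Γ) (x : V), γ • x = x → γ = 1)
    (horb : ∃ T : Finset V, ∀ x : V, ∃ γ : Γ, ∃ t ∈ T, γ • t = x)
    (φ : Γ →* FreeGroup (Fin 2)) (hφ : Function.Surjective φ) :
    pCritical G < pUniqueness G := by
  classical
  obtain ⟨T, hT⟩ := horb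
  let mk : V → MulAction.orbitRel.Quotient Γ V := Quotient.mk''
  have hmk : ∀ (γ : Γ) (x : V), mk (γ • x) = mk x := fun γ x =>
    Quotient.sound' (MulAction.orbitRel_apply.2 (MulAction.mem_orbit x γ))
  have : Finite (MulAction.orbitRel.Quotient Γ V) := by
    refine Finite.of_surjective (fun t : T => mk t) fun q => ?_
    obtain ⟨γ, t, ht, h⟩ := hT q.out
    refine ⟨⟨t, ht⟩, ?_⟩
    show mk t = q
    rw [← hmk γ t, h]
    exact Quotient.out_eq' q
  have : Fintype (MulAction.orbitRel.Quotient Γ V) := Fintype.ofFinite _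
  let e := (Fintype.equivFin (MulAction.orbitRel.Quotient Γ V)).symm
  let r : Fin _ → V := fun i => (e i).out
  have hr : ∀ i, mk (r i) = e i := fun i => Quotient.out_eq' _
  let F : Γ × Fin (Fintype.card (MulAction.orbitRel.Quotient Γ V)) → V := fun x => x.1 • r x.2
  have hF : Function.Bijective F := by
    refine ⟨fun x y h => ?_, fun v => ?_⟩
    · change x.1 • r x.2 = y.1 • r y.2 at h
      have h2 : x.2 = y.2 := e.injective (by
        rw [← hr, ← hr, ← hmk x.1 (r x.2), ← hmk y.1 (r y.2), h])
      rw [← h2] at h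
      have h1 : (y.1⁻¹ * x.1) • r x.2 = r x.2 := by rw [mul_smul, h, inv_smul_smul]
      exact Prod.ext (inv_mul_eq_one.1 (hfree _ _ h1)).symm h2
    · have h : mk (r (e.symm (mk v))) = mk v := by rw [hr, e.apply_symm_apply]
      obtain ⟨γ, hγ⟩ := MulAction.orbitRel_apply.1 (Quotient.eq''.1 h.symm)
      exact ⟨(γ, e.symm (mk v)), hγ⟩
  let Φ := Equiv.ofBijective F hF
  let ι : G.comap Φ ≃g G := SimpleGraph.Iso.comap Φ G
  let S : Setting.{u} :=
    { Γ := Γ
      k := Fintype.card (MulAction.orbitRel.Quotient Γ V)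
      G := G.comap Φ
      nbrFin := fun x => ((hfin (Φ x)).preimage Φ.injective.injOn).subset fun y hy => hy
      conn := ι.connected_iff.2 hconn
      inv := fun γ a b i j => by
        show G.Adj ((γ * a) • r i) ((γ * b) • r j) ↔ G.Adj (a • r i) (b • r j)
        rw [mul_smul, mul_smul, hadj]
      φ := φ
      surj := hφ }
  obtain ⟨h1, h2⟩ := threshold_iso ι
  rw [← h1, ← h2]
  exact Setting.main S

/-- Cayley graphs, for every finite generating set, of groups with a finite index subgroup
that maps onto the free group of rank two. -/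
theorem main_cayley {Γ : Type u} [Group Γ] (s : Finset Γ)
    (hs : Subgroup.closure (s : Set Γ) = ⊤) (H : Subgroup Γ) [H.FiniteIndex]
    (φ : H →* FreeGroup (Fin 2)) (hφ : Function.Surjective φ) :
    pCritical (SimpleGraph.mulCayley (s : Set Γ)) <
      pUniqueness (SimpleGraph.mulCayley (s : Set Γ)) := by
  classical
  set G := SimpleGraph.mulCayley (s : Set Γ) with hG
  have hstep : ∀ g ∈ s, ∀ a : Γ, G.Reachable a (a * g) := fun g hg a => by
    by_cases h : a = a * g
    · rw [← h]
    · exact SimpleGraph.Adj.reachable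
        ((SimpleGraph.mulCayley_adj' _ _ _).2 ⟨h, g, hg, Or.inl rfl⟩)
  have hconn : G.Connected := by
    refine ⟨fun a b => ?_⟩
    have key : ∀ g : Γ, ∀ a, G.Reachable a (a * g) := by
      intro g
      have hg : g ∈ Subgroup.closure (s : Set Γ) := hs ▸ Subgroup.mem_top g
      induction hg using Subgroup.closure_induction with
      | mem g hg => exact hstep g hg
      | one => intro a; rw [mul_one]
      | mul g h _ _ ihg ihh => intro a; rw [← mul_assoc]; exact (ihg a).trans (ihh _)
      | inv g _ ih => intro a; simpa using (ih (a * g⁻¹)).symm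
    simpa using key (a⁻¹ * b) a
  have hfin : ∀ x, (G.neighborSet x).Finite := fun x => by
    refine (s.finite_toSet.image (x * ·) |>.union (s.finite_toSet.image (x * ·⁻¹))).subset ?_
    intro y hy
    obtain ⟨-, g, hg, h | h⟩ := (SimpleGraph.mulCayley_adj' _ _ _).1 hy
    · exact Or.inl ⟨g, hg, h⟩
    · exact Or.inr ⟨g, hg, by simp [h]⟩
  refine main_action (Γ := H) G hconn hfin ?_ ?_ ?_ φ hφ
  · intro γ x y
    simp only [hG, SimpleGraph.mulCayley_adj', Subgroup.smul_def, smul_eq_mul, mul_assoc, ne_eq,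
      mul_right_inj]
  · intro γ x h
    rw [Subgroup.smul_def, smul_eq_mul, mul_eq_right] at h
    exact Subtype.ext h
  · have : Fintype (Γ ⧸ H) := Fintype.ofFinite _
    refine ⟨Finset.univ.image fun q : Γ ⧸ H => q.out⁻¹, fun x => ?_⟩
    obtain ⟨h, hh⟩ := QuotientGroup.mk_out_eq_mul H x⁻¹
    refine ⟨h, _, Finset.mem_image_of_mem _ (Finset.mem_univ ((x⁻¹ : Γ) : Γ ⧸ H)), ?_⟩
    rw [Subgroup.smul_def, smul_eq_mul, hh]
    group

end Vale.Agent.P165.Tree
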