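import Vale.Agent.P165.Tree.Pressure

/-!
# Stopping lines (P165, tree quotient)
-/

namespace Vale.Agent.P165.Tree

open scoped ENNReal

universe u

/-- Concatenations from an antichain are ordered only inside one first block. -/
theorem block_eq {L : ℕ} (hL : 0 < L) {W : Finset F2} (hW : Setting.Anti L W) {u u' : F2}
    (hu : u ∈ W) (hu' : u' ∈ W) {w w' : F2} (hw : InW L w ∨ w = 1) (hw' : InW L w' ∨ w' = 1)
    (h : Pre (u * w) (u' * w')) : u = u' ∧ Pre w w' := by
  have word : ∀ {u w : F2}, InW L u → (InW L w ∨ w = 1) →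
      (u * w).toWord = u.toWord ++ w.toWord := by
    intro u w hu hw
    rcases hw with hw | rfl
    · exact (InW.mul hL hu hw).2.2
    · simp
  rw [Pre, word (hW.1 u hu) hw, word (hW.1 u' hu') hw'] at h
  have h1 : u.toWord <+: u'.toWord ++ w'.toWord := List.IsPrefix.trans (List.prefix_append _ _) h
  have h2 : u'.toWord <+: u'.toWord ++ w'.toWord := List.prefix_append _ _
  have huu : u = u' := by
    by_contra hne
    rcases List.prefix_or_prefix_of_prefix h1 h2 with h3 | h3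
    · exact hW.2 u hu u' hu' hne h3
    · exact hW.2 u' hu' u hu (Ne.symm hne) h3
  subst huu
  exact ⟨rfl, (List.prefix_append_right_inj _).1 h⟩

namespace Setting

variable {S : Setting.{u}} {R c L : ℕ}

/-- Stopping lines at every threshold, from multiplicativity alone. -/
theorem line_aux (hL : 0 < L) {W0 : Finset F2} (hW0 : Anti L W0) {Q : F2 → ℝ≥0∞} {q : F2 → ℝ}
    (hQ : ∀ u v, InW L u → InW L v → Q u * Q v ≤ Q (u * v))
    (hq : ∀ u ∈ W0, ENNReal.ofReal (q u) = Q u) {lo θ a : ℝ} (hlo : 0 < lo) (hθ : θ ≤ 1)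
    (hql : ∀ u ∈ W0, lo ≤ q u) (hqh : ∀ u ∈ W0, q u ≤ θ) (ha : 0 ≤ a)
    (hbig : 1 ≤ ∑ u ∈ W0, q u ^ a) :
    ∀ (k : ℕ) (t : ℝ), 0 < t → t ≤ 1 → θ ^ k ≤ t → ∃ W : Finset F2, Anti L W ∧
      1 ≤ (W.card : ℝ) * t ^ a ∧
      ∀ u ∈ W, ∃ η : ℝ, lo * t ≤ η ∧ η ≤ t ∧ ENNReal.ofReal η ≤ Q u := by
  classical
  intro k
  induction k using Nat.strong_induction_on with
  | _ k ih =>
    intro t ht ht1 hk
    -- the family below one block
    have hsub : ∀ u ∈ W0, ∃ V : Finset F2, (∀ w ∈ V, InW L w ∨ w = 1) ∧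
        (∀ w ∈ V, ∀ w' ∈ V, w ≠ w' → ¬ Pre w w') ∧ q u ^ a ≤ (V.card : ℝ) * t ^ a ∧
        ∀ w ∈ V, InW L (u * w) ∧
          ∃ η : ℝ, lo * t ≤ η ∧ η ≤ t ∧ ENNReal.ofReal η ≤ Q (u * w) := by
      intro u hu
      have hu0 : 0 < q u := lt_of_lt_of_le hlo (hql u hu)
      rcases le_or_gt (q u) t with hle | hgt
      · refine ⟨{1}, ?_, ?_, ?_, ?_⟩
        · simp
        · intro w hw w' hw' hne
          simp only [Finset.mem_singleton] at hw hw'
          exact absurd (hw.trans hw'.symm) hne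
        · simpa using Real.rpow_le_rpow hu0.le hle ha
        · intro w hw
          simp only [Finset.mem_singleton] at hw
          subst hw
          rw [mul_one]
          refine ⟨hW0.1 u hu, q u, ?_, hle, (hq u hu).le⟩
          exact (mul_le_of_le_one_right hlo.le ht1).trans (hql u hu)
      · obtain ⟨j, rfl⟩ : ∃ j, k = j + 1 := by
          refine ⟨k - 1, ?_⟩
          rcases Nat.eq_zero_or_pos k with rfl | hk0
          · rw [pow_zero] at hk
            linarith [hqh u hu]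
          · omega
        have ht' : 0 < t / q u := div_pos ht hu0
        have ht'1 : t / q u ≤ 1 := (div_le_one hu0).2 hgt.le
        have hj : θ ^ j ≤ t / q u := by
          rw [le_div_iff₀ hu0]
          calc θ ^ j * q u ≤ θ ^ j * θ :=
                mul_le_mul_of_nonneg_left (hqh u hu) (pow_nonneg (hu0.le.trans (hqh u hu)) j)
            _ = θ ^ (j + 1) := (pow_succ θ j).symm
            _ ≤ t := hk
        obtain ⟨V, hV, hcard, hη⟩ := ih j (Nat.lt_succ_self j) (t / q u) ht' ht'1 hj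
        refine ⟨V, fun w hw => Or.inl (hV.1 w hw), hV.2, ?_, fun w hw => ?_⟩
        · rw [Real.div_rpow ht.le hu0.le, ← mul_div_assoc,
            le_div_iff₀ (Real.rpow_pos_of_pos hu0 a), one_mul] at hcard
          exact hcard
        · refine ⟨(InW.mul hL (hW0.1 u hu) (hV.1 w hw)).1, ?_⟩
          obtain ⟨η, h1, h2, h3⟩ := hη w hw
          refine ⟨q u * η, ?_, ?_, ?_⟩
          · calc lo * t = q u * (lo * (t / q u)) := by field_simp
              _ ≤ q u * η := mul_le_mul_of_nonneg_left h1 hu0.le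
          · calc q u * η ≤ q u * (t / q u) := mul_le_mul_of_nonneg_left h2 hu0.le
              _ = t := by field_simp
          · rw [ENNReal.ofReal_mul hu0.le, hq u hu]
            exact (mul_le_mul' le_rfl h3).trans (hQ u w (hW0.1 u hu) (hV.1 w hw))
    choose! V hVi hVa hVc hVη using hsub
    refine ⟨W0.biUnion fun u => (V u).image fun w => u * w, ⟨?_, ?_⟩, ?_, ?_⟩
    · intro x hx
      simp only [Finset.mem_biUnion, Finset.mem_image] at hx
      obtain ⟨u, hu, w, hw, rfl⟩ := hx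
      exact (hVη u hu w hw).1
    · intro x hx y hy hne hp
      simp only [Finset.mem_biUnion, Finset.mem_image] at hx hy
      obtain ⟨u, hu, w, hw, rfl⟩ := hx
      obtain ⟨u', hu', w', hw', rfl⟩ := hy
      obtain ⟨rfl, hp'⟩ := block_eq hL hW0 hu hu' (hVi u hu w hw) (hVi u' hu' w' hw') hp
      exact hVa u hu w hw w' hw' (fun e => hne (by rw [e])) hp'
    · rw [Finset.card_biUnion, Nat.cast_sum, Finset.sum_mul]
      · refine hbig.trans (Finset.sum_le_sum fun u hu => ?_)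
        rw [Finset.card_image_of_injective _ (mul_right_injective u)]
        exact hVc u hu
      · intro u hu u' hu' hne
        simp only [Function.onFun, Finset.disjoint_left, Finset.mem_image]
        rintro x ⟨w, hw, rfl⟩ ⟨w', hw', he⟩
        exact hne (block_eq hL hW0 hu hu' (hVi u hu w hw) (hVi u' hu' w' hw')
          (by rw [he]; exact Pre.refl _)).1
    · intro x hx
      simp only [Finset.mem_biUnion, Finset.mem_image] at hx
      obtain ⟨u, hu, w, hw, rfl⟩ := hx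
      exact (hVη u hu w hw).2

/-- Stopping lines in the code of a witness. -/
theorem exists_line (hG : S.Geom R c L) {ε : ℝ} (hε : 0 < ε) (hε1 : ε < 1)
    (Wt : S.Witness L ε) :
    ∃ c₁ : ℝ, 0 < c₁ ∧ ∀ n : ℕ, 0 < n → ∃ W : Finset F2, Anti L W ∧
      (n : ℝ) ^ ((1 - ε) * Wt.s) ≤ W.card ∧
      ∀ u ∈ W, ∃ η : ℝ, c₁ ≤ η * n ∧ η * n ≤ 1 ∧ ENNReal.ofReal η ≤ S.qlo L Wt.p₀ u := by
  have hL : 0 < L := by have := hG.big; omega
  have hp₀ : Wt.p₀ < 1 := Wt.p₀_lt.trans_le S.pT_le_one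
  obtain ⟨θ, hθ, hqθ⟩ := qlo_lt_one hG Wt.p₀_pos.le hp₀
  set a := (1 - ε) * Wt.s with ha
  have ha0 : 0 ≤ a := mul_nonneg (by linarith) Wt.s_pos.le
  set q : F2 → ℝ := fun u => (S.qlo L Wt.p₀ u).toReal with hq
  have htop : ∀ u ∈ Wt.W, S.qlo L Wt.p₀ u ≠ ⊤ := fun u hu =>
    ((hqθ u (Wt.anti.1 u hu)).trans_lt (hθ.trans ENNReal.one_lt_top)).ne
  have hpos : ∀ u ∈ Wt.W, 0 < q u := fun u hu => ENNReal.toReal_pos (Wt.pos u hu).ne' (htop u hu)
  have hne : Wt.W.Nonempty := by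
    rw [Finset.nonempty_iff_ne_empty]
    intro h
    have := Wt.big
    simp [h] at this
  obtain ⟨u₀, hu₀, hmin⟩ := Finset.exists_min_image Wt.W q hne
  have hθ' : θ.toReal < 1 := by
    have := ENNReal.toReal_strict_mono ENNReal.one_ne_top hθ
    simpa using this
  have hbig : 1 ≤ ∑ u ∈ Wt.W, q u ^ a := by
    have h := Wt.big
    rw [show (∑ u ∈ Wt.W, S.qlo L Wt.p₀ u ^ ((1 - ε) * Wt.s))
        = ENNReal.ofReal (∑ u ∈ Wt.W, q u ^ a) by
      rw [ENNReal.ofReal_sum_of_nonneg fun u hu => Real.rpow_nonneg ENNReal.toReal_nonneg _]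
      refine Finset.sum_congr rfl fun u hu => ?_
      rw [← ENNReal.ofReal_rpow_of_pos (hpos u hu), hq, ENNReal.ofReal_toReal (htop u hu)]] at h
    exact (ENNReal.one_lt_ofReal.1 h).le
  refine ⟨q u₀, hpos u₀ hu₀, fun n hn => ?_⟩
  have hn' : (0 : ℝ) < n := by exact_mod_cast hn
  have ht1 : 1 / (n : ℝ) ≤ 1 := by
    rw [div_le_one hn']; exact_mod_cast hn
  obtain ⟨k, hk⟩ := exists_pow_lt_of_lt_one (one_div_pos.2 hn') hθ'
  obtain ⟨W, hW, hcard, hη⟩ := line_aux hL Wt.anti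
    (Q := S.qlo L Wt.p₀) (q := q) (lo := q u₀) (θ := θ.toReal) (a := a)
    (fun u v hu hv => qlo_mul hG Wt.p₀_pos.le hp₀.le hu hv)
    (fun u hu => ENNReal.ofReal_toReal (htop u hu)) (hpos u₀ hu₀) hθ'.le
    (fun u hu => hmin u hu)
    (fun u hu => ENNReal.toReal_mono (hθ.trans ENNReal.one_lt_top).ne (hqθ u (Wt.anti.1 u hu)))
    ha0 hbig k (1 / n) (one_div_pos.2 hn') ht1 hk.le
  refine ⟨W, hW, ?_, fun u hu => ?_⟩
  · rw [Real.div_rpow zero_le_one hn'.le, Real.one_rpow, mul_one_div,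
      le_div_iff₀ (Real.rpow_pos_of_pos hn' _), one_mul] at hcard
    exact hcard
  · obtain ⟨η, h1, h2, h3⟩ := hη u hu
    refine ⟨η, ?_, ?_, h3⟩
    · rw [mul_one_div, div_le_iff₀ hn'] at h1; exact h1
    · rw [le_div_iff₀ hn'] at h2; exact h2

end Setting

end Vale.Agent.P165.Tree
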