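import Vale.Agent.P165.Tree.Quant

/-!
# The pressure of crossing chances (P165, tree quotient)
-/

namespace Vale.Agent.P165.Tree

open scoped ENNReal
open Filter Topology

universe u

/-- An edge is open with probability at most `p`. -/
theorem PE_mem_le {α : Type*} [DecidableEq α] {p : ℝ} (hp0 : 0 ≤ p) (E : Finset α) (e : α) :
    PE p E (fun ω => e ∈ ω) ≤ p := by
  unfold PE
  by_cases he : e ∈ E
  · rw [← Finset.insert_erase he, EE_insert p (Finset.notMem_erase e E),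
      EE_congr p (g := fun _ => (1 : ℝ)) fun ω _ => ind_of (Finset.mem_insert_self e ω),
      EE_congr p (f := fun ω => ind (e ∈ ω)) (g := fun _ => (0 : ℝ)) fun ω hω =>
        ind_of_not fun h => Finset.notMem_erase e E (hω h), EE_const, EE_const]
    simp
  · rw [EE_congr p (g := fun _ => (0 : ℝ)) fun ω hω => ind_of_not fun h => he (hω h), EE_const]
    exact hp0

/-- Some bit is open with probability `1 - (1 - p) ^ n`. -/
theorem PE_nonempty_eq {α : Type*} [DecidableEq α] (p : ℝ) (E : Finset α) :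
    PE p E (fun ω => ω.Nonempty) = 1 - (1 - p) ^ E.card := by
  unfold PE
  induction E using Finset.induction with
  | empty => simp [EE_empty, ind_of_not]
  | insert e E he ih =>
    rw [EE_insert p he, ih, EE_congr p (g := fun _ => (1 : ℝ))
      fun ω _ => ind_of (Finset.insert_nonempty e ω), EE_const, Finset.card_insert_of_notMem he,
      pow_succ]
    ring

/-- Two stages in disjoint sets of edges. -/
theorem tauT_relay {V : Type*} [DecidableEq V] {p : ℝ} (hp0 : 0 ≤ p) (hp1 : p ≤ 1)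
    {R₁ R₂ R : Set (Sym2 V)} (h₁ : R₁ ⊆ R) (h₂ : R₂ ⊆ R) (hd : Disjoint R₁ R₂) {z : V}
    {T₁ T : Set V} {c : ℝ≥0∞} (hc : ∀ t ∈ T₁, c ≤ tauT p R₂ t T) :
    tauT p R₁ z T₁ * c ≤ tauT p R z T := by
  classical
  unfold tauT
  rw [ENNReal.iSup_mul]
  refine iSup_le fun E₁ => ENNReal.mul_le_of_forall_lt fun a ha b hb => ?_
  have hb' : ∀ t ∈ T₁, ∃ F : Finset (Sym2 V), (F : Set (Sym2 V)) ⊆ R₂ ∧
      b < ENNReal.ofReal (PE p F fun ω => ConnTo ω t T) := fun t ht => by
    obtain ⟨F, hF⟩ := lt_iSup_iff.1 (hb.trans_le (hc t ht))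
    exact ⟨F.1, F.2, hF⟩
  choose! f hfR hfb using hb'
  set N := (insert z (verts (E₁ : Finset (Sym2 V)))).filter (· ∈ T₁) with hN
  have hE₂ : ((N.biUnion f : Finset (Sym2 V)) : Set (Sym2 V)) ⊆ R₂ := by
    intro e he
    rw [Finset.mem_coe, Finset.mem_biUnion] at he
    obtain ⟨t, ht, he⟩ := he
    exact hfR t (Finset.mem_filter.1 ht).2 he
  have hdis : Disjoint (E₁ : Finset (Sym2 V)) (N.biUnion f) :=
    Finset.disjoint_left.2 fun e he he' => Set.disjoint_left.1 hd (E₁.2 he) (hE₂ he')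
  have hU : (((E₁ : Finset (Sym2 V)) ∪ N.biUnion f : Finset (Sym2 V)) : Set (Sym2 V)) ⊆ R := by
    rw [Finset.coe_union]
    exact Set.union_subset (E₁.2.trans h₁) (hE₂.trans h₂)
  refine le_trans ?_ (le_iSup (fun E : {E : Finset (Sym2 V) // (E : Set (Sym2 V)) ⊆ R} =>
    ENNReal.ofReal (PE p (E : Finset (Sym2 V)) fun ω => ConnTo ω z T)) ⟨_, hU⟩)
  refine (mul_le_mul' ha.le (le_refl b)).trans ?_
  rw [← ENNReal.ofReal_toReal (ne_top_of_lt hb), ← ENNReal.ofReal_mul (PE_nonneg hp0 hp1 _)]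
  refine ENNReal.ofReal_le_ofReal ?_
  rw [mul_comm]
  unfold PE
  rw [EE_union p hdis, ← EE_mul_left]
  refine EE_mono hp0 hp1 fun a' ha' => ?_
  by_cases hA : ConnTo a' z T₁
  · obtain ⟨t, ht, hzt⟩ := id hA
    have htN : t ∈ N := Finset.mem_filter.2 ⟨conn_mem ha' hzt, ht⟩
    rw [ind_of hA, mul_one]
    have hlt := (ENNReal.lt_ofReal_iff_toReal_lt (ne_top_of_lt hb)).1 (hfb t ht)
    refine hlt.le.trans ((PE_mono_set hp0 hp1 (incr_connTo t T)
      (Finset.subset_biUnion_of_mem f htN)).trans ?_)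
    exact PE_mono hp0 hp1 fun b' _ ⟨s, hs, hts⟩ => ⟨s, hs,
      conn_trans (conn_mono Finset.subset_union_left hzt) (conn_mono Finset.subset_union_right hts)⟩
  · rw [ind_of_not hA, mul_zero]
    exact EE_nonneg hp0 hp1 fun _ _ => ind_nonneg _

namespace Setting

variable {S : Setting.{u}} {R c L : ℕ}

theorem exists_degree (S : Setting.{u}) :
    ∃ Δ : ℕ, ∀ x : S.V, (S.G.neighborFinset x).card ≤ Δ := by
  classical
  refine ⟨∑ i, (S.G.neighborFinset (S.one i)).card, fun x => ?_⟩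
  refine le_trans ?_ (Finset.single_le_sum (f := fun i => (S.G.neighborFinset (S.one i)).card)
    (fun _ _ => Nat.zero_le _) (Finset.mem_univ x.2))
  refine le_trans (Finset.card_le_card ?_)
    (Finset.card_image_le (s := S.G.neighborFinset (S.one x.2)) (f := S.act x.1))
  intro y hy
  refine Finset.mem_image.2 ⟨(S.act x.1).symm y, ?_, Equiv.apply_symm_apply _ _⟩
  rw [SimpleGraph.mem_neighborFinset] at hy ⊢
  rw [← adj_act x.1, Equiv.apply_symm_apply]
  have hx : S.act x.1 (S.one x.2) = x := by simp [act, one]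
  rwa [hx]

/-- One step of a connection: an open edge and, disjointly, the rest. -/
theorem sum_tt_step {p : ℝ} (hp0 : 0 ≤ p) (hp1 : p ≤ 1) (x y : S.V) (hxy : x ≠ y) :
    S.tt p x y ≤ ∑ z ∈ S.G.neighborFinset x, ENNReal.ofReal p * S.tt p z y := by
  classical
  refine iSup_le fun E => ?_
  refine le_trans (ENNReal.ofReal_le_ofReal (q := ∑ z ∈ S.G.neighborFinset x,
    p * PE p (E : Finset (Sym2 S.V)) fun ω => Conn ω z y) ?_) ?_
  · refine le_trans (PE_mono hp0 hp1 (B := fun ω => ∃ z ∈ S.G.neighborFinset x,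
      Box (fun s => s(x, z) ∈ s) (fun s => Conn s z y) ω) ?_)
      ((PE_exists_le hp0 hp1 _ _).trans (Finset.sum_le_sum fun z _ => ?_))
    · intro ω hω hc
      obtain ⟨w⟩ := connTo_singleton.1 hc
      have hb := w.bypass_isPath
      generalize w.bypass = q at hb
      cases q with
      | nil => exact absurd rfl hxy
      | @cons _ z _ hadj q' =>
        rw [SimpleGraph.Walk.cons_isPath_iff] at hb
        have he : s(x, z) ∈ ω := (confGraph_adj.1 hadj).1
        refine ⟨z, (S.G.mem_neighborFinset _ _).2 (S.G.mem_edgeSet.1 (E.2 (hω he))),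
          {s(x, z)}, q'.edges.toFinset, ?_, Finset.singleton_subset_iff.2 he,
          fun e h => edges_mem q' e (List.mem_toFinset.1 h), Finset.mem_singleton_self _,
          conn_of_confWalk q' fun e h => List.mem_toFinset.2 h⟩
        rw [Finset.disjoint_singleton_left, List.mem_toFinset]
        exact fun h => hb.2 (q'.fst_mem_support_of_mem_edges h)
    · refine (bk hp0 hp1 (fun a b hab h => hab h) (incr_conn z y)).trans ?_
      exact mul_le_mul_of_nonneg_right (PE_mem_le hp0 _ _) (PE_nonneg hp0 hp1 _)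
  · rw [ENNReal.ofReal_sum_of_nonneg fun z _ => mul_nonneg hp0 (PE_nonneg hp0 hp1 _)]
    refine Finset.sum_le_sum fun z _ => ?_
    rw [ENNReal.ofReal_mul hp0]
    refine mul_le_mul' le_rfl (le_trans (le_of_eq ?_) (ofReal_PE_le_tauT p E.2 z {y}))
    simp only [connTo_singleton]

/-- Small parameters have bounded susceptibility. -/
theorem exists_mem_pT (S : Setting.{u}) :
    ∃ p : ℝ, 0 < p ∧ p ≤ 1 ∧ ∀ x, S.chi p x ≠ ⊤ := by
  classical
  obtain ⟨Δ, hΔ⟩ := exists_degree S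
  set p : ℝ := 1 / (2 * ((Δ : ℝ) + 1)) with hp
  have hΔ0 : (0 : ℝ) ≤ Δ := Nat.cast_nonneg Δ
  have hp0 : 0 < p := by positivity
  have hp1 : p ≤ 1 := by rw [hp, div_le_one (by positivity)]; linarith
  have hΔp : (Δ : ℝ) * p ≤ 1 / 2 := by
    rw [hp, mul_one_div, div_le_div_iff₀ (by positivity) two_pos]; linarith
  refine ⟨p, hp0, hp1, fun x₀ => ne_top_of_le_ne_top (ENNReal.ofReal_ne_top (r := 2)) ?_⟩
  rw [chi, ENNReal.tsum_eq_iSup_sum]
  refine iSup_le fun F => ?_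
  set M : ℝ≥0∞ := ⨆ x, ∑ y ∈ F, S.tt p x y with hM
  have hMtop : M ≠ ⊤ := ne_top_of_le_ne_top (ENNReal.natCast_ne_top F.card) (iSup_le fun x =>
    (Finset.sum_le_sum fun y _ => tauT_le_one hp0.le hp1).trans (by simp))
  have hrec : M ≤ 1 + ENNReal.ofReal ((Δ : ℝ) * p) * M := by
    refine iSup_le fun x => ?_
    calc ∑ y ∈ F, S.tt p x y
        ≤ ∑ y ∈ F, ((if x = y then 1 else 0) +
            ∑ z ∈ S.G.neighborFinset x, ENNReal.ofReal p * S.tt p z y) := by
          refine Finset.sum_le_sum fun y _ => ?_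
          by_cases hxy : x = y
          · rw [if_pos hxy]; exact (tauT_le_one hp0.le hp1).trans le_self_add
          · rw [if_neg hxy, zero_add]; exact sum_tt_step hp0.le hp1 x y hxy
      _ ≤ 1 + ∑ z ∈ S.G.neighborFinset x, ENNReal.ofReal p * M := by
          rw [Finset.sum_add_distrib]
          refine add_le_add ?_ ?_
          · rw [Finset.sum_ite_eq]; split <;> simp
          · rw [Finset.sum_comm]
            refine Finset.sum_le_sum fun z _ => ?_
            rw [← Finset.mul_sum]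
            exact mul_le_mul' le_rfl (le_iSup (fun x => ∑ y ∈ F, S.tt p x y) z)
      _ ≤ 1 + ENNReal.ofReal ((Δ : ℝ) * p) * M := by
          rw [Finset.sum_const, nsmul_eq_mul, ENNReal.ofReal_mul hΔ0, ENNReal.ofReal_natCast,
            mul_assoc]
          exact add_le_add le_rfl (mul_le_mul' (Nat.cast_le.2 (hΔ x)) le_rfl)
  refine (le_iSup (fun x => ∑ y ∈ F, S.tt p x y) x₀).trans ?_
  change M ≤ _
  have h := ENNReal.toReal_mono (ENNReal.add_ne_top.2
    ⟨ENNReal.one_ne_top, ENNReal.mul_ne_top ENNReal.ofReal_ne_top hMtop⟩) hrec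
  rw [ENNReal.toReal_add ENNReal.one_ne_top (ENNReal.mul_ne_top ENNReal.ofReal_ne_top hMtop),
    ENNReal.toReal_one, ENNReal.toReal_mul,
    ENNReal.toReal_ofReal (mul_nonneg hΔ0 hp0.le)] at h
  rw [← ENNReal.ofReal_toReal hMtop]
  refine ENNReal.ofReal_le_ofReal ?_
  have := mul_le_mul_of_nonneg_right hΔp (ENNReal.toReal_nonneg (a := M))
  linarith

theorem pT_pos (S : Setting.{u}) : 0 < S.pT := by
  obtain ⟨p, hp, hp1, h⟩ := exists_mem_pT S
  exact hp.trans_le (le_csSup ⟨1, fun q hq => hq.2.1⟩ ⟨hp.le, hp1, h⟩)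

theorem pT_le_one (S : Setting.{u}) : S.pT ≤ 1 :=
  Real.sSup_le (fun _ hq => hq.2.1) zero_le_one

theorem chi_ne_top_of_lt {p : ℝ} (hp0 : 0 ≤ p) (h : p < S.pT) (x : S.V) : S.chi p x ≠ ⊤ := by
  obtain ⟨q, hq0, hq1, hq⟩ := exists_mem_pT S
  obtain ⟨r, ⟨-, hr1, hr⟩, hpr⟩ := exists_lt_of_lt_csSup
    (s := {p : ℝ | 0 ≤ p ∧ p ≤ 1 ∧ ∀ x, S.chi p x ≠ ⊤}) ⟨q, hq0.le, hq1, hq⟩ h
  exact ne_top_of_le_ne_top (hr x) (ENNReal.tsum_le_tsum fun y => tauT_mono_p hp0 hpr.le hr1)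

theorem L_pos (hG : S.Geom R c L) : 0 < L := by have := hG.big; omega

theorem tauT_act (p : ℝ) (γ : S.Γ) (g g' : F2) (z : S.V) :
    tauT p (S.EH L (S.φ γ * g)) (S.act γ z) (S.Port L (S.φ γ * g')) =
      tauT p (S.EH L g) z (S.Port L g') := by
  rw [← act_EH, ← act_Port, tauT_map]

/-- A port of the root lies outside every deeper half space. -/
theorem not_inH_port (hG : S.Geom R c L) {u : F2} (hu : InW L u) {z : S.V}
    (hz : z ∈ S.Port L 1) : ¬ S.InH L u z := by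
  rintro ⟨y, w, -, hsup⟩
  have h1 := ((mem_cone_iff hu.2).1 (hsup z w.start_mem_support)).length_le
  have h2 := port_len hG hz
  have h3 := hu.1.le_len
  have h4 := hG.big
  unfold len at h2 h3
  omega

theorem qlo_le_one {p : ℝ} (hp0 : 0 ≤ p) (hp1 : p ≤ 1) (hG : S.Geom R c L) (u : F2) :
    S.qlo L p u ≤ 1 := by
  obtain ⟨z, hz⟩ := exists_port hG
  exact (iInf_le _ ⟨z, hz⟩).trans (tauT_le_one hp0 hp1)

theorem qlo_mono_p {p q : ℝ} (hp0 : 0 ≤ p) (hpq : p ≤ q) (hq1 : q ≤ 1) (u : F2) :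
    S.qlo L p u ≤ S.qlo L q u := iInf_mono fun _ => tauT_mono_p hp0 hpq hq1

theorem qlo_mul (hG : S.Geom R c L) {p : ℝ} (hp0 : 0 ≤ p) (hp1 : p ≤ 1) {u v : F2}
    (hu : InW L u) (hv : InW L v) : S.qlo L p u * S.qlo L p v ≤ S.qlo L p (u * v) := by
  classical
  refine le_iInf fun z => ?_
  refine le_trans (mul_le_mul' (iInf_le (fun z : S.Port L 1 => S.Pz L p u (z : S.V)) z) le_rfl) ?_
  refine le_trans (mul_le_mul' (b := tauT p (S.EH L 1 \ S.EH L u) (z : S.V) (S.Port L u))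
    ?_ (le_refl (S.qlo L p v))) ?_
  · refine iSup_le fun E => ?_
    refine le_trans (ENNReal.ofReal_le_ofReal (q := PE p
      ((E : Finset (Sym2 S.V)).filter (· ∉ S.EH L u)) fun ω => ConnTo ω z (S.Port L u)) ?_) ?_
    · unfold PE
      rw [← EE_marginal p (Finset.filter_subset _ (E : Finset (Sym2 S.V)))
        fun ω => ind (ConnTo ω (z : S.V) (S.Port L u))]
      refine EE_mono hp0 hp1 fun ω hω => ind_mono ?_
      rintro ⟨t, ht, ⟨w⟩⟩
      have hwG : ∀ e ∈ w.edges, e ∈ S.G.edgeSet := fun e he =>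
        EH_subset L 1 (E.2 (hω (edges_mem w e he)))
      obtain ⟨z', hz', w', h1, h2⟩ := first_port hG (w.transfer S.G hwG)
        (not_inH_port hG hu z.2) ht.1
      refine ⟨z', hz', conn_of_gwalk w' fun e he => ?_⟩
      rw [List.mem_toFinset] at he
      have hew : e ∈ ω := edges_mem w e (by simpa using h1 e he)
      exact Finset.mem_inter.2 ⟨hew, Finset.mem_filter.2 ⟨hω hew, h2 e he⟩⟩
    · refine ofReal_PE_le_tauT p (fun e he => ?_) _ _
      rw [Finset.mem_coe, Finset.mem_filter] at he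
      exact ⟨E.2 he.1, he.2⟩
  refine tauT_relay hp0 hp1 Set.sdiff_subset (EH_mono hG hu) Set.disjoint_sdiff_left fun t ht => ?_
  obtain ⟨γ, hγ⟩ := S.surj u
  have hP := act_Port (S := S) L γ 1
  rw [mul_one, hγ] at hP
  rw [← hP] at ht
  obtain ⟨z', hz', rfl⟩ := ht
  refine (iInf_le (fun z : S.Port L 1 => S.Pz L p v (z : S.V)) ⟨z', hz'⟩).trans (le_of_eq ?_)
  have hT := tauT_act (L := L) p γ 1 v z'
  rw [mul_one, hγ] at hT
  exact hT.symm

/-- From every orbit a little beyond the boundary of a half space back to its boundary. -/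
theorem to_port (hG : S.Geom R c L) : ∃ c₁, ∀ (u : F2) (x : S.V), S.π x = u * genA ^ L →
    ∃ t ∈ S.Port L u, ∃ w : S.G.Walk x t, w.length ≤ c₁ ∧ ∀ e ∈ w.edges, e ∈ S.EH L u := by
  obtain ⟨c₀, hc₀⟩ := port_link hG
  obtain ⟨t₀, ht₀⟩ := exists_port hG
  refine ⟨c₀, fun u x hx => ?_⟩
  obtain ⟨y₀, hy₀, hy₀j, w, hwl, hwe⟩ := hc₀ t₀ ht₀ x.2
  set γ : S.Γ := x.1 * y₀.1⁻¹ with hγ
  have hγu : S.φ γ = u := by
    rw [hγ, map_mul, map_inv]
    change S.π x * (S.π y₀)⁻¹ = u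
    rw [hx, hy₀, mul_inv_cancel_right]
  have hy : S.act γ y₀ = x := Prod.ext (by simp [act, hγ]) (by simp [act, hy₀j])
  have hT : S.act γ t₀ ∈ S.Port L u := by
    rw [← mul_one u, ← hγu, ← act_Port]; exact ⟨t₀, ht₀, rfl⟩
  let f : S.G →g S.G := ⟨S.act γ, fun h => (adj_act γ).2 h⟩
  refine ⟨_, hT, ((w.map f).reverse).copy hy rfl, by simpa using hwl, fun e he => ?_⟩
  simp only [SimpleGraph.Walk.edges_copy, SimpleGraph.Walk.edges_reverse, List.mem_reverse,
    SimpleGraph.Walk.edges_map, List.mem_map] at he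
  obtain ⟨e', he', rfl⟩ := he
  rw [← mul_one u, ← hγu, ← act_EH]
  exact ⟨e', hwe e' he', rfl⟩

theorem qlo_pos (hG : S.Geom R c L) {p : ℝ} (hp : 0 < p) (hp1 : p ≤ 1) {u : F2}
    (hu : InW L u) : 0 < S.qlo L p u := by
  have hL := L_pos hG
  obtain ⟨c₀, hc₀⟩ := port_link hG
  obtain ⟨c₁, hc₁⟩ := to_port hG
  have hv := InW.mul hL hu (genA_pow_inW hL)
  set N := c₀ + c * (1 + (len (u * genA ^ L) - len (genA ^ L)) +
    (len (genA ^ L) - len (u * genA ^ L))) + c₁
  refine lt_of_lt_of_le (ENNReal.ofReal_pos.2 (pow_pos hp N)) (le_iInf fun z => ?_)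
  obtain ⟨y, hy, -, w₁, hl₁, he₁⟩ := hc₀ z z.2 (z : S.V).2
  obtain ⟨x, hx, -, w₂, hl₂, he₂⟩ := deep_link hG (x := y) (z : S.V).2
    (v := u * genA ^ L) (by rw [hy]; exact genA_pow_deep L) hv.1.1
    (Or.inl (by rw [hy, Pre, toWord_genA_pow]; exact hv.1.1))
  obtain ⟨t, ht, w₃, hl₃, he₃⟩ := hc₁ u x hx
  have hlen : ((w₁.append w₂).append w₃).length ≤ N := by
    rw [SimpleGraph.Walk.length_append, SimpleGraph.Walk.length_append]
    rw [hy] at hl₂
    omega
  refine le_trans (ENNReal.ofReal_le_ofReal (pow_le_pow_of_le_one hp.le hp1 hlen))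
    ((tau_pos hp hp1 _ fun e he => ?_).trans
      (tauT_mono hp.le hp1 le_rfl (Set.singleton_subset_iff.2 ht)))
  simp only [SimpleGraph.Walk.edges_append, List.mem_append] at he
  rcases he with (he | he) | he
  · exact he₁ e he
  · exact he₂ e he
  · exact EH_mono hG hu (he₃ e he)

theorem qlo_lt_one (hG : S.Geom R c L) {p : ℝ} (hp : 0 ≤ p) (hp1 : p < 1) :
    ∃ θ : ℝ≥0∞, θ < 1 ∧ ∀ u, InW L u → S.qlo L p u ≤ θ := by
  classical
  obtain ⟨z, hz⟩ := exists_port hG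
  set St := (S.G.neighborFinset z).image fun y => s(z, y) with hSt
  refine ⟨ENNReal.ofReal (1 - (1 - p) ^ St.card), ?_, fun u hu => ?_⟩
  · rw [ENNReal.ofReal_lt_one]
    have : (0 : ℝ) < (1 - p) ^ St.card := pow_pos (by linarith) _
    linarith
  refine (iInf_le (fun z : S.Port L 1 => S.Pz L p u (z : S.V)) ⟨z, hz⟩).trans (iSup_le fun E => ?_)
  refine ENNReal.ofReal_le_ofReal ?_
  refine le_trans (b := PE p ((E : Finset (Sym2 S.V)) ∩ St) fun ω => ω.Nonempty) ?_ ?_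
  · unfold PE
    rw [← EE_marginal p (Finset.inter_subset_left (s₁ := (E : Finset (Sym2 S.V))) (s₂ := St))
      fun ω => ind ω.Nonempty]
    refine EE_mono hp hp1.le fun ω hω => ind_mono ?_
    rintro ⟨t, ht, ⟨w⟩⟩
    cases w with
    | nil => exact absurd ht.1 (not_inH_port hG hu hz)
    | @cons _ y _ hadj _ =>
      have he : s(z, y) ∈ ω := (confGraph_adj.1 hadj).1
      have hGe : S.G.Adj z y := S.G.mem_edgeSet.1 (EH_subset L 1 (E.2 (hω he)))
      refine ⟨s(z, y), Finset.mem_inter.2 ⟨he, Finset.mem_inter.2 ⟨hω he, ?_⟩⟩⟩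
      exact Finset.mem_image.2 ⟨y, (S.G.mem_neighborFinset _ _).2 hGe, rfl⟩
  · rw [PE_nonempty_eq]
    have := pow_le_pow_of_le_one (show (0 : ℝ) ≤ 1 - p by linarith) (show (1 : ℝ) - p ≤ 1 by linarith)
      (Finset.card_le_card (Finset.inter_subset_right (s₁ := (E : Finset (Sym2 S.V))) (s₂ := St)))
    linarith

/-- Boundaries of incomparable half spaces split the susceptibility. -/
theorem sum_Pz_le_chi (hG : S.Geom R c L) {p : ℝ} (hp0 : 0 ≤ p) (hp1 : p ≤ 1) {W : Finset F2}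
    (hW : Anti L W) (z : S.V) : ∑ u ∈ W, S.Pz L p u z ≤ S.chi p z := by
  classical
  calc ∑ u ∈ W, S.Pz L p u z
      ≤ ∑ u ∈ W, ∑' t, (S.Port L u).indicator (S.tt p z) t := by
        refine Finset.sum_le_sum fun u _ => (tauT_le_tsum hp0 hp1 _ _ _).trans ?_
        rw [← tsum_subtype]
        exact ENNReal.tsum_le_tsum fun t => tauT_mono hp0 hp1 (EH_subset L 1) le_rfl
    _ = ∑' t, ∑ u ∈ W, (S.Port L u).indicator (S.tt p z) t :=
        (Summable.tsum_finsetSum fun _ _ => ENNReal.summable).symm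
    _ ≤ S.chi p z := ENNReal.tsum_le_tsum fun t => by
        by_cases ht : ∃ u ∈ W, t ∈ S.Port L u
        · obtain ⟨u, hu, htu⟩ := ht
          rw [Finset.sum_eq_single_of_mem u hu fun v hv hne => Set.indicator_of_notMem (fun htv =>
            Set.disjoint_left.1 (port_disjoint hG (hW.1 v hv) (hW.1 u hu) (hW.2 v hv u hu hne)
              (hW.2 u hu v hv hne.symm)) htv htu) _, Set.indicator_of_mem htu]
        · rw [Finset.sum_eq_zero fun u hu => Set.indicator_of_notMem (fun h => ht ⟨u, hu, h⟩) _]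
          exact zero_le

/-- Products of a family form a family. -/
theorem pow_anti (hG : S.Geom R c L) {p : ℝ} (hp0 : 0 ≤ p) (hp1 : p ≤ 1) {s : ℝ} (hs : 0 ≤ s)
    {W : Finset F2} (hW : Anti L W) :
    ∀ n : ℕ, ∃ W', Anti L W' ∧
      (∑ u ∈ W, S.qlo L p u ^ s) ^ (n + 1) ≤ ∑ u ∈ W', S.qlo L p u ^ s := by
  classical
  intro n
  induction n with
  | zero => exact ⟨W, hW, by simp⟩
  | succ n ih =>
    obtain ⟨W', hW', hle⟩ := ih
    have hL := L_pos hG
    have hword : ∀ u ∈ W, ∀ v ∈ W', (u * v).toWord = u.toWord ++ v.toWord := fun u hu v hv =>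
      (InW.mul hL (hW.1 u hu) (hW'.1 v hv)).2.2
    have key : ∀ u ∈ W, ∀ u' ∈ W, ∀ v ∈ W', ∀ v' ∈ W', Pre (u * v) (u' * v') →
        u = u' ∧ Pre v v' := by
      intro u hu u' hu' v hv v' hv' h
      rw [Pre, hword u hu v hv, hword u' hu' v' hv'] at h
      have huu : u = u' := by
        by_contra hne
        rcases List.prefix_or_prefix_of_prefix ((List.prefix_append _ _).trans h)
          (List.prefix_append u'.toWord v'.toWord) with h' | h'
        · exact hW.2 u hu u' hu' hne h'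
        · exact hW.2 u' hu' u hu (Ne.symm hne) h'
      subst huu
      exact ⟨rfl, (List.prefix_append_right_inj _).1 h⟩
    have hinj : Set.InjOn (fun a : F2 × F2 => a.1 * a.2) ↑(W ×ˢ W') := by
      rintro ⟨u, v⟩ ha ⟨u', v'⟩ hb h
      simp only [Finset.coe_product, Set.mem_prod, Finset.mem_coe] at ha hb
      simp only at h
      obtain rfl := (key u ha.1 u' hb.1 v ha.2 v' hb.2 (by rw [h]; exact Pre.refl _)).1
      rw [mul_left_cancel h]
    refine ⟨(W ×ˢ W').image fun a => a.1 * a.2, ⟨?_, ?_⟩, ?_⟩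
    · intro w hw
      obtain ⟨⟨u, v⟩, huv, rfl⟩ := Finset.mem_image.1 hw
      rw [Finset.mem_product] at huv
      exact (InW.mul hL (hW.1 u huv.1) (hW'.1 v huv.2)).1
    · intro w hw w' hw' hne h
      obtain ⟨⟨u, v⟩, huv, rfl⟩ := Finset.mem_image.1 hw
      obtain ⟨⟨u', v'⟩, huv', rfl⟩ := Finset.mem_image.1 hw'
      rw [Finset.mem_product] at huv huv'
      obtain ⟨rfl, hvv⟩ := key u huv.1 u' huv'.1 v huv.2 v' huv'.2 h
      exact hW'.2 v huv.2 v' huv'.2 (fun hv => hne (by simp only [hv])) hvv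
    · rw [Finset.sum_image hinj, Finset.sum_product, pow_succ']
      refine (mul_le_mul' le_rfl hle).trans ?_
      rw [Finset.sum_mul_sum]
      refine Finset.sum_le_sum fun u hu => Finset.sum_le_sum fun v hv => ?_
      rw [← ENNReal.mul_rpow_of_nonneg _ _ hs]
      exact ENNReal.rpow_le_rpow (qlo_mul hG hp0 hp1 (hW.1 u hu) (hW'.1 v hv)) hs

theorem sum_qlo_le_one (hG : S.Geom R c L) {p : ℝ} (hp0 : 0 ≤ p) (h : p < S.pT) {W : Finset F2}
    (hW : Anti L W) : ∑ u ∈ W, S.qlo L p u ≤ 1 := by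
  obtain ⟨z, hz⟩ := exists_port hG
  have hp1 : p ≤ 1 := h.le.trans (pT_le_one S)
  have hchi := chi_ne_top_of_lt hp0 h z
  have key : ∀ n : ℕ, (∑ u ∈ W, S.qlo L p u) ^ (n + 1) ≤ S.chi p z := fun n => by
    obtain ⟨W', hW', hle⟩ := pow_anti hG hp0 hp1 zero_le_one hW n
    simp only [ENNReal.rpow_one] at hle
    exact hle.trans ((Finset.sum_le_sum fun u _ => iInf_le _ (⟨z, hz⟩ : S.Port L 1)).trans
      (sum_Pz_le_chi hG hp0 hp1 hW' z))
  by_contra hlt
  rw [not_le] at hlt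
  have hx : ∑ u ∈ W, S.qlo L p u ≠ ⊤ :=
    ENNReal.sum_ne_top.2 fun u _ => ne_top_of_le_ne_top ENNReal.one_ne_top (qlo_le_one hp0 hp1 hG u)
  have h1 : 1 < (∑ u ∈ W, S.qlo L p u).toReal := by
    rw [← ENNReal.toReal_one]; exact (ENNReal.toReal_lt_toReal ENNReal.one_ne_top hx).2 hlt
  obtain ⟨n, hn⟩ := pow_unbounded_of_one_lt (S.chi p z).toReal h1
  have h2 := ENNReal.toReal_mono hchi (key n)
  rw [ENNReal.toReal_pow] at h2
  linarith [pow_le_pow_right₀ h1.le (Nat.le_add_right n 1)]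

theorem exists_witness (hG : S.Geom R c L) {ε : ℝ} (hε : 0 < ε) (hε1 : ε < 1) :
    Nonempty (S.Witness L ε) := by
  classical
  have hL := L_pos hG
  let Fails : ℝ → Prop := fun t => ∃ p, 0 ≤ p ∧ p < S.pT ∧ ∃ W, Anti L W ∧
    1 < ∑ u ∈ W, S.qlo L p u ^ t
  have hb0 : 0 < 1 - ε := by linarith
  have hpT := pT_pos S
  have hpT1 := pT_le_one S
  -- some exponent fails
  set w₁ : F2 := genA ^ L * genA with hw₁
  set w₂ : F2 := genA ^ L * (genB * genA) with hw₂
  have e₁ : w₁.toWord = List.replicate L ((0, true) : Letter) ++ [((0, true) : Letter)] := by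
    rw [hw₁, toWord_mul_of_inK (genA_pow_inW hL).2 (by simp [InK, genA]), toWord_genA_pow]
    simp [genA]
  have hba : (genB * genA).toWord = [((1, true) : Letter), (0, true)] := by decide
  have e₂ : w₂.toWord = List.replicate L ((0, true) : Letter) ++
      [((1, true) : Letter), (0, true)] := by
    rw [hw₂, toWord_mul_of_inK (genA_pow_inW hL).2 (by simp [InK, hba]), toWord_genA_pow, hba]
  have i₁ : InW L w₁ := ⟨⟨_, e₁.symm⟩, by rw [e₁, List.getLast?_append]; rfl⟩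
  have i₂ : InW L w₂ := ⟨⟨_, e₂.symm⟩, by rw [e₂, List.getLast?_append]; rfl⟩
  have n₁₂ : ¬ Pre w₁ w₂ := fun h => by
    rw [Pre, e₁, e₂, List.prefix_append_right_inj] at h; simp at h
  have n₂₁ : ¬ Pre w₂ w₁ := fun h => by
    rw [Pre, e₁, e₂, List.prefix_append_right_inj] at h; simp at h
  have hne : w₁ ≠ w₂ := fun h => n₁₂ (h ▸ Pre.refl w₁)
  have hW₂ : Anti L ({w₁, w₂} : Finset F2) := by
    refine ⟨fun u hu => ?_, fun u hu v hv huv => ?_⟩
    · rcases Finset.mem_insert.1 hu with rfl | hu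
      · exact i₁
      · exact (Finset.mem_singleton.1 hu) ▸ i₂
    · simp only [Finset.mem_insert, Finset.mem_singleton] at hu hv
      rcases hu with rfl | rfl <;> rcases hv with rfl | rfl
      · exact absurd rfl huv
      · exact n₁₂
      · exact n₂₁
      · exact absurd rfl huv
  have hex : ∃ k : ℕ, Fails ((1 - ε) ^ k) := by
    have hp : 0 < S.pT / 2 := by linarith
    have hp' : S.pT / 2 ≤ 1 := by linarith
    have half : ∀ u, InW L u → ∀ᶠ k : ℕ in atTop,
        ENNReal.ofReal (1 / 2) < S.qlo L (S.pT / 2) u ^ ((1 - ε) ^ k) := by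
      intro u hu
      have hq := qlo_pos hG hp hp' hu
      have hq1 := ne_top_of_le_ne_top ENNReal.one_ne_top (qlo_le_one hp.le hp' hG u)
      have hx := ENNReal.toReal_pos hq.ne' hq1
      have ht : Tendsto (fun k : ℕ => (S.qlo L (S.pT / 2) u).toReal ^ ((1 - ε) ^ k))
          atTop (𝓝 1) := by
        have h0 := ((Real.continuous_const_rpow hx.ne').tendsto 0).comp
          (tendsto_pow_atTop_nhds_zero_of_lt_one hb0.le (show 1 - ε < 1 by linarith))
        simpa [Real.rpow_zero, Function.comp_def] using h0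
      filter_upwards [ht.eventually (lt_mem_nhds (show (1 : ℝ) / 2 < 1 by norm_num))] with k hk
      calc ENNReal.ofReal (1 / 2)
          < ENNReal.ofReal ((S.qlo L (S.pT / 2) u).toReal ^ ((1 - ε) ^ k)) :=
            (ENNReal.ofReal_lt_ofReal_iff (Real.rpow_pos_of_pos hx _)).2 hk
        _ = _ := by rw [← ENNReal.ofReal_rpow_of_pos hx, ENNReal.ofReal_toReal hq1]
    obtain ⟨k, hk₁, hk₂⟩ := ((half w₁ i₁).and (half w₂ i₂)).exists
    refine ⟨k, S.pT / 2, hp.le, by linarith, _, hW₂, ?_⟩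
    rw [Finset.sum_pair hne]
    refine lt_of_le_of_lt (le_of_eq ?_) (ENNReal.add_lt_add hk₁ hk₂)
    rw [← ENNReal.ofReal_add (by norm_num) (by norm_num)]
    norm_num
  obtain ⟨j, hj⟩ : ∃ j, Nat.find hex = j + 1 := by
    refine ⟨Nat.find hex - 1, ?_⟩
    have h0 : Nat.find hex ≠ 0 := fun h0 => by
      obtain ⟨p, hp0, hp, W, hW, hlt⟩ := Nat.find_spec hex
      rw [h0, pow_zero] at hlt
      simp only [ENNReal.rpow_one] at hlt
      exact absurd hlt (not_lt.2 (sum_qlo_le_one hG hp0 hp hW))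
    omega
  obtain ⟨p, hp0, hp, W, hW, hlt⟩ := Nat.find_spec hex
  rw [hj, pow_succ'] at hlt
  have hmax : 0 < max p (S.pT / 2) := lt_of_lt_of_le (by linarith) (le_max_right _ _)
  have hmax' : max p (S.pT / 2) < S.pT := max_lt hp (by linarith)
  refine ⟨{
    s := (1 - ε) ^ j
    s_pos := pow_pos hb0 j
    s_le := pow_le_one₀ hb0.le (by linarith)
    p₀ := max p (S.pT / 2)
    p₀_pos := hmax
    p₀_lt := hmax'
    W := W
    anti := hW
    pos := fun u hu => qlo_pos hG hmax (hmax'.le.trans hpT1) (hW.1 u hu)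
    big := hlt.trans_le (Finset.sum_le_sum fun u _ => ENNReal.rpow_le_rpow
      (qlo_mono_p hp0 (le_max_left _ _) (hmax'.le.trans hpT1) u) (by positivity))
    bound := fun q hq0 hq W' hW' => not_lt.1 fun h =>
      Nat.find_min hex (show j < Nat.find hex by omega) ⟨q, hq0, hq, W', hW', h⟩ }⟩

theorem qhi_le (hG : S.Geom R c L) {p₁ : ℝ} (hp₁ : 0 < p₁) :
    ∃ C : ℝ≥0∞, C ≠ ⊤ ∧ ∀ p, p₁ ≤ p → p ≤ 1 → ∀ u, InW L u →
      S.qhi L p u ≤ C * S.qlo L p (genA ^ L * u) := by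
  have hL := L_pos hG
  obtain ⟨c₀, hc₀⟩ := port_link hG
  have hv := InW.mul hL (genA_pow_inW hL) (genA_pow_inW hL)
  set v : F2 := genA ^ L * genA ^ L
  set N := c₀ + c * (1 + (len v - len (genA ^ L)) + (len (genA ^ L) - len v)) + c₀
  have hpos : ENNReal.ofReal (p₁ ^ N) ≠ 0 := (ENNReal.ofReal_pos.2 (pow_pos hp₁ N)).ne'
  refine ⟨(ENNReal.ofReal (p₁ ^ N))⁻¹, ENNReal.inv_ne_top.2 hpos,
    fun p hp hp1 u hu => iSup_le fun z => ?_⟩
  have hp0 : 0 ≤ p := hp₁.le.trans hp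
  have key : ENNReal.ofReal (p₁ ^ N) * S.Pz L p u (z : S.V) ≤ S.qlo L p (genA ^ L * u) := by
    refine le_iInf fun z' => ?_
    obtain ⟨y₁, hy₁, hy₁j, w₁, hl₁, he₁⟩ := hc₀ z z.2 (z : S.V).2
    obtain ⟨y, hy, -, w₂, hl₂, he₂⟩ := hc₀ z' z'.2 (z : S.V).2
    obtain ⟨x, hx, hxj, w₃, hl₃, he₃⟩ := deep_link hG (x := y) (z : S.V).2 (v := v)
      (by rw [hy]; exact genA_pow_deep L) hv.1.1 (Or.inl (by rw [hy]; exact hv.2.1))
    set γ : S.Γ := x.1 * y₁.1⁻¹ with hγ
    have hγu : S.φ γ = genA ^ L := by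
      rw [hγ, map_mul, map_inv]
      change S.π x * (S.π y₁)⁻¹ = _
      rw [hx, hy₁]
      exact mul_inv_cancel_right _ _
    have hy' : S.act γ y₁ = x := Prod.ext (by simp [act, hγ]) (by simp [act, hy₁j, hxj])
    let f : S.G →g S.G := ⟨S.act γ, fun h => (adj_act γ).2 h⟩
    let w := (w₂.append w₃).append (((w₁.map f).reverse).copy hy' rfl)
    have hlen : w.length ≤ N := by
      simp only [w, SimpleGraph.Walk.length_append, SimpleGraph.Walk.length_copy,
        SimpleGraph.Walk.length_reverse, SimpleGraph.Walk.length_map]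
      rw [hy] at hl₃
      omega
    have hw : ∀ e ∈ w.edges, e ∈ S.EH L 1 := by
      intro e he
      simp only [w, SimpleGraph.Walk.edges_append, SimpleGraph.Walk.edges_copy,
        SimpleGraph.Walk.edges_reverse, SimpleGraph.Walk.edges_map, List.mem_append,
        List.mem_reverse, List.mem_map] at he
      rcases he with (he | he) | ⟨e', he', rfl⟩
      · exact he₂ e he
      · exact he₃ e he
      · refine EH_mono hG (genA_pow_inW hL) ?_
        have hE := act_EH (S := S) L γ 1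
        rw [mul_one, hγu] at hE
        rw [← hE]
        exact ⟨e', he₁ e' he', rfl⟩
    refine le_trans ?_ (walk_mul_tauT hp0 hp1 w hw)
    refine mul_le_mul' (ENNReal.ofReal_le_ofReal ?_) ?_
    · exact (pow_le_pow_left₀ hp₁.le hp N).trans (pow_le_pow_of_le_one hp0 hp1 hlen)
    · have hT := tauT_act (L := L) p γ 1 u (z : S.V)
      rw [mul_one, hγu] at hT
      rw [Pz, ← hT]
      exact tauT_mono hp0 hp1 (EH_mono hG (genA_pow_inW hL)) le_rfl
  calc S.Pz L p u (z : S.V)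
      = (ENNReal.ofReal (p₁ ^ N))⁻¹ * (ENNReal.ofReal (p₁ ^ N) * S.Pz L p u (z : S.V)) := by
        rw [← mul_assoc, ENNReal.inv_mul_cancel hpos ENNReal.ofReal_ne_top, one_mul]
    _ ≤ _ := mul_le_mul' le_rfl key

theorem Phi_le (hG : S.Geom R c L) {ε : ℝ} (Wt : S.Witness L ε) {p₁ : ℝ} (hp₁ : 0 < p₁) :
    ∃ C : ℝ≥0∞, C ≠ ⊤ ∧ ∀ p, p₁ ≤ p → p < S.pT → ∀ v, S.Phi L p Wt.s v ≤ C := by
  classical
  have hL := L_pos hG
  have hs := Wt.s_pos.le
  obtain ⟨C, hC, hq⟩ := qhi_le hG hp₁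
  refine ⟨C ^ Wt.s, ENNReal.rpow_ne_top_of_nonneg hs hC, fun p hp hlt v => iSup_le fun W => ?_⟩
  obtain ⟨W, hW, -⟩ := W
  have hp0 : 0 ≤ p := hp₁.le.trans hp
  have hp1 : p ≤ 1 := hlt.le.trans (pT_le_one S)
  have hA : Anti L (W.image fun u => genA ^ L * u) := by
    refine ⟨fun w hw => ?_, fun w hw w' hw' hne h => ?_⟩
    · obtain ⟨u, hu, rfl⟩ := Finset.mem_image.1 hw
      exact (InW.mul hL (genA_pow_inW hL) (hW.1 u hu)).1
    · obtain ⟨u, hu, rfl⟩ := Finset.mem_image.1 hw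
      obtain ⟨u', hu', rfl⟩ := Finset.mem_image.1 hw'
      rw [Pre, (InW.mul hL (genA_pow_inW hL) (hW.1 u hu)).2.2,
        (InW.mul hL (genA_pow_inW hL) (hW.1 u' hu')).2.2, List.prefix_append_right_inj] at h
      exact hW.2 u hu u' hu' (fun e => hne (by rw [e])) h
  calc ∑ u ∈ W, S.qhi L p u ^ Wt.s
      ≤ ∑ u ∈ W, C ^ Wt.s * S.qlo L p (genA ^ L * u) ^ Wt.s :=
        Finset.sum_le_sum fun u hu => by
          rw [← ENNReal.mul_rpow_of_nonneg _ _ hs]
          exact ENNReal.rpow_le_rpow (hq p hp hp1 u (hW.1 u hu)) hs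
    _ = C ^ Wt.s * ∑ w ∈ W.image (fun u => genA ^ L * u), S.qlo L p w ^ Wt.s := by
        rw [← Finset.mul_sum, Finset.sum_image fun a _ b _ h => mul_left_cancel h]
    _ ≤ C ^ Wt.s * 1 := mul_le_mul' le_rfl (Wt.bound p hp0 hlt _ hA)
    _ = C ^ Wt.s := mul_one _

theorem le_Phi {p s : ℝ} {w : F2} (hw : InW L w) : S.qhi L p w ^ s ≤ S.Phi L p s w := by
  have h : Anti L ({w} : Finset F2) ∧ ∀ u ∈ ({w} : Finset F2), Pre w u :=
    ⟨⟨fun u hu => (Finset.mem_singleton.1 hu) ▸ hw, fun u hu v hv hne =>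
      absurd ((Finset.mem_singleton.1 hu).trans (Finset.mem_singleton.1 hv).symm) hne⟩,
      fun u hu => (Finset.mem_singleton.1 hu) ▸ Pre.refl w⟩
  exact le_iSup_of_le ⟨{w}, h⟩ (by simp)

theorem Phi_anti {p s : ℝ} {v w : F2} (h : Pre v w) : S.Phi L p s w ≤ S.Phi L p s v :=
  iSup_le fun W => le_iSup_of_le ⟨W.1, W.2.1, fun u hu => h.trans (W.2.2 u hu)⟩ le_rfl

theorem Phi_kids {p s : ℝ} {v : F2} :
    ∑ c ∈ kids v, S.Phi L p s c ≤ S.Phi L p s v := by
  classical
  have key : ∀ K ⊆ kids v, ∑ c ∈ K, S.Phi L p s c ≤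
      ⨆ W : {W : Finset F2 // Anti L W ∧ ∀ u ∈ W, ∃ c ∈ K, Pre c u},
        ∑ u ∈ (W : Finset F2), S.qhi L p u ^ s := by
    intro K
    induction K using Finset.induction with
    | empty => simp
    | insert c K hc ih =>
      intro hK
      rw [Finset.sum_insert hc]
      refine le_trans (add_le_add le_rfl (ih ((Finset.subset_insert _ _).trans hK))) ?_
      have : Nonempty {W : Finset F2 // Anti L W ∧ ∀ u ∈ W, Pre c u} :=
        ⟨⟨∅, ⟨by simp, by simp⟩, by simp⟩⟩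
      have : Nonempty {W : Finset F2 // Anti L W ∧ ∀ u ∈ W, ∃ d ∈ K, Pre d u} :=
        ⟨⟨∅, ⟨by simp, by simp⟩, by simp⟩⟩
      refine ENNReal.iSup_add_iSup_le fun ⟨W₁, hA₁, h₁⟩ ⟨W₂, hA₂, h₂⟩ => ?_
      have hcv := hK (Finset.mem_insert_self c K)
      have no : ∀ u ∈ W₁, ∀ w ∈ W₂, ¬ Pre u w ∧ ¬ Pre w u := by
        intro u hu w hw
        obtain ⟨d, hd, hdw⟩ := h₂ w hw
        have hdv := hK (Finset.mem_insert_of_mem hd)
        have hcd : c ≠ d := fun e => hc (e ▸ hd)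
        exact ⟨fun h => kids_disjoint hcv hdv hcd ((h₁ u hu).trans h) hdw,
          fun h => kids_disjoint hcv hdv hcd (h₁ u hu) (hdw.trans h)⟩
      refine le_iSup_of_le ⟨W₁ ∪ W₂, ⟨fun u hu => ?_, fun u hu w hw hne => ?_⟩, fun u hu => ?_⟩ ?_
      · exact (Finset.mem_union.1 hu).elim (hA₁.1 u) (hA₂.1 u)
      · rcases Finset.mem_union.1 hu with hu | hu <;> rcases Finset.mem_union.1 hw with hw | hw
        · exact hA₁.2 u hu w hw hne
        · exact (no u hu w hw).1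
        · exact (no w hw u hu).2
        · exact hA₂.2 u hu w hw hne
      · rcases Finset.mem_union.1 hu with hu | hu
        · exact ⟨c, Finset.mem_insert_self _ _, h₁ u hu⟩
        · obtain ⟨d, hd, hdu⟩ := h₂ u hu
          exact ⟨d, Finset.mem_insert_of_mem hd, hdu⟩
      · rw [Finset.sum_union (Finset.disjoint_left.2 fun u hu hu' =>
          (no u hu u hu').1 (Pre.refl u))]
  refine (key _ subset_rfl).trans (iSup_le fun W => le_iSup_of_le ⟨W.1, W.2.1, fun u hu => ?_⟩ le_rfl)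
  obtain ⟨c, hc, hcu⟩ := W.2.2 u hu
  obtain ⟨t, ht⟩ := mem_kids.1 hc
  exact Pre.trans ⟨[t], ht.symm⟩ hcu

end Setting

end Vale.Agent.P165.Tree
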