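import Vale.Agent.P165.Tree.Setting

/-!
# The quantities of the proof (P165, tree quotient)
-/

namespace Vale.Agent.P165.Tree

open scoped ENNReal

universe u

namespace Setting

variable (S : Setting.{u})

/-- The two point function. -/
noncomputable def tt (p : ℝ) (x y : S.V) : ℝ≥0∞ := tau p S.G.edgeSet x y

/-- The expected size of the cluster. -/
noncomputable def chi (p : ℝ) (x : S.V) : ℝ≥0∞ := ∑' y, S.tt p x y

/-- The threshold of finite susceptibility. -/
noncomputable def pT : ℝ := sSup {p : ℝ | 0 ≤ p ∧ p ≤ 1 ∧ ∀ x, S.chi p x ≠ ⊤}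

/-- The fibre two point sum. -/
noncomputable def AA (p : ℝ) (v : F2) : ℝ≥0∞ :=
  ∑ i : Fin S.k, ∑' y : S.fib v, S.tt p (S.one i) (y : S.V)

/-- The cubic sum. -/
noncomputable def QQ (p : ℝ) : ℝ≥0∞ := ∑' v : F2, S.AA p v ^ 3

variable (L : ℕ)

/-- The chance to cross from `z` to the boundary of the half space of `w`. -/
noncomputable def Pz (p : ℝ) (w : F2) (z : S.V) : ℝ≥0∞ := tauT p (S.EH L 1) z (S.Port L w)

/-- The least crossing chance. -/
noncomputable def qlo (p : ℝ) (w : F2) : ℝ≥0∞ := ⨅ z : S.Port L 1, S.Pz L p w (z : S.V)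

/-- The largest crossing chance. -/
noncomputable def qhi (p : ℝ) (w : F2) : ℝ≥0∞ := ⨆ z : S.Port L 1, S.Pz L p w (z : S.V)

/-- The mean number of vertices above `v` joined to `z` in the half space. -/
noncomputable def Mz (p : ℝ) (v : F2) (z : S.V) : ℝ≥0∞ :=
  ∑' y : S.fib v, tau p (S.EH L 1) z (y : S.V)

/-- The largest such mean over boundary vertices. -/
noncomputable def Mb (p : ℝ) (v : F2) : ℝ≥0∞ := ⨆ z : S.Port L 1, S.Mz L p v (z : S.V)

/-- A finite family of incomparable words of the allowed shape. -/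
def Anti (W : Finset F2) : Prop :=
  (∀ u ∈ W, InW L u) ∧ ∀ u ∈ W, ∀ v ∈ W, u ≠ v → ¬ Pre u v

/-- The pressure below `v`. -/
noncomputable def Phi (p s : ℝ) (v : F2) : ℝ≥0∞ :=
  ⨆ W : {W : Finset F2 // Anti L W ∧ ∀ u ∈ W, Pre v u},
    ∑ u ∈ (W : Finset F2), S.qhi L p u ^ s

/-- The data from below the threshold: an exponent and a family beating a smaller one. -/
structure Witness (ε : ℝ) where
  s : ℝ
  s_pos : 0 < s
  s_le : s ≤ 1
  p₀ : ℝ
  p₀_pos : 0 < p₀
  p₀_lt : p₀ < S.pT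
  W : Finset F2
  anti : Anti L W
  pos : ∀ u ∈ W, 0 < S.qlo L p₀ u
  big : 1 < ∑ u ∈ W, S.qlo L p₀ u ^ ((1 - ε) * s)
  bound : ∀ p, 0 ≤ p → p < S.pT → ∀ W', Anti L W' → ∑ u ∈ W', S.qlo L p u ^ s ≤ 1

end Setting

end Vale.Agent.P165.Tree
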