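import Vale.Agent.P165.Tree.Pressure
import Vale.Agent.P165.Tree.Fin.ExpTail

/-!
# Reaching beyond a large set below the threshold (P165, tree quotient)
-/

namespace Vale.Agent.P165.Tree

open scoped ENNReal
open Filter Topology

universe u

namespace Setting

variable {S : Setting.{u}} {R c L : ℕ}

theorem map_act_edgeSet (γ : S.Γ) : Sym2.map (S.act γ) '' S.G.edgeSet = S.G.edgeSet := by
  ext e
  constructor
  · rintro ⟨d, hd, rfl⟩
    induction d using Sym2.inductionOn with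
    | hf a b => simpa [adj_act] using hd
  · intro he
    refine ⟨Sym2.map (S.act γ).symm e, ?_, ?_⟩
    · induction e using Sym2.inductionOn with
      | hf a b =>
        rw [Sym2.map_mk]
        refine (adj_act γ).1 ?_
        simpa using he
    · simp [Sym2.map_map]

theorem tt_act_reach (γ : S.Γ) (p : ℝ) (x y : S.V) : S.tt p (S.act γ x) (S.act γ y) = S.tt p x y := by
  have h := tauT_map p (S.act γ) S.G.edgeSet x {y}
  rw [map_act_edgeSet, Set.image_singleton] at h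
  exact h

theorem act_one (x : S.V) : S.act x.1 (S.one x.2) = x := by
  simp [act, one]

/-- All degrees are at most the sum of those of the base vertices. -/
theorem card_nbr_le (x : S.V) :
    (S.G.neighborFinset x).card ≤ ∑ i : Fin S.k, (S.G.neighborFinset (S.one i)).card := by
  classical
  refine le_trans ?_ (Finset.single_le_sum
    (f := fun i => (S.G.neighborFinset (S.one i)).card) (fun i _ => Nat.zero_le _)
    (Finset.mem_univ x.2))
  refine (Finset.card_le_card (t := (S.G.neighborFinset (S.one x.2)).image (S.act x.1))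
    fun y hy => ?_).trans Finset.card_image_le
  rw [SimpleGraph.mem_neighborFinset] at hy
  refine Finset.mem_image.2 ⟨(S.act x.1).symm y, ?_, Equiv.apply_symm_apply _ y⟩
  rw [SimpleGraph.mem_neighborFinset, ← adj_act x.1, Equiv.apply_symm_apply, act_one]
  exact hy

/-- Below the threshold the expected clusters are finite. -/
theorem chi_ne_top {p : ℝ} (hp0 : 0 ≤ p) (h : p < S.pT) : p ≤ 1 ∧ ∀ x, S.chi p x ≠ ⊤ := by
  have hne : {p : ℝ | 0 ≤ p ∧ p ≤ 1 ∧ ∀ x, S.chi p x ≠ ⊤}.Nonempty := by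
    by_contra hcon
    rw [Set.not_nonempty_iff_eq_empty] at hcon
    rw [pT, hcon, Real.sSup_empty] at h
    linarith
  obtain ⟨q, ⟨-, hq1, hfin⟩, hpq⟩ := exists_lt_of_lt_csSup hne h
  refine ⟨hpq.le.trans hq1, fun x htop => hfin x (top_le_iff.1 ?_)⟩
  rw [← htop]
  exact ENNReal.tsum_le_tsum fun y => tauT_mono_p hp0 hpq.le hq1

/-- A finite set outside which little of a finite sum remains. -/
theorem exists_tail_small {α : Type*} (f : α → ℝ≥0∞) (hf : ∑' a, f a ≠ ⊤) {ρ : ℝ≥0∞}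
    (hρ : 0 < ρ) :
    ∃ F : Finset α, ∀ G : Finset α, (∀ a ∈ G, a ∉ F) → ∑ a ∈ G, f a ≤ ρ := by
  obtain ⟨F, hF⟩ :=
    ((ENNReal.tendsto_tsum_compl_atTop_zero hf).eventually (Iio_mem_nhds hρ)).exists
  exact ⟨F, fun G hG => (finset_le_tsum {a | a ∉ F} f hG).trans (le_of_lt hF)⟩

/-- The edges leaving a vertex. -/
theorem card_edges_at {E : Finset (Sym2 S.V)} (hE : (E : Set (Sym2 S.V)) ⊆ S.G.edgeSet) {D : ℕ}
    (hD : ∀ x, (S.G.neighborFinset x).card ≤ D) (u : S.V) (E' : Finset (Sym2 S.V)) (hE' : E' ⊆ E)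
    (hu : ∀ e ∈ E', u ∈ e) : E'.card ≤ D := by
  classical
  refine (Finset.card_le_card (t := (S.G.neighborFinset u).image fun y => s(u, y))
    fun e he => ?_).trans (Finset.card_image_le.trans (hD u))
  obtain ⟨y, rfl⟩ := Sym2.mem_iff_exists.1 (hu e he)
  refine Finset.mem_image.2 ⟨y, ?_, rfl⟩
  rw [SimpleGraph.mem_neighborFinset]
  exact SimpleGraph.mem_edgeSet _ |>.1 (hE (hE' he))

theorem card_touch_le {E : Finset (Sym2 S.V)} (hE : (E : Set (Sym2 S.V)) ⊆ S.G.edgeSet) {D : ℕ}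
    (hD : ∀ x, (S.G.neighborFinset x).card ≤ D) (T : Finset S.V) :
    (touch E T).card ≤ T.card * D := by
  classical
  refine (Finset.card_le_card (t := T.biUnion fun v => E.filter fun e => v ∈ e) ?_).trans ?_
  · intro e he
    obtain ⟨heE, v, hv, hvT⟩ := Finset.mem_filter.1 he
    exact Finset.mem_biUnion.2 ⟨v, hvT, Finset.mem_filter.2 ⟨heE, hv⟩⟩
  · refine Finset.card_biUnion_le_card_mul _ _ D fun v _ => ?_
    exact card_edges_at hE hD v _ (Finset.filter_subset _ _) fun e he => (Finset.mem_filter.1 he).2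

/-- Translated sets surrounded by a layer have small exit sums. -/
theorem exitSum_le_tail {p : ℝ} (hp0 : 0 ≤ p) (hp1 : p ≤ 1) {E : Finset (Sym2 S.V)}
    (hE : (E : Set (Sym2 S.V)) ⊆ S.G.edgeSet) {D : ℕ}
    (hD : ∀ x, (S.G.neighborFinset x).card ≤ D) (γ : S.Γ) (o : S.V) (F N : Finset S.V)
    (hFN : F ⊆ N) (hN : ∀ v ∈ F, ∀ y, S.G.Adj v y → y ∈ N) {ρ : ℝ} (hρ : 0 ≤ ρ)
    (hF : ∑ a ∈ N.filter (· ∉ F), S.tt p o a ≤ ENNReal.ofReal ρ) :
    exitSum p E (N.image (S.act γ)) (S.act γ o) ≤ D * ρ := by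
  classical
  set T := N.image (S.act γ) with hT
  set G := N.filter (· ∉ F) with hG
  set b : S.V → ℝ := fun u => PE p (insideF E T) (fun ω => Conn ω (S.act γ o) u) with hbdef
  have hb : ∀ u, 0 ≤ b u := fun u => PE_nonneg hp0 hp1 _
  have hout : ∀ u ∈ F, (outE E T (S.act γ u)).card = 0 := by
    intro u hu
    refine Finset.card_eq_zero.2 (Finset.eq_empty_of_forall_notMem fun e he => ?_)
    obtain ⟨heE, hue, v, hve, hvT⟩ := mem_outE.1 he
    obtain ⟨y, rfl⟩ := Sym2.mem_iff_exists.1 hue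
    have hadj : S.G.Adj (S.act γ u) y := hE heE
    have hy : (S.act γ).symm y ∈ N := by
      refine hN u hu _ ((adj_act γ).1 ?_)
      rwa [Equiv.apply_symm_apply]
    have hyT : y ∈ T := Finset.mem_image.2 ⟨_, hy, Equiv.apply_symm_apply _ y⟩
    have huT : u ∈ N → S.act γ u ∈ T := fun h => Finset.mem_image_of_mem _ h
    rcases Sym2.mem_iff.1 hve with h1 | h1
    · exact hvT (h1 ▸ huT (hFN hu))
    · exact hvT (h1 ▸ hyT)
  have h1 : exitSum p E T (S.act γ o) ≤ ∑ u ∈ G, (D : ℝ) * b (S.act γ u) := by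
    rw [exitSum_eq, hT, Finset.sum_image fun a _ a' _ h => (S.act γ).injective h,
      ← Finset.sum_subset (Finset.filter_subset (· ∉ F) N) fun u hu hu' => ?_]
    · refine Finset.sum_le_sum fun u _ => mul_le_mul ?_ (mul_le_of_le_one_left (hb _) hp1)
        (mul_nonneg hp0 (hb _)) (Nat.cast_nonneg _)
      exact Nat.cast_le.2 (card_edges_at hE hD _ _
        (fun e he => (mem_outE.1 he).1) fun e he => (mem_outE.1 he).2.1)
    · have huF : u ∈ F := by
        by_contra hcon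
        exact hu' (Finset.mem_filter.2 ⟨hu, hcon⟩)
      rw [hout u huF, Nat.cast_zero, zero_mul]
  have h2 : ∑ u ∈ G, b (S.act γ u) ≤ ρ := by
    rw [← ENNReal.ofReal_le_ofReal_iff hρ, ENNReal.ofReal_sum_of_nonneg fun u _ => hb _]
    refine le_trans (Finset.sum_le_sum fun u _ => ?_) hF
    rw [← tt_act_reach γ p o u]
    refine le_trans (le_of_eq ?_) (ofReal_PE_le_tauT p (E := insideF E T)
      ((Finset.coe_subset.2 (insideF_subset E T)).trans hE) (S.act γ o) {S.act γ u})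
    simp only [hbdef, connTo_singleton]
  rw [← Finset.mul_sum] at h1
  exact h1.trans (mul_le_mul_of_nonneg_left h2 (Nat.cast_nonneg _))

/-- Bounded sets with small exit sums below the threshold. -/
theorem exists_exit_small {p : ℝ} (hp0 : 0 ≤ p) (hp1 : p ≤ 1) (hchi : ∀ x, S.chi p x ≠ ⊤) :
    ∃ B : ℕ, ∀ (E : Finset (Sym2 S.V)), (E : Set (Sym2 S.V)) ⊆ S.G.edgeSet → ∀ x,
      ∃ T : Finset S.V, x ∈ T ∧ T.card ≤ B ∧ (touch E T).card ≤ B ∧
        exitSum p E T x ≤ 1 / 2 := by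
  classical
  obtain ⟨D, hD⟩ : ∃ D, ∀ x, (S.G.neighborFinset x).card ≤ D := ⟨_, card_nbr_le⟩
  obtain ⟨ρ, hρ, hρD⟩ : ∃ ρ : ℝ, 0 < ρ ∧ (D : ℝ) * ρ ≤ 1 / 2 := by
    refine ⟨1 / (2 * ((D : ℝ) + 1)), by positivity, ?_⟩
    rw [mul_one_div, div_le_div_iff₀ (by positivity) two_pos]
    linarith
  have hF : ∀ i : Fin S.k, ∃ F : Finset S.V, S.one i ∈ F ∧ ∀ G : Finset S.V,
      (∀ a ∈ G, a ∉ F) → ∑ a ∈ G, S.tt p (S.one i) a ≤ ENNReal.ofReal ρ := fun i => by
    obtain ⟨F, hF⟩ := exists_tail_small _ (hchi (S.one i)) (ENNReal.ofReal_pos.2 hρ)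
    exact ⟨insert (S.one i) F, Finset.mem_insert_self _ _,
      fun G hG => hF G fun a ha h => hG a ha (Finset.mem_insert_of_mem h)⟩
  choose F hF1 hF using hF
  let N : Fin S.k → Finset S.V := fun i =>
    F i ∪ (F i).biUnion fun v => S.G.neighborFinset v
  refine ⟨(∑ i, (N i).card) * (D + 1), fun E hE x => ⟨(N x.2).image (S.act x.1), ?_, ?_, ?_, ?_⟩⟩
  · exact Finset.mem_image.2 ⟨S.one x.2, Finset.mem_union_left _ (hF1 _), act_one x⟩
  · refine Finset.card_image_le.trans ?_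
    exact (Finset.single_le_sum (f := fun i => (N i).card) (fun i _ => Nat.zero_le _)
      (Finset.mem_univ x.2)).trans (Nat.le_mul_of_pos_right _ (Nat.succ_pos _))
  · refine (card_touch_le hE hD _).trans (Nat.mul_le_mul ?_ (Nat.le_succ D))
    exact Finset.card_image_le.trans (Finset.single_le_sum (f := fun i => (N i).card)
      (fun i _ => Nat.zero_le _) (Finset.mem_univ x.2))
  · have h := exitSum_le_tail hp0 hp1 hE hD x.1 (S.one x.2) (F x.2) (N x.2)
      Finset.subset_union_left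
      (fun v hv y hy => Finset.mem_union_right _
        (Finset.mem_biUnion.2 ⟨v, hv, (SimpleGraph.mem_neighborFinset _ _ _).2 hy⟩))
      hρ.le (hF x.2 _ fun a ha => (Finset.mem_filter.1 ha).2)
    rw [act_one] at h
    exact h.trans hρD

/-- Exponential cluster moments below the threshold. -/
theorem exp_moment {p : ℝ} (hp0 : 0 ≤ p) (h : p < S.pT) :
    ∃ h₀ t : ℝ, 0 < h₀ ∧ ∀ (E : Finset (Sym2 S.V)), (E : Set (Sym2 S.V)) ⊆ S.G.edgeSet →
      ∀ x, EE p E (fun ω => Real.exp (h₀ * (clF ω x).card)) ≤ Real.exp t := by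
  obtain ⟨hp1, hchi⟩ := chi_ne_top hp0 h
  obtain ⟨B, hB⟩ := exists_exit_small hp0 hp1 hchi
  obtain ⟨h₀, t, hh₀, -, ht⟩ := exp_tail (V := S.V) hp0 hp1
    (by norm_num : (0 : ℝ) ≤ 1 / 2) (by norm_num : (1 / 2 : ℝ) < 1) B
  exact ⟨h₀, t, hh₀, fun E hE x => ht E
    (fun e he => S.G.not_isDiag_of_mem_edgeSet (hE he)) (hB E hE) x⟩

/-- A vertex above `w` reaches the boundary of the cone of `w * u` about as well as the ports
reach that of `u`. -/
theorem reach_one (hG : S.Geom R c L) {p : ℝ} (hp0 : 0 ≤ p) (hp1 : p ≤ 1) :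
    ∃ ℓ : ℕ, ∀ w u, InW L w → ∀ a ∈ S.fib w,
      ENNReal.ofReal (p ^ ℓ) * S.qlo L p u ≤ tauT p (S.EH L 1) a (S.Port L (w * u)) := by
  have hL : 0 < L := by have := hG.big; omega
  obtain ⟨z₀, hz₀⟩ := exists_port hG
  obtain ⟨c₀, hc₀⟩ := port_link hG
  obtain ⟨y, hy, -, wzy, hwlen, hwE⟩ := hc₀ z₀ hz₀ z₀.2
  refine ⟨c * (1 + L) + c₀, fun w u hw a ha => ?_⟩
  have hπ : S.π a = w := ha
  obtain ⟨hWv, hpre, hword⟩ := InW.mul hL hw (genA_pow_inW hL)
  obtain ⟨y', hy', hj', way, haylen, hayE⟩ := deep_link hG y.2 (x := a) (v := w * genA ^ L)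
    (hπ.symm ▸ hw.1) hWv.1 (Or.inl (hπ.symm ▸ hpre))
  set γ := y'.1 * y.1⁻¹ with hγ
  have hγy : S.act γ y = y' := by
    refine Prod.ext ?_ ?_
    · simp [act, hγ]
    · simp [act, hj']
  have hφ : S.φ γ = w := by
    have h1 : S.φ y'.1 = w * genA ^ L := hy'
    have h2 : S.φ y.1 = genA ^ L := hy
    rw [hγ, map_mul, map_inv, h1, h2, mul_inv_cancel_right]
  let f : S.G →g S.G := ⟨S.act γ, fun {_ _} h => (adj_act γ).2 h⟩
  set wzy' : S.G.Walk y' (S.act γ z₀) := (wzy.map f).reverse.copy hγy rfl with hwzy'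
  have hEw : ∀ e ∈ (way.append wzy').edges, e ∈ S.EH L 1 := by
    intro e he
    rw [SimpleGraph.Walk.edges_append, List.mem_append] at he
    rcases he with he | he
    · exact hayE e he
    · rw [hwzy', SimpleGraph.Walk.edges_copy, SimpleGraph.Walk.edges_reverse, List.mem_reverse,
        SimpleGraph.Walk.edges_map, List.mem_map] at he
      obtain ⟨d, hd, rfl⟩ := he
      refine EH_mono hG hw ?_
      rw [show w = S.φ γ * 1 by rw [hφ, mul_one], ← act_EH]
      exact ⟨d, hwE d hd, rfl⟩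
  have hlen : (way.append wzy').length ≤ c * (1 + L) + c₀ := by
    rw [SimpleGraph.Walk.length_append]
    refine Nat.add_le_add (haylen.trans (Nat.mul_le_mul_left c ?_)) ?_
    · rw [hπ]
      have : len (w * genA ^ L) = len w + L := by
        rw [len, hword, List.length_append, toWord_genA_pow, List.length_replicate, len]
      omega
    · simpa [hwzy'] using hwlen
  have hz : S.qlo L p u ≤ tauT p (S.EH L 1) (S.act γ z₀) (S.Port L (w * u)) := by
    refine le_trans (iInf_le (fun z : S.Port L 1 => S.Pz L p u (z : S.V)) ⟨z₀, hz₀⟩) ?_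
    refine le_trans (le_of_eq (tauT_map p (S.act γ) (S.EH L 1) z₀ (S.Port L u)).symm) ?_
    rw [act_Port, act_EH, hφ, mul_one]
    exact tauT_mono hp0 hp1 (EH_mono hG hw) subset_rfl
  exact (mul_le_mul' (ENNReal.ofReal_le_ofReal (pow_le_pow_of_le_one hp0 hp1 hlen)) hz).trans
    (walk_mul_tauT hp0 hp1 (way.append wzy') hEw)

/-- The sum over pairs of the chance that both reach a set, through cluster sizes. -/
theorem pair_sum_le {p h₀ t : ℝ} (hp0 : 0 ≤ p) (hp1 : p ≤ 1) (hh₀ : 0 < h₀)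
    {E : Finset (Sym2 S.V)}
    (hexp : ∀ x, EE p E (fun ω => Real.exp (h₀ * (clF ω x).card)) ≤ Real.exp t)
    (A : Finset S.V) (T : Set S.V) {K : ℝ} (hK : 0 ≤ K) :
    ∑ a ∈ A, ∑ b ∈ A, PE p E (fun ω => ConnTo ω a T ∧ ConnTo ω b T) ≤
      (∑ a ∈ A, PE p E fun ω => ConnTo ω a T) ^ 2 + K * (∑ a ∈ A, PE p E fun ω => ConnTo ω a T)
        + A.card * (2 / h₀ * Real.exp (-(h₀ * K / 2)) * Real.exp t) := by
  classical
  have hpair : ∀ a b, PE p E (fun ω => ConnTo ω a T ∧ ConnTo ω b T) ≤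
      PE p E (fun ω => ConnTo ω a T) * PE p E (fun ω => ConnTo ω b T) +
        PE p E (fun ω => Conn ω a b ∧ ConnTo ω a T) := by
    intro a b
    refine (PE_mono hp0 hp1 (B := fun ω => Box (fun s => ConnTo s a T) (fun s => ConnTo s b T) ω ∨
      (Conn ω a b ∧ ConnTo ω a T)) fun ω _ hab => ?_).trans ?_
    · by_cases hc : Conn ω a b
      · exact Or.inr ⟨hc, hab.1⟩
      · exact Or.inl (box_of_not_conn hab.1 hab.2 hc)
    · exact (PE_or_le hp0 hp1 _ _).trans
        (add_le_add (bk hp0 hp1 (incr_connTo a T) (incr_connTo b T)) le_rfl)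
  have hsame : ∀ a, ∑ b ∈ A, PE p E (fun ω => Conn ω a b ∧ ConnTo ω a T) ≤
      K * PE p E (fun ω => ConnTo ω a T) +
        2 / h₀ * Real.exp (-(h₀ * K / 2)) * Real.exp t := by
    intro a
    have h1 : ∑ b ∈ A, PE p E (fun ω => Conn ω a b ∧ ConnTo ω a T) =
        EE p E (fun ω => ∑ b ∈ A, ind (Conn ω a b ∧ ConnTo ω a T)) := (EE_sum p E A _).symm
    have h2 := mul_le_mul_of_nonneg_left (hexp a)
      (show 0 ≤ 2 / h₀ * Real.exp (-(h₀ * K / 2)) by positivity)
    rw [← EE_mul_left] at h2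
    rw [h1, PE, ← EE_mul_left]
    refine le_trans ?_ (add_le_add le_rfl h2)
    rw [← EE_add]
    refine EE_mono hp0 hp1 fun ω _ => ?_
    set n := (clF ω a).card with hn
    have hrest : 0 ≤ 2 / h₀ * Real.exp (-(h₀ * K / 2)) * Real.exp (h₀ * n) := by positivity
    by_cases hA : ConnTo ω a T
    · have hle : ∑ b ∈ A, ind (Conn ω a b ∧ ConnTo ω a T) ≤ n := by
        refine le_trans (le_of_eq ?_) (Nat.cast_le.2 (Finset.card_le_card
          (s := A.filter fun b => Conn ω a b) (t := clF ω a)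
          fun b hb => mem_clF.2 (Finset.mem_filter.1 hb).2))
        rw [← Finset.sum_boole]
        refine Finset.sum_congr rfl fun b _ => ?_
        unfold ind
        split_ifs <;> simp_all
      rw [ind_of hA, mul_one]
      rcases le_or_gt (n : ℝ) K with hnK | hnK
      · linarith
      · refine hle.trans (le_trans ?_ (le_add_of_nonneg_left hK))
        have h3 : (n : ℝ) ≤ 2 / h₀ * Real.exp (h₀ * n / 2) := by
          rw [div_mul_eq_mul_div, le_div_iff₀ hh₀]
          have := Real.add_one_le_exp (h₀ * n / 2)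
          nlinarith
        refine h3.trans ?_
        rw [mul_assoc, ← Real.exp_add]
        refine mul_le_mul_of_nonneg_left (Real.exp_le_exp.2 ?_) (by positivity)
        nlinarith
    · refine le_trans (le_of_eq (Finset.sum_eq_zero fun b _ => ind_of_not fun h => hA h.2)) ?_
      exact add_nonneg (mul_nonneg hK (ind_nonneg _)) hrest
  calc ∑ a ∈ A, ∑ b ∈ A, PE p E (fun ω => ConnTo ω a T ∧ ConnTo ω b T)
      ≤ ∑ a ∈ A, ∑ b ∈ A, (PE p E (fun ω => ConnTo ω a T) * PE p E (fun ω => ConnTo ω b T) +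
          PE p E (fun ω => Conn ω a b ∧ ConnTo ω a T)) :=
        Finset.sum_le_sum fun a _ => Finset.sum_le_sum fun b _ => hpair a b
    _ ≤ ∑ a ∈ A, ((PE p E fun ω => ConnTo ω a T) * (∑ b ∈ A, PE p E fun ω => ConnTo ω b T) +
          (K * PE p E (fun ω => ConnTo ω a T) +
            2 / h₀ * Real.exp (-(h₀ * K / 2)) * Real.exp t)) := by
        refine Finset.sum_le_sum fun a _ => ?_
        rw [Finset.sum_add_distrib, ← Finset.mul_sum]
        exact add_le_add le_rfl (hsame a)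
    _ = _ := by
        simp only [Finset.sum_add_distrib, ← Finset.sum_mul, ← Finset.mul_sum, Finset.sum_const,
          nsmul_eq_mul]
        ring

/-- Many vertices above `w` reach far beyond it at `p₀` with a good chance. -/
theorem union_reach (hG : S.Geom R c L) {p₀ : ℝ} (hp₀ : 0 < p₀) (h : p₀ < S.pT) {δ : ℝ}
    (hδ : 0 < δ) {c₁ : ℝ} (hc₁ : 0 < c₁) :
    ∃ κ : ℝ, 0 < κ ∧ ∀ w u, InW L w → InW L u → ∀ A : Finset S.V, (∀ a ∈ A, a ∈ S.fib w) →
      ∀ η : ℝ, c₁ ≤ η * A.card → ENNReal.ofReal η ≤ S.qlo L p₀ u →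
        ∃ E : Finset (Sym2 S.V), (E : Set (Sym2 S.V)) ⊆ S.EH L 1 ∧
          κ * (A.card : ℝ) ^ (-δ) ≤
            PE p₀ E fun ω => ConnSet ω A (S.Port L (w * u)) := by
  classical
  have hp1 : p₀ ≤ 1 := (chi_ne_top hp₀.le h).1
  obtain ⟨h₀, t, hh₀, hexp⟩ := exp_moment hp₀.le h
  obtain ⟨ℓ, hℓ⟩ := reach_one hG hp₀.le hp1
  obtain ⟨m, hm⟩ : ∃ m : ℕ, 1 / δ ≤ m := ⟨_, Nat.le_ceil _⟩
  set m₀ := p₀ ^ ℓ * c₁ / 2 with hm₀
  have hm₀pos : 0 < m₀ := by positivity
  set B := m.factorial * (2 / h₀) ^ m * (2 / h₀ * Real.exp t) with hB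
  have hBpos : 0 ≤ B := by positivity
  set Z := 1 + 1 / m₀ + B / m₀ ^ 2 with hZ
  have hZpos : 0 < Z := by positivity
  refine ⟨1 / Z, by positivity, fun w u hw _ A hA η hη hq => ?_⟩
  set T := S.Port L (w * u) with hT
  have hN : 0 < A.card := by
    rcases Nat.eq_zero_or_pos A.card with h0 | h0
    · rw [h0, Nat.cast_zero, mul_zero] at hη; linarith
    · exact h0
  have hN1 : (1 : ℝ) ≤ A.card := by exact_mod_cast hN
  have hηpos : 0 < η := pos_of_mul_pos_left (hc₁.trans_le hη) (Nat.cast_nonneg _)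
  have hex : ∀ a ∈ A, ∃ E : Finset (Sym2 S.V), (E : Set (Sym2 S.V)) ⊆ S.EH L 1 ∧
      p₀ ^ ℓ * η / 2 ≤ PE p₀ E fun ω => ConnTo ω a T := by
    intro a ha
    have h1 : ENNReal.ofReal (p₀ ^ ℓ * η / 2) < tauT p₀ (S.EH L 1) a T := by
      refine lt_of_lt_of_le ?_ ((mul_le_mul_right hq _).trans (hℓ w u hw a (hA a ha)))
      rw [← ENNReal.ofReal_mul (by positivity)]
      exact (ENNReal.ofReal_lt_ofReal_iff (by positivity)).2 (by
        have : 0 < p₀ ^ ℓ * η := by positivity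
        linarith)
    obtain ⟨⟨E, hE⟩, hlt⟩ := lt_iSup_iff.1 h1
    exact ⟨E, hE, (ENNReal.lt_ofReal_iff_toReal_lt ENNReal.ofReal_ne_top).1 hlt |>.le.trans'
      (le_of_eq (ENNReal.toReal_ofReal (by positivity)).symm)⟩
  choose! Ea hEa hPa using hex
  set E := A.biUnion Ea with hEdef
  have hE : (E : Set (Sym2 S.V)) ⊆ S.EH L 1 := by
    intro e he
    obtain ⟨a, ha, he⟩ := Finset.mem_biUnion.1 (Finset.mem_coe.1 he)
    exact hEa a ha he
  refine ⟨E, hE, ?_⟩
  set μ := ∑ a ∈ A, PE p₀ E fun ω => ConnTo ω a T with hμ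
  have hμge : m₀ ≤ μ := by
    refine le_trans ?_ (Finset.card_nsmul_le_sum A _ (p₀ ^ ℓ * η / 2) fun a ha => (hPa a ha).trans
      (PE_mono_set hp₀.le hp1 (incr_connTo a T) (Finset.subset_biUnion_of_mem Ea ha)))
    rw [nsmul_eq_mul, hm₀]
    have := mul_le_mul_of_nonneg_left hη (pow_nonneg hp₀.le ℓ)
    linarith
  have hμpos : 0 < μ := hm₀pos.trans_le hμge
  set K := (A.card : ℝ) ^ δ with hK
  have hK1 : 1 ≤ K := Real.one_le_rpow hN1 hδ.le
  have htail : (A.card : ℝ) * (2 / h₀ * Real.exp (-(h₀ * K / 2)) * Real.exp t) ≤ B := by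
    have h1 : (A.card : ℝ) ≤ K ^ m := by
      rw [hK, ← Real.rpow_natCast, ← Real.rpow_mul (by linarith)]
      calc (A.card : ℝ) = (A.card : ℝ) ^ (1 : ℝ) := (Real.rpow_one _).symm
        _ ≤ _ := Real.rpow_le_rpow_of_exponent_le hN1 (by
          rw [div_le_iff₀ hδ] at hm; linarith)
    have h2 : (A.card : ℝ) * Real.exp (-(h₀ * K / 2)) ≤ m.factorial * (2 / h₀) ^ m := by
      have h3 := Real.pow_div_factorial_le_exp (h₀ * K / 2) (by positivity) m
      rw [Real.exp_neg, ← div_eq_mul_inv, div_le_iff₀ (Real.exp_pos _)]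
      refine h1.trans (le_trans (le_of_eq ?_) (mul_le_mul_of_nonneg_left h3 (by positivity)))
      rw [div_pow, div_pow, mul_pow]
      field_simp
    calc (A.card : ℝ) * (2 / h₀ * Real.exp (-(h₀ * K / 2)) * Real.exp t)
        = (A.card : ℝ) * Real.exp (-(h₀ * K / 2)) * (2 / h₀ * Real.exp t) := by ring
      _ ≤ B := mul_le_mul_of_nonneg_right h2 (by positivity)
  have hM := (pair_sum_le (t := t) hp₀.le hp1 hh₀
    (fun x => hexp E (hE.trans (EH_subset L 1)) x) A T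
    (zero_le_one.trans hK1)).trans (add_le_add le_rfl htail)
  have hsm := second_moment hp₀.le hp1 A (fun a ω => ConnTo ω a T) μ
    (μ ^ 2 + K * μ + B) hμ hM
  set P := PE p₀ E fun ω => ConnSet ω A T with hP
  have hP0 : 0 ≤ P := PE_nonneg hp₀.le hp1 _
  have hbound : μ ^ 2 + K * μ + B ≤ μ ^ 2 * (K * Z) := by
    have e1 : K * μ ≤ μ ^ 2 * (K * (1 / m₀)) := by
      have : 1 ≤ μ / m₀ := (one_le_div hm₀pos).2 hμge
      calc K * μ = K * μ * 1 := (mul_one _).symm
        _ ≤ K * μ * (μ / m₀) := mul_le_mul_of_nonneg_left this (by positivity)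
        _ = _ := by ring
    have e2 : B ≤ μ ^ 2 * (K * (B / m₀ ^ 2)) := by
      have : 1 ≤ μ ^ 2 / m₀ ^ 2 * K := one_le_mul_of_one_le_of_one_le
        ((one_le_div (by positivity)).2 (pow_le_pow_left₀ hm₀pos.le hμge 2)) hK1
      calc B = B * 1 := (mul_one _).symm
        _ ≤ B * (μ ^ 2 / m₀ ^ 2 * K) := mul_le_mul_of_nonneg_left this hBpos
        _ = _ := by ring
    have e3 : μ ^ 2 ≤ μ ^ 2 * K := le_mul_of_one_le_right (sq_nonneg μ) hK1
    calc μ ^ 2 + K * μ + B ≤ μ ^ 2 * K + μ ^ 2 * (K * (1 / m₀)) + μ ^ 2 * (K * (B / m₀ ^ 2)) :=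
        add_le_add (add_le_add e3 e1) e2
      _ = _ := by rw [hZ]; ring
  have hfin : 1 ≤ K * Z * P := by
    have h4 : μ ^ 2 * 1 ≤ μ ^ 2 * (K * Z * P) := by
      rw [mul_one, ← mul_assoc]
      exact hsm.trans (mul_le_mul_of_nonneg_right hbound hP0)
    exact le_of_mul_le_mul_left h4 (by positivity)
  rw [Real.rpow_neg (by positivity), ← hK, one_div, ← mul_inv, inv_le_iff_one_le_mul₀' (by positivity)]
  linarith

end Setting

end Vale.Agent.P165.Tree
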