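import Vale.Agent.P165.Tree.Words
import Vale.Agent.P165.Tree.Tau

/-!
# Free cocompact actions over the free group (P165, tree quotient)
-/

namespace Vale.Agent.P165.Tree

universe u

/-- A connected graph on `Γ × Fin k`, invariant under left multiplication, with a surjection
of `Γ` onto the free group. -/
structure Setting where
  Γ : Type u
  [grp : Group Γ]
  k : ℕ
  G : SimpleGraph (Γ × Fin k)
  nbrFin : ∀ x, (G.neighborSet x).Finite
  conn : G.Connected
  inv : ∀ (γ a b : Γ) (i j : Fin k), G.Adj (γ * a, i) (γ * b, j) ↔ G.Adj (a, i) (b, j)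
  φ : Γ →* F2
  surj : Function.Surjective φ

namespace Setting

attribute [instance] Setting.grp

variable (S : Setting.{u})

/-- The vertices. -/
abbrev V : Type u := S.Γ × Fin S.k

noncomputable instance instDecV : DecidableEq S.V := Classical.decEq _

noncomputable instance instLF : S.G.LocallyFinite := fun x => (S.nbrFin x).fintype

/-- The projection to the free group. -/
def π (x : S.V) : F2 := S.φ x.1

/-- The action. -/
def act (γ : S.Γ) : S.V ≃ S.V := Equiv.prodCongr (Equiv.mulLeft γ) (Equiv.refl _)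

/-- A base vertex of each orbit. -/
def one (i : Fin S.k) : S.V := (1, i)

/-- The vertices above `v`. -/
def fib (v : F2) : Set S.V := {x | S.π x = v}

/-- Joined inside the cone of `g` to its deep part. -/
def InH (L : ℕ) (g : F2) (x : S.V) : Prop :=
  ∃ y, ∃ w : S.G.Walk x y, Deep L (g⁻¹ * S.π y) ∧ ∀ z ∈ w.support, InK (g⁻¹ * S.π z)

/-- The edges inside the half space of `g`. -/
def EH (L : ℕ) (g : F2) : Set (Sym2 S.V) :=
  {e | e ∈ S.G.edgeSet ∧ ∀ z ∈ e, S.InH L g z}

/-- The boundary of the half space of `g`. -/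
def Port (L : ℕ) (g : F2) : Set S.V :=
  {x | S.InH L g x ∧ ∃ y, S.G.Adj x y ∧ ¬ InK (g⁻¹ * S.π y)}

/-- Lipschitz, link and depth constants. -/
structure Geom (R c L : ℕ) : Prop where
  lip : ∀ x y, S.G.Adj x y → len ((S.π x)⁻¹ * S.π y) ≤ R
  link : ∀ (x : S.V) (j : Fin S.k) (g : F2), len g ≤ 1 →
    ∃ y, S.π y = S.π x * g ∧ y.2 = j ∧ ∃ w : S.G.Walk x y, w.length ≤ c ∧
      ∀ z ∈ w.support, len ((S.π x)⁻¹ * S.π z) ≤ c
  big : c + R + 2 ≤ L

variable {S}

theorem π_act (γ : S.Γ) (x : S.V) : S.π (S.act γ x) = S.φ γ * S.π x := by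
  simp [π, act]

theorem adj_act (γ : S.Γ) {x y : S.V} : S.G.Adj (S.act γ x) (S.act γ y) ↔ S.G.Adj x y :=
  S.inv γ x.1 y.1 x.2 y.2

theorem act_act (γ δ : S.Γ) (x : S.V) : S.act γ (S.act δ x) = S.act (γ * δ) x := by
  exact Prod.ext (mul_assoc γ δ x.1).symm rfl

theorem act_inv_act (γ : S.Γ) (x : S.V) : S.act γ⁻¹ (S.act γ x) = x := by
  exact Prod.ext (inv_mul_cancel_left γ x.1) rfl

theorem act_act_inv (γ : S.Γ) (x : S.V) : S.act γ (S.act γ⁻¹ x) = x := by
  exact Prod.ext (mul_inv_cancel_left γ x.1) rfl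

theorem act_self_one (x : S.V) : S.act x.1 (S.one x.2) = x := by
  simp [act, one]

/-- The action as a graph endomorphism. -/
def actHom (γ : S.Γ) : S.G →g S.G := ⟨S.act γ, fun h => (adj_act γ).2 h⟩

/-- The translate of a walk. -/
def actWalk (γ : S.Γ) {x y : S.V} (w : S.G.Walk x y) : S.G.Walk (S.act γ x) (S.act γ y) :=
  w.map (actHom γ)

theorem mem_support_actWalk {γ : S.Γ} {x y z : S.V} {w : S.G.Walk x y}
    (h : z ∈ (actWalk γ w).support) : ∃ z' ∈ w.support, S.act γ z' = z := by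
  have h' : z ∈ w.support.map (actHom γ) :=
    (SimpleGraph.Walk.support_map (f := actHom γ) (p := w)) ▸ h
  exact List.mem_map.1 h'

theorem mem_edges_actWalk {γ : S.Γ} {x y : S.V} {e : Sym2 S.V} {w : S.G.Walk x y}
    (h : e ∈ (actWalk γ w).edges) : ∃ e' ∈ w.edges, Sym2.map (S.act γ) e' = e := by
  have h' : e ∈ w.edges.map (Sym2.map (actHom γ)) :=
    (SimpleGraph.Walk.edges_map (f := actHom γ) (p := w)) ▸ h
  exact List.mem_map.1 h'

theorem length_actWalk (γ : S.Γ) {x y : S.V} (w : S.G.Walk x y) :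
    (actWalk γ w).length = w.length := SimpleGraph.Walk.length_map _ _

theorem inH_act_of {L : ℕ} {γ : S.Γ} {g : F2} {x : S.V} (h : S.InH L g x) :
    S.InH L (S.φ γ * g) (S.act γ x) := by
  obtain ⟨y, w, hy, hs⟩ := h
  refine ⟨S.act γ y, actWalk γ w, ?_, ?_⟩
  · simpa [π_act, mul_assoc] using hy
  · intro z hz
    obtain ⟨z', hz', rfl⟩ := mem_support_actWalk hz
    simpa [π_act, mul_assoc] using hs z' hz'

theorem inH_act {L : ℕ} {γ : S.Γ} {g : F2} {x : S.V} :
    S.InH L (S.φ γ * g) (S.act γ x) ↔ S.InH L g x := by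
  refine ⟨fun h => ?_, inH_act_of⟩
  have := inH_act_of (γ := γ⁻¹) h
  rwa [act_inv_act, map_inv, inv_mul_cancel_left] at this

theorem InH.inK {L : ℕ} {g : F2} {x : S.V} (h : S.InH L g x) : InK (g⁻¹ * S.π x) := by
  obtain ⟨y, w, -, hs⟩ := h
  exact hs x w.start_mem_support

/-- A neighbour inside the cone of a vertex of the half space is in the half space. -/
theorem InH.step {L : ℕ} {g : F2} {x y : S.V} (h : S.InH L g x) (ha : S.G.Adj y x)
    (hy : InK (g⁻¹ * S.π y)) : S.InH L g y := by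
  obtain ⟨z, w, hz, hs⟩ := h
  refine ⟨z, .cons ha w, hz, fun u hu => ?_⟩
  rw [SimpleGraph.Walk.support_cons, List.mem_cons] at hu
  rcases hu with rfl | hu
  · exact hy
  · exact hs u hu

/-- A walk inside the cone from the half space stays in the half space. -/
theorem inH_of_walk {L : ℕ} {g : F2} {x y : S.V} (w : S.G.Walk x y) (hx : S.InH L g x)
    (hs : ∀ z ∈ w.support, InK (g⁻¹ * S.π z)) : ∀ e ∈ w.edges, e ∈ S.EH L g := by
  induction w with
  | nil => simp
  | @cons a b d hab w ih =>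
    simp only [SimpleGraph.Walk.support_cons, List.mem_cons, forall_eq_or_imp] at hs
    have hb : S.InH L g b := hx.step hab.symm (hs.2 b w.start_mem_support)
    intro e he
    rw [SimpleGraph.Walk.edges_cons, List.mem_cons] at he
    rcases he with rfl | he
    · refine ⟨hab, fun z hz => ?_⟩
      rcases Sym2.mem_iff.1 hz with rfl | rfl
      exacts [hx, hb]
    · exact ih hb hs.2 e he

theorem exists_port_on_walk {L : ℕ} {g : F2} {x y : S.V} (w : S.G.Walk x y) (hx : S.InH L g x)
    (hy : ¬ InK (g⁻¹ * S.π y)) : ∃ z, z ∈ S.Port L g := by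
  induction w with
  | nil => exact absurd hx.inK hy
  | @cons a b d hab w ih =>
    by_cases hb : InK (g⁻¹ * S.π b)
    · exact ih (hx.step hab.symm hb) hy
    · exact ⟨a, hx, b, hab, hb⟩

/-- Close to a deep word is still in the cone. -/
theorem inK_of_near {L : ℕ} {u v : F2} (hu : Deep L u) (hd : len (u⁻¹ * v) < L) : InK v := by
  by_contra hv
  have := len_out (hu.inK (by omega)) hv
  have := hu.le_len
  omega

theorem exists_parent {u v : F2} (h : Pre u v) (hne : u ≠ v) :
    ∃ v', Pre u v' ∧ Pre v' v ∧ len v' + 1 = len v ∧ len (v'⁻¹ * v) = 1 := by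
  obtain ⟨r, hr⟩ := h
  rcases List.eq_nil_or_concat r with rfl | ⟨r', s, rfl⟩
  · exact absurd (FreeGroup.toWord_injective (by simpa using hr)) hne
  have e : v.toWord = (u.toWord ++ r') ++ [s] := by rw [← hr]; simp
  have hred : FreeGroup.IsReduced ((u.toWord ++ r') ++ [s]) := e ▸ FreeGroup.isReduced_toWord
  have e' : (FreeGroup.mk (u.toWord ++ r')).toWord = u.toWord ++ r' :=
    toWord_mk_of_isReduced (List.isChain_append.1 hred).1
  refine ⟨FreeGroup.mk (u.toWord ++ r'), ⟨r', e'.symm⟩, ⟨[s], by rw [e', e]⟩, ?_, ?_⟩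
  · simp [len, e', e, List.length_append, add_assoc]
  · have : v = FreeGroup.mk (u.toWord ++ r') * lgen s := by
      rw [lgen, FreeGroup.mul_mk, ← e, FreeGroup.mk_toWord]
    rw [this, inv_mul_cancel_left, len_lgen]

theorem exists_geom (S : Setting.{u}) : ∃ R c L, S.Geom R c L := by
  classical
  have hball : ∀ g : F2, len g ≤ 1 → g ∈ (finite_ball 1).toFinset := fun g h =>
    (finite_ball 1).mem_toFinset.2 h
  choose γ hγ using S.surj
  have W : ∀ (i j : Fin S.k) (g : F2), S.G.Walk (S.one i) (γ g, j) := fun i j g =>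
    (S.conn (S.one i) (γ g, j)).some
  set R := ∑ i : Fin S.k, ∑ y ∈ S.G.neighborFinset (S.one i), len (S.π y) with hR
  set c := ∑ i : Fin S.k, ∑ j : Fin S.k, ∑ g ∈ (finite_ball 1).toFinset,
    ((W i j g).length + ∑ z ∈ (W i j g).support.toFinset, len (S.π z)) with hc
  refine ⟨R, c, c + R + 2, fun x y hxy => ?_, fun x j g hg => ?_, le_rfl⟩
  · have hadj : S.G.Adj (S.one x.2) (S.act x.1⁻¹ y) := by
      refine (adj_act x.1).1 ?_
      rwa [act_self_one, act_act_inv]
    have h1 : S.π (S.act x.1⁻¹ y) = (S.π x)⁻¹ * S.π y := by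
      rw [π_act, map_inv]; rfl
    rw [← h1, hR]
    refine le_trans ?_ (Finset.single_le_sum (fun i _ => Nat.zero_le _) (Finset.mem_univ x.2))
    exact Finset.single_le_sum (f := fun z => len (S.π z)) (fun z _ => Nat.zero_le _)
      ((SimpleGraph.mem_neighborFinset _ _ _).2 hadj)
  · set w := W x.2 j g
    have hbd : w.length + ∑ z ∈ w.support.toFinset, len (S.π z) ≤ c := by
      rw [hc]
      refine le_trans ?_ (Finset.single_le_sum (fun i _ => Nat.zero_le _) (Finset.mem_univ x.2))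
      refine le_trans ?_ (Finset.single_le_sum (fun i _ => Nat.zero_le _) (Finset.mem_univ j))
      exact Finset.single_le_sum (f := fun g => (W x.2 j g).length +
        ∑ z ∈ (W x.2 j g).support.toFinset, len (S.π z)) (fun i _ => Nat.zero_le _) (hball g hg)
    refine ⟨S.act x.1 (γ g, j), ?_, rfl,
      (actWalk x.1 w).copy (act_self_one x) rfl, ?_, ?_⟩
    · rw [π_act]
      exact congrArg (S.φ x.1 * ·) (hγ g)
    · rw [SimpleGraph.Walk.length_copy, length_actWalk]
      omega
    · intro z hz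
      rw [SimpleGraph.Walk.support_copy] at hz
      obtain ⟨z', hz', rfl⟩ := mem_support_actWalk hz
      rw [π_act]
      show len ((S.φ x.1)⁻¹ * (S.φ x.1 * S.π z')) ≤ c
      rw [inv_mul_cancel_left]
      exact (Finset.single_le_sum (f := fun z => len (S.π z)) (fun i _ => Nat.zero_le _)
        (List.mem_toFinset.2 hz')).trans (le_of_add_le_right hbd)

theorem infinite (S : Setting.{u}) : Infinite S.V := by
  obtain ⟨x⟩ := S.conn.nonempty
  have hinj : Function.Injective fun n : ℕ => genA ^ n := fun a b h => by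
    simpa [toWord_genA_pow] using congrArg (fun v : F2 => v.toWord.length) h
  have : Infinite F2 := Infinite.of_injective _ hinj
  have : Infinite S.Γ := Infinite.of_surjective S.φ S.surj
  exact Infinite.of_injective (fun γ => (γ, x.2)) fun a b h => (Prod.ext_iff.1 h).1

theorem EH_subset (L : ℕ) (g : F2) : S.EH L g ⊆ S.G.edgeSet := fun _ h => h.1

theorem act_EH (L : ℕ) (γ : S.Γ) (g : F2) :
    Sym2.map (S.act γ) '' S.EH L g = S.EH L (S.φ γ * g) := by
  ext e
  refine e.ind fun a b => ⟨?_, fun h => ?_⟩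
  · rintro ⟨e', he', h'⟩
    rw [← h']
    clear h'
    revert he'
    refine e'.ind fun a' b' he' => ?_
    rw [Sym2.map_mk]
    refine ⟨(adj_act γ).2 he'.1, fun z hz => ?_⟩
    rcases Sym2.mem_iff.1 hz with rfl | rfl
    exacts [inH_act_of (he'.2 a' (Sym2.mem_mk_left _ _)),
      inH_act_of (he'.2 b' (Sym2.mem_mk_right _ _))]
  · refine ⟨s(S.act γ⁻¹ a, S.act γ⁻¹ b), ⟨(adj_act γ⁻¹).2 h.1, fun z hz => ?_⟩,
      by rw [Sym2.map_mk, act_act_inv, act_act_inv]⟩
    rw [← inH_act (γ := γ)]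
    rcases Sym2.mem_iff.1 hz with rfl | rfl <;> rw [act_act_inv]
    exacts [h.2 a (Sym2.mem_mk_left _ _), h.2 b (Sym2.mem_mk_right _ _)]

theorem act_Port (L : ℕ) (γ : S.Γ) (g : F2) :
    S.act γ '' S.Port L g = S.Port L (S.φ γ * g) := by
  ext x
  constructor
  · rintro ⟨x, ⟨hx, y, hxy, hy⟩, rfl⟩
    exact ⟨inH_act_of hx, S.act γ y, (adj_act γ).2 hxy, by simpa [π_act, mul_assoc] using hy⟩
  · rintro ⟨hx, y, hxy, hy⟩
    refine ⟨S.act γ⁻¹ x, ⟨?_, S.act γ⁻¹ y, (adj_act γ⁻¹).2 hxy, ?_⟩, act_act_inv γ x⟩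
    · rw [← inH_act (γ := γ), act_act_inv]; exact hx
    · simpa [π_act, mul_assoc] using hy

theorem inH_mono {R c L : ℕ} (hG : S.Geom R c L) {w : F2} (hw : InW L w) {x : S.V}
    (h : S.InH L w x) : S.InH L 1 x := by
  obtain ⟨y, p, hy, hs⟩ := h
  have hL : 0 < L := by have := hG.big; omega
  have key : ∀ z, InK (w⁻¹ * S.π z) → Deep L (S.π z) := fun z hz =>
    hw.1.of_pre ((mem_cone_iff hw.2).1 hz)
  exact ⟨y, p, by simpa using key y (hy.inK hL),
    fun z hz => by simpa using (key z (hs z hz)).inK hL⟩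

theorem EH_mono {R c L : ℕ} (hG : S.Geom R c L) {w : F2} (hw : InW L w) :
    S.EH L w ⊆ S.EH L 1 := by
  exact fun e he => ⟨he.1, fun z hz => inH_mono hG hw (he.2 z hz)⟩

theorem port_disjoint {R c L : ℕ} (hG : S.Geom R c L) {u v : F2} (hu : InW L u) (hv : InW L v)
    (h : ¬ Pre u v) (h' : ¬ Pre v u) : Disjoint (S.Port L u) (S.Port L v) := by
  refine Set.disjoint_left.2 fun z hzu hzv => ?_
  rcases List.prefix_or_prefix_of_prefix ((mem_cone_iff hu.2).1 hzu.1.inK)
    ((mem_cone_iff hv.2).1 hzv.1.inK) with h1 | h1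
  exacts [h h1, h' h1]

theorem port_len {R c L : ℕ} (hG : S.Geom R c L) {z : S.V} (hz : z ∈ S.Port L 1) :
    len (S.π z) < R := by
  obtain ⟨hH, y, hzy, hy⟩ := hz
  have h1 : InK (S.π z) := by simpa using hH.inK
  simp only [inv_one, one_mul] at hy
  have h2 := hG.lip z y hzy
  rw [len_out h1 hy] at h2
  have h3 : 0 < len (S.π y) := by
    refine Nat.pos_of_ne_zero fun h0 => hy ?_
    rw [FreeGroup.toWord_eq_nil_iff.1 (List.length_eq_zero_iff.1 h0)]
    exact inK_one
  omega

theorem inH_of_deep {L : ℕ} {g : F2} {x : S.V} (h : Deep L (g⁻¹ * S.π x)) (hL : 0 < L) :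
    S.InH L g x := by
  exact ⟨x, .nil, h, fun z hz => by
    rw [SimpleGraph.Walk.support_nil, List.mem_singleton] at hz
    subst hz
    exact h.inK hL⟩

theorem exists_port {R c L : ℕ} (hG : S.Geom R c L) : (S.Port L 1).Nonempty := by
  obtain ⟨x⟩ := S.conn.nonempty
  obtain ⟨γ, hγ⟩ := S.surj (genA ^ L)
  obtain ⟨δ, hδ⟩ := S.surj genA⁻¹
  obtain ⟨w⟩ := S.conn (γ, x.2) (δ, x.2)
  refine exists_port_on_walk w (inH_of_deep ?_ (by have := hG.big; omega)) ?_
  · rw [inv_one, one_mul]
    show Deep L (S.φ γ)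
    exact hγ.symm ▸ genA_pow_deep L
  · rw [inv_one, one_mul]
    show ¬ InK (S.φ δ)
    exact hδ.symm ▸ not_inK_genA_inv

/-- Along one edge of the tree inside the deep part. -/
theorem deep_step {R c L : ℕ} (hG : S.Geom R c L) {x : S.V} (j : Fin S.k) {v : F2}
    (hx : Deep L (S.π x)) (hd : len ((S.π x)⁻¹ * v) ≤ 1) (hv : Deep L v) :
    ∃ y, S.π y = v ∧ y.2 = j ∧ ∃ w : S.G.Walk x y, w.length ≤ c ∧
      ∀ e ∈ w.edges, e ∈ S.EH L 1 := by
  obtain ⟨y, hy1, hy2, w, hw, hs⟩ := hG.link x j _ hd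
  rw [mul_inv_cancel_left] at hy1
  have hL : 0 < L := by have := hG.big; omega
  refine ⟨y, hy1, hy2, w, hw, inH_of_walk w (inH_of_deep (by simpa using hx) hL) fun z hz => ?_⟩
  rw [inv_one, one_mul]
  exact inK_of_near hx (by have := hs z hz; have := hG.big; omega)

/-- Inside the deep part, along words. -/
theorem deep_link {R c L : ℕ} (hG : S.Geom R c L) {x : S.V} (j : Fin S.k) {v : F2}
    (hx : Deep L (S.π x)) (hv : Deep L v) (hpre : Pre (S.π x) v ∨ Pre v (S.π x)) :
    ∃ y, S.π y = v ∧ y.2 = j ∧ ∃ w : S.G.Walk x y,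
      w.length ≤ c * (1 + (len v - len (S.π x)) + (len (S.π x) - len v)) ∧
      ∀ e ∈ w.edges, e ∈ S.EH L 1 := by
  rcases hpre with hpre | hpre
  · have e0 : len (S.π x) - len v = 0 := Nat.sub_eq_zero_of_le hpre.length_le
    rw [e0, add_zero]
    generalize hn : len v - len (S.π x) = n
    induction n generalizing v j with
    | zero =>
      have hv' : S.π x = v := FreeGroup.toWord_injective
        (hpre.eq_of_length_le (by simp only [len] at hn; omega))
      obtain ⟨y, h1, h2, w, h3, h4⟩ := deep_step hG j hx (v := v) (by simp [hv', len]) hv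
      exact ⟨y, h1, h2, w, by simpa using h3, h4⟩
    | succ n ih =>
      have hne : S.π x ≠ v := fun h => by rw [h] at hn; omega
      obtain ⟨v', hp1, hp2, hl, hd⟩ := exists_parent hpre hne
      obtain ⟨y', h1, -, w, h3, h4⟩ := ih x.2 (hx.of_pre hp1) hp1
        (Nat.sub_eq_zero_of_le hp1.length_le) (by omega)
      obtain ⟨y, g1, g2, w', g3, g4⟩ := deep_step hG j (x := y') (by rw [h1]; exact hx.of_pre hp1)
        (by rw [h1]; omega) hv
      refine ⟨y, g1, g2, w.append w', ?_, fun e he => ?_⟩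
      · rw [SimpleGraph.Walk.length_append, show 1 + (n + 1) = 1 + n + 1 by ring, mul_add, mul_one]
        omega
      · rw [SimpleGraph.Walk.edges_append, List.mem_append] at he
        exact he.elim (h4 e) (g4 e)
  · have e0 : len v - len (S.π x) = 0 := Nat.sub_eq_zero_of_le hpre.length_le
    rw [e0, add_zero]
    generalize hn : len (S.π x) - len v = n
    induction n generalizing x with
    | zero =>
      have hv' : v = S.π x := FreeGroup.toWord_injective
        (hpre.eq_of_length_le (by simp only [len] at hn; omega))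
      obtain ⟨y, h1, h2, w, h3, h4⟩ := deep_step hG j hx (v := v) (by simp [hv', len]) hv
      exact ⟨y, h1, h2, w, by simpa using h3, h4⟩
    | succ n ih =>
      have hne : v ≠ S.π x := fun h => by rw [← h] at hn; omega
      obtain ⟨v', hp1, hp2, hl, hd⟩ := exists_parent hpre hne
      obtain ⟨x', g1, -, w, g3, g4⟩ := deep_step hG j hx (v := v')
        (by
          rw [← len_inv, mul_inv_rev, inv_inv]
          omega)
        (hv.of_pre hp1)
      obtain ⟨y, h1, h2, w', h3, h4⟩ := ih (x := x') (by rw [g1]; exact hv.of_pre hp1)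
        (g1.symm ▸ hp1) (by rw [g1]; exact Nat.sub_eq_zero_of_le hp1.length_le)
        (by rw [g1]; omega)
      refine ⟨y, h1, h2, w.append w', ?_, fun e he => ?_⟩
      · rw [SimpleGraph.Walk.length_append, show 1 + (n + 1) = 1 + n + 1 by ring, mul_add, mul_one]
        omega
      · rw [SimpleGraph.Walk.edges_append, List.mem_append] at he
        exact he.elim (g4 e) (h4 e)

/-- From every port to a deep vertex of every orbit, boundedly. -/
theorem port_link {R c L : ℕ} (hG : S.Geom R c L) :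
    ∃ c₀, ∀ z ∈ S.Port L 1, ∀ j : Fin S.k, ∃ y, S.π y = genA ^ L ∧ y.2 = j ∧
      ∃ w : S.G.Walk z y, w.length ≤ c₀ ∧ ∀ e ∈ w.edges, e ∈ S.EH L 1 := by
  classical
  have hL : 0 < L := by have := hG.big; omega
  have hcls : ∀ q : F2 × Fin S.k × Fin S.k, ∃ n : ℕ, ∀ z ∈ S.Port L 1,
      S.π z = q.1 → z.2 = q.2.1 → ∃ y, S.π y = genA ^ L ∧ y.2 = q.2.2 ∧
        ∃ w : S.G.Walk z y, w.length ≤ n ∧ ∀ e ∈ w.edges, e ∈ S.EH L 1 := by
    rintro ⟨v, i, j⟩
    by_cases hex : ∃ z, z ∈ S.Port L 1 ∧ S.π z = v ∧ z.2 = i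
    · obtain ⟨z₀, hz₀, hv₀, hi₀⟩ := hex
      obtain ⟨y₀, w₀, hy₀, hs₀⟩ := hz₀.1
      rw [inv_one, one_mul] at hy₀
      obtain ⟨y₁, hy1, hj1, w₁, -, he₁⟩ := deep_link hG j hy₀ (genA_pow_deep L)
        (Or.inr (by rw [Pre, toWord_genA_pow]; exact hy₀))
      have he₀ := inH_of_walk w₀ hz₀.1 hs₀
      refine ⟨(w₀.append w₁).length, fun z hz hv hi => ?_⟩
      set γ := z.1 * z₀.1⁻¹
      have hφ : S.φ γ = 1 := by
        rw [map_mul, map_inv, mul_inv_eq_one]
        exact hv.trans hv₀.symm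
      have hzz : S.act γ z₀ = z := by
        refine Prod.ext ?_ (hi₀.trans hi.symm)
        show γ * z₀.1 = z.1
        simp [γ]
      refine ⟨S.act γ y₁, by rw [π_act, hφ, one_mul, hy1], hj1,
        (actWalk γ (w₀.append w₁)).copy hzz rfl, ?_, fun e he => ?_⟩
      · rw [SimpleGraph.Walk.length_copy, length_actWalk]
      · rw [SimpleGraph.Walk.edges_copy] at he
        obtain ⟨e', he', rfl⟩ := mem_edges_actWalk he
        rw [SimpleGraph.Walk.edges_append, List.mem_append] at he'
        have h1 := act_EH L γ (1 : F2) (S := S)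
        rw [hφ, one_mul] at h1
        rw [← h1]
        exact ⟨e', he'.elim (he₀ e') (he₁ e'), rfl⟩
    · exact ⟨0, fun z hz hv hi => absurd ⟨z, hz, hv, hi⟩ hex⟩
  choose n hn using hcls
  refine ⟨∑ v ∈ (finite_ball R).toFinset, ∑ i, ∑ j, n (v, i, j), fun z hz j => ?_⟩
  obtain ⟨y, h1, h2, w, h3, h4⟩ := hn (S.π z, z.2, j) z hz rfl rfl
  refine ⟨y, h1, h2, w, h3.trans ?_, h4⟩
  refine le_trans ?_ (Finset.single_le_sum (fun i _ => Nat.zero_le _)
    ((finite_ball R).mem_toFinset.2 (show len (S.π z) ≤ R from (port_len hG hz).le)))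
  refine le_trans ?_ (Finset.single_le_sum (fun i _ => Nat.zero_le _) (Finset.mem_univ z.2))
  exact Finset.single_le_sum (f := fun j => n (S.π z, z.2, j)) (fun i _ => Nat.zero_le _)
    (Finset.mem_univ j)

/-- A path leaves a half space through its boundary. -/
theorem cut_port {R c L : ℕ} (hG : S.Geom R c L) {g : F2} {x y : S.V} (w : S.G.Walk x y)
    (hw : w.IsPath) (hy : Deep L (g⁻¹ * S.π y)) :
    (∀ e ∈ w.edges, e ∈ S.EH L g) ∨ ∃ z ∈ S.Port L g, ∃ h : z ∈ w.support,
      ∀ e ∈ (w.dropUntil z h).edges, e ∈ S.EH L g := by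
  have hL : 0 < L := by have := hG.big; omega
  induction w with
  | nil => exact Or.inl (by simp)
  | @cons a b d hab w ih =>
    rw [SimpleGraph.Walk.cons_isPath_iff] at hw
    rcases ih hw.1 hy with hall | ⟨z, hz, hzs, hze⟩
    · have hb : S.InH L g b := by
        cases w with
        | nil => exact inH_of_deep hy hL
        | @cons _ b' _ hbb w' => exact (hall s(b, b') (by simp)).2 b (Sym2.mem_mk_left _ _)
      by_cases ha : InK (g⁻¹ * S.π a)
      · refine Or.inl fun e he => ?_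
        rw [SimpleGraph.Walk.edges_cons, List.mem_cons] at he
        rcases he with rfl | he
        · refine ⟨hab, fun z hz => ?_⟩
          rcases Sym2.mem_iff.1 hz with rfl | rfl
          exacts [hb.step hab ha, hb]
        · exact hall e he
      · refine Or.inr ⟨b, ⟨hb, a, hab.symm, ha⟩, by simp, ?_⟩
        simpa [SimpleGraph.Walk.dropUntil, hab.ne] using hall
    · refine Or.inr ⟨z, hz, by simp [hzs], ?_⟩
      have hne : a ≠ z := fun h => hw.2 (h ▸ hzs)
      simpa [SimpleGraph.Walk.dropUntil, hne] using hze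

/-- The first vertex of a half space on a walk from outside is a port. -/
theorem first_port {R c L : ℕ} (hG : S.Geom R c L) {g : F2} {x y : S.V} (w : S.G.Walk x y)
    (hx : ¬ S.InH L g x) (hy : S.InH L g y) :
    ∃ z ∈ S.Port L g, ∃ w' : S.G.Walk x z, (∀ e ∈ w'.edges, e ∈ w.edges) ∧
      ∀ e ∈ w'.edges, e ∉ S.EH L g := by
  induction w with
  | nil => exact absurd hy hx
  | @cons a b d hab w ih =>
    have he : s(a, b) ∉ S.EH L g := fun h => hx (h.2 a (Sym2.mem_mk_left _ _))
    by_cases hb : S.InH L g b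
    · refine ⟨b, ⟨hb, a, hab.symm, fun ha => hx (hb.step hab ha)⟩,
        .cons hab .nil, fun e h => ?_, fun e h => ?_⟩
      · simp only [SimpleGraph.Walk.edges_cons, SimpleGraph.Walk.edges_nil, List.mem_cons,
          List.not_mem_nil, or_false] at h ⊢
        exact Or.inl h
      · simp only [SimpleGraph.Walk.edges_cons, SimpleGraph.Walk.edges_nil, List.mem_cons,
          List.not_mem_nil, or_false] at h
        exact h ▸ he
    · obtain ⟨z, hz, w', h1, h2⟩ := ih hb hy
      refine ⟨z, hz, .cons hab w', fun e h => ?_, fun e h => ?_⟩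
      · rw [SimpleGraph.Walk.edges_cons, List.mem_cons] at h ⊢
        exact h.imp_right (h1 e)
      · rw [SimpleGraph.Walk.edges_cons, List.mem_cons] at h
        exact h.elim (fun h => h ▸ he) (h2 e)

end Setting

end Vale.Agent.P165.Tree
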