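import Vale.Agent.P165.Tree.Reach
import Vale.Agent.P165.Tree.Line
import Vale.Agent.P165.Tree.Fibre
import Vale.Agent.P165.Tree.Fin.SetLemma

/-!
# The tail bound for fibre counts (P165, tree quotient)
-/

namespace Vale.Agent.P165.Tree

open scoped ENNReal

universe u

namespace Setting

variable {S : Setting.{u}} {R c L : ℕ}

theorem image_anti (hG : S.Geom R c L) {w : F2} (hw : InW L w) {W : Finset F2} (hW : Anti L W) :
    Anti L (W.image (w * ·)) ∧ ∀ v ∈ W.image (w * ·), Pre w v := by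
  have hL : 0 < L := by have := hG.big; omega
  refine ⟨⟨?_, ?_⟩, ?_⟩
  · intro v hv
    obtain ⟨u, hu, rfl⟩ := Finset.mem_image.1 hv
    exact ((InW.mul hL hw (hW.1 u hu)).1)
  · intro v₁ hv₁ v₂ hv₂ hne
    obtain ⟨u₁, hu₁, rfl⟩ := Finset.mem_image.1 hv₁
    obtain ⟨u₂, hu₂, rfl⟩ := Finset.mem_image.1 hv₂
    intro hpre
    have e1 := (InW.mul hL hw (hW.1 u₁ hu₁)).2.2
    have e2 := (InW.mul hL hw (hW.1 u₂ hu₂)).2.2
    unfold Pre at hpre
    rw [e1, e2, List.prefix_append_right_inj] at hpre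
    exact hW.2 u₁ hu₁ u₂ hu₂ (fun h => hne (by rw [h])) hpre
  · intro v hv
    obtain ⟨u, hu, rfl⟩ := Finset.mem_image.1 hv
    exact (InW.mul hL hw (hW.1 u hu)).2.1

theorem incr_card_filter (F : Finset S.V) (z : S.V) (n : ℕ) :
    Incr fun ω : Finset (Sym2 S.V) => n ≤ (F.filter (· ∈ clF ω z)).card := by
  intro ω ω' h hn
  refine le_trans hn (Finset.card_le_card ?_)
  intro y hy
  rw [Finset.mem_filter] at hy ⊢
  exact ⟨hy.1, reach_mono h _ hy.2⟩

/-- The tail of the count above `w`. -/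
theorem tail_le (hG : S.Geom R c L) {ε : ℝ} (hε : 0 < ε) (hε1 : ε < 1) (Wt : S.Witness L ε)
    {p₁ : ℝ} (hp₁ : Wt.p₀ < p₁) :
    ∃ C : ℝ≥0∞, C ≠ ⊤ ∧ ∀ p, p₁ ≤ p → p < S.pT → ∀ w, InW L w → ∀ z ∈ S.Port L 1,
      ∀ (E : Finset (Sym2 S.V)), (E : Set (Sym2 S.V)) ⊆ S.EH L 1 →
      ∀ F : Finset S.V, (∀ y ∈ F, y ∈ S.fib w) → ∀ n : ℕ, 0 < n →
        ENNReal.ofReal (PE p E fun ω => n ≤ (F.filter (· ∈ clF ω z)).card) ≤
          C * S.Phi L p Wt.s w ^ (1 / Wt.s) * ENNReal.ofReal ((n : ℝ) ^ (-(1 - 2 * ε))) := by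
  classical
  obtain ⟨c₁, hc₁, hline⟩ := exists_line hG hε hε1 Wt
  obtain ⟨κ, hκ, hreach⟩ := union_reach hG Wt.p₀_pos Wt.p₀_lt hε hc₁
  set p₀ := Wt.p₀ with hp₀def
  set s := Wt.s with hsdef
  have hs := Wt.s_pos
  set K : ℝ := 1 / (κ * (p₁ - p₀)) with hKdef
  refine ⟨ENNReal.ofReal K, ENNReal.ofReal_ne_top, ?_⟩
  intro p hp hpT w hw z hz E hE F hF n hn
  have hp0 : p₀ < p := hp₁.trans_le hp
  have hp1 : p ≤ 1 := hpT.le.trans (pT_le_one S)
  have hpnn : 0 ≤ p := (Wt.p₀_pos.trans hp0).le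
  have hp01 : p₀ ≤ 1 := hp0.le.trans hp1
  have hnR : (0 : ℝ) < n := Nat.cast_pos.2 hn
  obtain ⟨W, hWanti, hWcard, hWη⟩ := hline n hn
  set P := PE p E fun ω => n ≤ (F.filter (· ∈ clF ω z)).card with hPdef
  have hP0 : 0 ≤ P := PE_nonneg hpnn hp1 _
  -- one target
  have hone : ∀ u ∈ W, ENNReal.ofReal P ≤
      ENNReal.ofReal (K * (n : ℝ) ^ ε) * S.qhi L p (w * u) := by
    intro u hu
    obtain ⟨η, hη1, -, hη⟩ := hWη u hu
    have hEx : ∀ A ∈ F.powersetCard n, ∃ EA : Finset (Sym2 S.V),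
        (EA : Set (Sym2 S.V)) ⊆ S.EH L 1 ∧
        κ * (n : ℝ) ^ (-ε) ≤ PE p₀ EA fun ω => ConnSet ω A (S.Port L (w * u)) := by
      intro A hA
      rw [Finset.mem_powersetCard] at hA
      have := hreach w u hw (hWanti.1 u hu) A (fun a ha => hF a (hA.1 ha)) η
        (by rw [hA.2]; exact hη1) hη
      rwa [hA.2] at this
    choose! EA hEA hEA' using hEx
    set E' : Finset (Sym2 S.V) := E ∪ (F.powersetCard n).biUnion EA with hE'
    have hE'sub : (E' : Set (Sym2 S.V)) ⊆ S.EH L 1 := by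
      intro e he
      rw [hE', Finset.coe_union, Set.mem_union] at he
      rcases he with he | he
      · exact hE he
      · obtain ⟨A, hA, heA⟩ := Finset.mem_biUnion.1 (Finset.mem_coe.1 he)
        exact hEA A hA (Finset.mem_coe.2 heA)
    set U : Finset S.V → Prop := fun C => n ≤ (F.filter (· ∈ C)).card with hU
    have hUmono : ∀ a b, a ⊆ b → U a → U b := fun a b hab h =>
      le_trans h (Finset.card_le_card fun y hy => by
        rw [Finset.mem_filter] at hy ⊢; exact ⟨hy.1, hab hy.2⟩)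
    have hset := setLemma Wt.p₀_pos.le hp0 hp1 E' z (S.Port L (w * u)) U hUmono
    have hlow : κ * (n : ℝ) ^ (-ε) * PE p E' (fun ω => U (clF ω z)) ≤
        EE p E' (fun ω => ind (U (clF ω z)) *
          PE p₀ E' (fun η => ConnSet η (clF ω z) (S.Port L (w * u)))) := by
      rw [PE, ← EE_mul_left]
      refine EE_mono hpnn hp1 fun ω _ => ?_
      by_cases hUω : U (clF ω z)
      · rw [ind_of hUω, mul_one, one_mul]
        obtain ⟨A, hAsub, hAcard⟩ := Finset.exists_subset_card_eq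
          (show n ≤ (F.filter (· ∈ clF ω z)).card from hUω)
        have hA : A ∈ F.powersetCard n :=
          Finset.mem_powersetCard.2 ⟨hAsub.trans (Finset.filter_subset _ _), hAcard⟩
        refine (hEA' A hA).trans ?_
        refine le_trans (PE_mono_set (E := E') Wt.p₀_pos.le hp01 (incr_connSet _ _)
          ((Finset.subset_biUnion_of_mem EA hA).trans Finset.subset_union_right)) ?_
        refine PE_mono Wt.p₀_pos.le hp01 fun η _ ⟨a, ha, hc⟩ => ?_
        exact ⟨a, (Finset.mem_filter.1 (hAsub ha)).2, hc⟩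
      · simp [ind_of_not hUω]
    have hmonoE : P ≤ PE p E' (fun ω => U (clF ω z)) :=
      PE_mono_set hpnn hp1 (incr_card_filter F z n) Finset.subset_union_left
    have hT : PE p E' (fun ω => U (clF ω z) ∧ ConnTo ω z (S.Port L (w * u))) ≤
        PE p E' (fun ω => ConnTo ω z (S.Port L (w * u))) := PE_mono hpnn hp1 fun _ _ h => h.2
    have hcoef : p * (1 - p₀) / (p - p₀) ≤ 1 / (p₁ - p₀) := by
      have h1 : p * (1 - p₀) ≤ 1 := by nlinarith [Wt.p₀_pos]
      have h2 : 0 < p₁ - p₀ := sub_pos.2 hp₁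
      exact div_le_div₀ zero_le_one h1 h2 (by linarith)
    have hX0 : 0 ≤ PE p E' (fun ω => ConnTo ω z (S.Port L (w * u))) := PE_nonneg hpnn hp1 _
    have hkn : 0 < κ * (n : ℝ) ^ (-ε) := mul_pos hκ (Real.rpow_pos_of_pos hnR _)
    have hchain : κ * (n : ℝ) ^ (-ε) * P ≤
        1 / (p₁ - p₀) * PE p E' (fun ω => ConnTo ω z (S.Port L (w * u))) :=
      calc κ * (n : ℝ) ^ (-ε) * P ≤ κ * (n : ℝ) ^ (-ε) * PE p E' (fun ω => U (clF ω z)) :=
            mul_le_mul_of_nonneg_left hmonoE hkn.le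
        _ ≤ _ := hlow
        _ ≤ _ := hset
        _ ≤ p * (1 - p₀) / (p - p₀) * PE p E' (fun ω => ConnTo ω z (S.Port L (w * u))) := by
            refine mul_le_mul_of_nonneg_left hT ?_
            exact div_nonneg (mul_nonneg hpnn (by linarith)) (by linarith)
        _ ≤ _ := mul_le_mul_of_nonneg_right hcoef hX0
    have hPle : P ≤ K * (n : ℝ) ^ ε * PE p E' (fun ω => ConnTo ω z (S.Port L (w * u))) := by
      have h2 : 0 < p₁ - p₀ := sub_pos.2 hp₁
      rw [Real.rpow_neg hnR.le] at hchain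
      have hne : (n : ℝ) ^ ε ≠ 0 := (Real.rpow_pos_of_pos hnR ε).ne'
      rw [hKdef]
      field_simp at hchain ⊢
      nlinarith [hchain]
    have hK0 : 0 ≤ K * (n : ℝ) ^ ε := by
      have : 0 < p₁ - p₀ := sub_pos.2 hp₁
      positivity
    calc ENNReal.ofReal P ≤ ENNReal.ofReal (K * (n : ℝ) ^ ε *
          PE p E' (fun ω => ConnTo ω z (S.Port L (w * u)))) := ENNReal.ofReal_le_ofReal hPle
      _ = ENNReal.ofReal (K * (n : ℝ) ^ ε) *
          ENNReal.ofReal (PE p E' (fun ω => ConnTo ω z (S.Port L (w * u)))) :=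
            ENNReal.ofReal_mul hK0
      _ ≤ _ := by
            refine mul_le_mul' le_rfl ?_
            exact (ofReal_PE_le_tauT p hE'sub z _).trans
              (le_iSup (fun z : S.Port L 1 => S.Pz L p (w * u) (z : S.V)) ⟨z, hz⟩)
  -- all targets
  set B := ENNReal.ofReal (K * (n : ℝ) ^ ε) with hB
  have hsum : (W.card : ℝ≥0∞) * ENNReal.ofReal P ^ s ≤ B ^ s * S.Phi L p s w := by
    calc (W.card : ℝ≥0∞) * ENNReal.ofReal P ^ s = ∑ u ∈ W, ENNReal.ofReal P ^ s := by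
          rw [Finset.sum_const, nsmul_eq_mul]
      _ ≤ ∑ u ∈ W, B ^ s * S.qhi L p (w * u) ^ s := by
          refine Finset.sum_le_sum fun u hu => ?_
          rw [← ENNReal.mul_rpow_of_nonneg _ _ hs.le]
          exact ENNReal.rpow_le_rpow (hone u hu) hs.le
      _ = B ^ s * ∑ v ∈ W.image (w * ·), S.qhi L p v ^ s := by
          rw [Finset.mul_sum, Finset.sum_image fun a _ b _ h => mul_left_cancel h]
      _ ≤ _ := by
          refine mul_le_mul' le_rfl ?_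
          exact le_iSup (fun W : {W : Finset F2 // Anti L W ∧ ∀ u ∈ W, Pre w u} =>
            ∑ u ∈ (W : Finset F2), S.qhi L p u ^ s) ⟨_, image_anti hG hw hWanti⟩
  have hcard : ENNReal.ofReal ((n : ℝ) ^ ((1 - ε) * s)) ≤ (W.card : ℝ≥0∞) := by
    rw [← ENNReal.ofReal_natCast W.card]
    exact ENNReal.ofReal_le_ofReal hWcard
  have hroot := ENNReal.rpow_le_rpow ((mul_le_mul' hcard le_rfl).trans hsum)
    (show (0 : ℝ) ≤ 1 / s from by positivity)
  rw [ENNReal.mul_rpow_of_nonneg _ _ (by positivity), ENNReal.mul_rpow_of_nonneg _ _ (by positivity),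
    ← ENNReal.rpow_mul, ← ENNReal.rpow_mul, mul_one_div_cancel hs.ne', ENNReal.rpow_one,
    ENNReal.rpow_one, ENNReal.ofReal_rpow_of_pos (Real.rpow_pos_of_pos hnR _),
    ← Real.rpow_mul hnR.le, show (1 - ε) * s * (1 / s) = 1 - ε by rw [mul_assoc, mul_one_div_cancel hs.ne', mul_one]] at hroot
  have hfin : ENNReal.ofReal P ≤
      ENNReal.ofReal ((n : ℝ) ^ (-(1 - ε))) * (B * S.Phi L p s w ^ (1 / s)) := by
    calc ENNReal.ofReal P = ENNReal.ofReal ((n : ℝ) ^ (-(1 - ε))) *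
          (ENNReal.ofReal ((n : ℝ) ^ (1 - ε)) * ENNReal.ofReal P) := by
          rw [← mul_assoc, ← ENNReal.ofReal_mul (by positivity), ← Real.rpow_add hnR]
          simp
      _ ≤ _ := mul_le_mul' le_rfl hroot
  refine hfin.trans (le_of_eq ?_)
  have hK : 0 ≤ K := by
    have : 0 < p₁ - p₀ := sub_pos.2 hp₁
    positivity
  rw [hB, ENNReal.ofReal_mul hK]
  rw [show -(1 - 2 * ε) = -(1 - ε) + ε by ring, Real.rpow_add hnR,
    ENNReal.ofReal_mul (by positivity)]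
  ring

theorem sum_pair_le_QQ (hG : S.Geom R c L) {p : ℝ} (hp0 : 0 ≤ p) (hp1 : p ≤ 1) (w : F2)
    (z : S.V) (E : Finset (Sym2 S.V)) (hE : (E : Set (Sym2 S.V)) ⊆ S.EH L 1)
    (F : Finset S.V) (hF : ∀ y ∈ F, y ∈ S.fib w) :
    ENNReal.ofReal (∑ a ∈ F, ∑ b ∈ F, PE p E fun ω => Conn ω z a ∧ Conn ω z b) ≤
      2 * S.QQ p := by
  classical
  refine (sum_pair_le hp0 hp1 (hE.trans (EH_subset L 1)) z F).trans ?_
  have hFv : ∀ v : S.V, ∑ a ∈ F, tau p S.G.edgeSet v a ≤ S.AA p ((S.π v)⁻¹ * w) := by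
    intro v
    refine le_trans ?_ (tsum_fib_le_AA p v w)
    rw [← Finset.sum_attach F]
    let e : {a // a ∈ F} → S.fib w := fun a => ⟨a.1, hF a.1 a.2⟩
    have he : Function.Injective e := fun a b h => Subtype.ext (congrArg (fun t : S.fib w => (t : S.V)) h)
    calc ∑ a ∈ F.attach, tau p S.G.edgeSet v a
        = ∑ y ∈ F.attach.image e, S.tt p v (y : S.V) := by
          rw [Finset.sum_image fun a _ b _ h => he h]
          rfl
      _ ≤ _ := ENNReal.sum_le_tsum _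
  calc ∑' v : S.V, tau p S.G.edgeSet z v * (∑ a ∈ F, tau p S.G.edgeSet v a) *
        (∑ b ∈ F, tau p S.G.edgeSet v b)
      ≤ ∑' v : S.V, S.tt p z v * S.AA p ((S.π v)⁻¹ * w) ^ 2 := by
        refine ENNReal.tsum_le_tsum fun v => ?_
        rw [mul_assoc, sq]
        exact mul_le_mul' le_rfl (mul_le_mul' (hFv v) (hFv v))
    _ = ∑' u : F2, ∑' v : S.π ⁻¹' {u}, S.tt p z (v : S.V) * S.AA p ((S.π v)⁻¹ * w) ^ 2 :=
        (ENNReal.tsum_fiberwise (fun v : S.V => S.tt p z v * S.AA p ((S.π v)⁻¹ * w) ^ 2) S.π).symm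
    _ ≤ ∑' u : F2, S.AA p ((S.π z)⁻¹ * u) * S.AA p (u⁻¹ * w) ^ 2 := by
        refine ENNReal.tsum_le_tsum fun u => ?_
        have : ∀ v : S.π ⁻¹' {u}, S.tt p z (v : S.V) * S.AA p ((S.π v)⁻¹ * w) ^ 2 =
            S.tt p z (v : S.V) * S.AA p (u⁻¹ * w) ^ 2 := fun v => by
          rw [show S.π (v : S.V) = u from v.2]
        rw [tsum_congr this, ENNReal.tsum_mul_right]
        exact mul_le_mul' (tsum_fib_le_AA p z u) le_rfl
    _ ≤ ∑' u : F2, (S.AA p ((S.π z)⁻¹ * u) ^ 3 + S.AA p (u⁻¹ * w) ^ 3) := by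
        refine ENNReal.tsum_le_tsum fun u => ?_
        rcases le_total (S.AA p ((S.π z)⁻¹ * u)) (S.AA p (u⁻¹ * w)) with h | h
        · exact le_add_left ((mul_le_mul' h le_rfl).trans (le_of_eq (by ring)))
        · exact le_add_right ((mul_le_mul' le_rfl (pow_le_pow_left₀ zero_le h 2)).trans
            (le_of_eq (by ring)))
    _ = 2 * S.QQ p := by
        rw [ENNReal.tsum_add, two_mul]
        congr 1
        · exact (Equiv.mulLeft (S.π z)⁻¹).tsum_eq (fun u => S.AA p u ^ 3)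
        · exact ((Equiv.inv F2).trans (Equiv.mulRight w)).tsum_eq (fun u => S.AA p u ^ 3)

theorem sum_rpow_le {δ : ℝ} (hδ : 0 < δ) (hδ1 : δ ≤ 1) (N : ℕ) :
    δ * ∑ n ∈ Finset.range N, ((n + 1 : ℕ) : ℝ) ^ (-(1 - δ)) ≤ (N : ℝ) ^ δ := by
  induction N with
  | zero => simp [Real.zero_rpow hδ.ne']
  | succ N ih =>
    rw [Finset.sum_range_succ, mul_add]
    have hN : (0 : ℝ) < ((N + 1 : ℕ) : ℝ) := by positivity
    set M : ℝ := ((N + 1 : ℕ) : ℝ) with hM
    have hMN : (N : ℝ) = M * (1 + -(1 / M)) := by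
      rw [hM]; push_cast; field_simp; ring
    have hb : -1 ≤ -(1 / M) := by
      have : 1 / M ≤ 1 := by
        rw [div_le_one hN, hM]; push_cast; linarith [(Nat.cast_nonneg N : (0 : ℝ) ≤ N)]
      linarith
    have hbern := rpow_one_add_le_one_add_mul_self hb hδ.le hδ1
    have h1 : (N : ℝ) ^ δ ≤ M ^ δ * (1 + δ * -(1 / M)) := by
      rw [hMN, Real.mul_rpow hN.le (by linarith)]
      exact mul_le_mul_of_nonneg_left hbern (Real.rpow_nonneg hN.le _)
    have h2 : M ^ (-(1 - δ)) = M ^ δ / M := by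
      rw [show -(1 - δ) = δ - 1 by ring, Real.rpow_sub hN, Real.rpow_one]
    rw [h2]
    have h3 : M ^ δ * (1 + δ * -(1 / M)) = M ^ δ - δ * (M ^ δ / M) := by
      field_simp
      ring
    linarith

/-- A truncated layer formula. -/
theorem card_le_layers (X N : ℕ) (hN : 0 < N) :
    (X : ℝ) ≤ (∑ n ∈ Finset.range N, ind (n + 1 ≤ X)) + (X : ℝ) ^ 2 / N := by
  have hNR : (0 : ℝ) < N := Nat.cast_pos.2 hN
  have hsum : (∑ n ∈ Finset.range N, ind (n + 1 ≤ X)) = ((min X N : ℕ) : ℝ) := by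
    have : (Finset.range N).filter (fun n => n + 1 ≤ X) = Finset.range (min X N) := by
      ext n; simp; omega
    rw [← Finset.card_range (min X N), ← this, Finset.card_filter, Nat.cast_sum]
    exact Finset.sum_congr rfl fun n _ => by unfold ind; split_ifs <;> simp
  rw [hsum]
  rcases le_total X N with h | h
  · rw [min_eq_left h]
    have : (0 : ℝ) ≤ (X : ℝ) ^ 2 / N := by positivity
    linarith
  · have h' : (N : ℝ) ≤ X := Nat.cast_le.2 h
    have : (X : ℝ) ≤ (X : ℝ) ^ 2 / N := by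
      rw [le_div_iff₀ hNR, sq]
      exact mul_le_mul_of_nonneg_left h' (by positivity)
    have h0 : (0 : ℝ) ≤ ((min X N : ℕ) : ℝ) := Nat.cast_nonneg _
    linarith

/-- The optimisation of the truncation. -/
theorem optimise {δ a b B x : ℝ} (hδ : 0 < δ) (hδ1 : δ ≤ 1) (ha : 0 < a) (hb : 1 ≤ b) (hB : 1 ≤ B)
    (haB : a ≤ B) {K : ℝ} (hK : 0 ≤ K)
    (h : ∀ N : ℕ, 0 < N → x ≤ K * a * (N : ℝ) ^ δ + 2 * b / N) :
    x ≤ (2 * K + 2) * B ^ δ * (a ^ (1 - δ) * b ^ δ) := by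
  have hb0 : 0 < b := by linarith
  have hab : 0 < a ^ (1 - δ) * b ^ δ := by positivity
  have hBd : 1 ≤ B ^ δ := Real.one_le_rpow hB hδ.le
  rcases le_total a b with hab' | hab'
  · set N := ⌈b / a⌉₊ with hN
    have hx1 : 1 ≤ b / a := by rw [le_div_iff₀ ha]; linarith
    have hNpos : 0 < N := Nat.ceil_pos.2 (by linarith)
    have hN1 : b / a ≤ N := Nat.le_ceil _
    have hN2 : (N : ℝ) ≤ 2 * (b / a) := by
      have := Nat.ceil_lt_add_one (show (0 : ℝ) ≤ b / a by positivity)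
      rw [← hN] at this; linarith
    have h1 : (N : ℝ) ^ δ ≤ 2 * (b ^ δ / a ^ δ) := by
      calc (N : ℝ) ^ δ ≤ (2 * (b / a)) ^ δ := Real.rpow_le_rpow (by positivity) hN2 hδ.le
        _ = 2 ^ δ * (b ^ δ / a ^ δ) := by
            rw [Real.mul_rpow (by norm_num) (by positivity), Real.div_rpow hb0.le ha.le]
        _ ≤ 2 * (b ^ δ / a ^ δ) := by
            refine mul_le_mul_of_nonneg_right ?_ (by positivity)
            calc (2 : ℝ) ^ δ ≤ 2 ^ (1 : ℝ) := Real.rpow_le_rpow_of_exponent_le (by norm_num) hδ1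
              _ = 2 := Real.rpow_one _
    have h2 : 2 * b / N ≤ 2 * a := by
      rw [div_le_iff₀ (Nat.cast_pos.2 hNpos)]
      have := (div_le_iff₀ ha).1 hN1
      linarith
    have h3 : a ≤ a ^ (1 - δ) * b ^ δ := by
      calc a = a ^ (1 - δ) * a ^ δ := by rw [← Real.rpow_add ha]; simp
        _ ≤ _ := mul_le_mul_of_nonneg_left (Real.rpow_le_rpow ha.le hab' hδ.le) (by positivity)
    have h4 : a * (b ^ δ / a ^ δ) = a ^ (1 - δ) * b ^ δ := by
      rw [Real.rpow_sub ha, Real.rpow_one]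
      field_simp
    calc x ≤ K * a * (N : ℝ) ^ δ + 2 * b / N := h N hNpos
      _ ≤ K * a * (2 * (b ^ δ / a ^ δ)) + 2 * a :=
          add_le_add (mul_le_mul_of_nonneg_left h1 (by positivity)) h2
      _ = 2 * K * (a * (b ^ δ / a ^ δ)) + 2 * a := by ring
      _ ≤ (2 * K + 2) * (a ^ (1 - δ) * b ^ δ) := by rw [h4]; linarith
      _ ≤ (2 * K + 2) * B ^ δ * (a ^ (1 - δ) * b ^ δ) := by
          refine mul_le_mul_of_nonneg_right ?_ hab.le
          nlinarith
  · have hx := h 1 one_pos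
    simp only [Nat.cast_one, Real.one_rpow, mul_one, div_one] at hx
    have h3 : a ≤ B ^ δ * (a ^ (1 - δ) * b ^ δ) := by
      calc a = a ^ (1 - δ) * a ^ δ := by rw [← Real.rpow_add ha]; simp
        _ ≤ a ^ (1 - δ) * B ^ δ :=
            mul_le_mul_of_nonneg_left (Real.rpow_le_rpow ha.le haB hδ.le) (by positivity)
        _ ≤ a ^ (1 - δ) * B ^ δ * b ^ δ :=
            le_mul_of_one_le_right (by positivity) (Real.one_le_rpow hb hδ.le)
        _ = _ := by ring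
    calc x ≤ K * a + 2 * b := hx
      _ ≤ (K + 2) * a := by linarith
      _ ≤ (2 * K + 2) * a := mul_le_mul_of_nonneg_right (by linarith) ha.le
      _ ≤ (2 * K + 2) * (B ^ δ * (a ^ (1 - δ) * b ^ δ)) :=
          mul_le_mul_of_nonneg_left h3 (by linarith)
      _ = _ := by ring

theorem one_le_QQ {p : ℝ} (hp0 : 0 ≤ p) (hp1 : p ≤ 1) : 1 ≤ S.QQ p :=
  le_trans (one_le_pow₀ (one_le_AA_one hp0 hp1)) (ENNReal.le_tsum (1 : F2))

theorem qlo_le_qhi (hG : S.Geom R c L) (p : ℝ) (w : F2) : S.qlo L p w ≤ S.qhi L p w := by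
  obtain ⟨z₀, hz₀⟩ := exists_port hG
  haveI : Nonempty (S.Port L 1) := ⟨⟨z₀, hz₀⟩⟩
  exact iInf_le_iSup

/-- The mean over one finite window. -/
theorem sum_tau_fin {p : ℝ} (hp0 : 0 ≤ p) (hp1 : p ≤ 1) (z : S.V) (F : Finset S.V) {R : Set (Sym2 S.V)}
    {bound : ℝ} (h : ∀ E : Finset (Sym2 S.V), (E : Set (Sym2 S.V)) ⊆ R →
      EE p E (fun ω => ((F.filter (· ∈ clF ω z)).card : ℝ)) ≤ bound) :
    ∑ y ∈ F, tau p R z y ≤ ENNReal.ofReal bound := by
  simp only [tau, tauT]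
  rw [ENNReal.finsetSum_iSup]
  swap
  · intro E₁ E₂
    refine ⟨⟨E₁.1 ∪ E₂.1, by simpa using Set.union_subset E₁.2 E₂.2⟩, fun y => ⟨?_, ?_⟩⟩
    · exact ENNReal.ofReal_le_ofReal
        (PE_mono_set hp0 hp1 (incr_connTo _ _) Finset.subset_union_left)
    · exact ENNReal.ofReal_le_ofReal
        (PE_mono_set hp0 hp1 (incr_connTo _ _) Finset.subset_union_right)
  refine iSup_le fun ⟨E, hE⟩ => ?_
  rw [← ENNReal.ofReal_sum_of_nonneg fun y _ => PE_nonneg hp0 hp1 _]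
  refine ENNReal.ofReal_le_ofReal (le_trans (le_of_eq ?_) (h E hE))
  simp only [PE]
  rw [← EE_sum]
  refine EE_congr p fun ω _ => ?_
  rw [Finset.card_filter, Nat.cast_sum]
  refine Finset.sum_congr rfl fun y _ => ?_
  by_cases hy : Conn ω z y
  · simp [ind_of, connTo_singleton, mem_clF, hy]
  · simp [ind_of_not, connTo_singleton, mem_clF, hy]

theorem EE_sq_le (hG : S.Geom R c L) {p : ℝ} (hp0 : 0 ≤ p) (hp1 : p ≤ 1) (w : F2)
    (z : S.V) (E : Finset (Sym2 S.V)) (hE : (E : Set (Sym2 S.V)) ⊆ S.EH L 1)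
    (F : Finset S.V) (hF : ∀ y ∈ F, y ∈ S.fib w) (hQ : S.QQ p ≠ ⊤) :
    EE p E (fun ω => ((F.filter (· ∈ clF ω z)).card : ℝ) ^ 2) ≤ 2 * (S.QQ p).toReal := by
  have h2 := sum_pair_le_QQ hG hp0 hp1 w z E hE F hF
  have heq : ∑ a ∈ F, ∑ b ∈ F, PE p E (fun ω => Conn ω z a ∧ Conn ω z b) =
      EE p E (fun ω => ((F.filter (· ∈ clF ω z)).card : ℝ) ^ 2) := by
    simp only [PE]
    rw [Finset.sum_congr rfl fun a _ => (EE_sum p E F _).symm, ← EE_sum]
    refine EE_congr p fun ω _ => ?_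
    rw [Finset.card_filter, Nat.cast_sum, sq, Finset.sum_mul_sum]
    refine Finset.sum_congr rfl fun a _ => Finset.sum_congr rfl fun b _ => ?_
    by_cases h1 : Conn ω z a <;> by_cases h2 : Conn ω z b <;> simp [ind, mem_clF, h1, h2]
  rw [heq] at h2
  have := ENNReal.toReal_mono (ENNReal.mul_ne_top (by norm_num) hQ) h2
  rwa [ENNReal.toReal_ofReal (EE_nonneg hp0 hp1 fun ω _ => sq_nonneg _), ENNReal.toReal_mul,
    ENNReal.toReal_ofNat] at this

/-- Means from tails. -/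
theorem Mb_le (hG : S.Geom R c L) {ε : ℝ} (hε : 0 < ε) (hε1 : ε < 1 / 4) (Wt : S.Witness L ε)
    {p₁ : ℝ} (hp₁ : Wt.p₀ < p₁) :
    ∃ C : ℝ≥0∞, C ≠ ⊤ ∧ ∀ p, p₁ ≤ p → p < S.pT → ∀ w, InW L w →
      S.Mb L p w ≤ C * S.Phi L p Wt.s w ^ ((1 - 2 * ε) / Wt.s) * S.QQ p ^ (2 * ε) := by
  classical
  obtain ⟨C₁, hC₁, htail⟩ := tail_le hG hε (by linarith) Wt hp₁
  obtain ⟨C₂, hC₂, hPhi⟩ := Phi_le hG Wt (Wt.p₀_pos.trans hp₁)
  have hs := Wt.s_pos
  set δ : ℝ := 2 * ε with hδdef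
  have hδ : 0 < δ := by linarith
  have hδ1 : δ ≤ 1 := by linarith
  set K : ℝ := C₁.toReal / δ with hKdef
  set B : ℝ := max 1 ((C₂ ^ (1 / Wt.s)).toReal) with hBdef
  refine ⟨ENNReal.ofReal ((2 * K + 2) * B ^ δ), ENNReal.ofReal_ne_top, ?_⟩
  intro p hp hpT w hw
  have hp0 : 0 ≤ p := ((Wt.p₀_pos.trans hp₁).trans_le hp).le
  have hp1 : p ≤ 1 := hpT.le.trans (pT_le_one S)
  have hppos : 0 < p := (Wt.p₀_pos.trans hp₁).trans_le hp
  have hPhitop : S.Phi L p Wt.s w ≠ ⊤ := ne_top_of_le_ne_top hC₂ (hPhi p hp hpT w)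
  have hQtop : S.QQ p ≠ ⊤ := (AA_ne_top hp0 hpT).2
  set a : ℝ := (S.Phi L p Wt.s w ^ (1 / Wt.s)).toReal with hadef
  set b : ℝ := (S.QQ p).toReal with hbdef
  have haTop : S.Phi L p Wt.s w ^ (1 / Wt.s) ≠ ⊤ :=
    ENNReal.rpow_ne_top_of_nonneg (by positivity) hPhitop
  have hPhipos : 0 < S.Phi L p Wt.s w := by
    refine lt_of_lt_of_le (ENNReal.rpow_pos_of_nonneg ?_ hs.le) (le_Phi hw)
    exact (qlo_pos hG hppos hp1 hw).trans_le (qlo_le_qhi hG p w)
  have hapos : 0 < a :=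
    ENNReal.toReal_pos (by simp [ENNReal.rpow_eq_zero_iff, hPhipos.ne', hPhitop]) haTop
  have hb1 : 1 ≤ b := by
    rw [hbdef, ← ENNReal.toReal_one]
    exact ENNReal.toReal_mono hQtop (one_le_QQ hp0 hp1)
  have haB : a ≤ B := le_trans
    (ENNReal.toReal_mono (ENNReal.rpow_ne_top_of_nonneg (by positivity) hC₂)
      (ENNReal.rpow_le_rpow (hPhi p hp hpT w) (by positivity))) (le_max_right _ _)
  refine iSup_le fun ⟨z, hz⟩ => ?_
  rw [Mz, ENNReal.tsum_eq_iSup_sum]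
  refine iSup_le fun F' => ?_
  set F : Finset S.V := F'.map ⟨Subtype.val, Subtype.val_injective⟩ with hFdef
  have hF : ∀ y ∈ F, y ∈ S.fib w := by
    intro y hy
    obtain ⟨y', -, rfl⟩ := Finset.mem_map.1 hy
    exact y'.2
  have hrw : ∑ y ∈ F', tau p (S.EH L 1) z (y : S.V) = ∑ y ∈ F, tau p (S.EH L 1) z y := by
    rw [hFdef, Finset.sum_map]; rfl
  rw [hrw]
  refine (sum_tau_fin hp0 hp1 z F (bound := (2 * K + 2) * B ^ δ * (a ^ (1 - δ) * b ^ δ))
    fun E hE => ?_).trans (le_of_eq ?_)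
  · refine optimise hδ hδ1 hapos hb1 (le_max_left _ _) haB (by rw [hKdef]; positivity)
      fun N hN => ?_
    refine (EE_mono hp0 hp1 fun ω _ => card_le_layers _ N hN).trans ?_
    rw [EE_add, EE_sum]
    refine add_le_add ?_ ?_
    · have hlayer : ∀ n : ℕ, PE p E (fun ω => n + 1 ≤ (F.filter (· ∈ clF ω z)).card) ≤
          C₁.toReal * a * ((n + 1 : ℕ) : ℝ) ^ (-(1 - δ)) := by
        intro n
        have h := htail p hp hpT w hw z hz E hE F hF (n + 1) n.succ_pos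
        have := ENNReal.toReal_mono (ENNReal.mul_ne_top (ENNReal.mul_ne_top hC₁ haTop)
          ENNReal.ofReal_ne_top) h
        rwa [ENNReal.toReal_ofReal (PE_nonneg hp0 hp1 _), ENNReal.toReal_mul, ENNReal.toReal_mul,
          ENNReal.toReal_ofReal (by positivity)] at this
      refine (Finset.sum_le_sum fun n _ => hlayer n).trans ?_
      rw [← Finset.mul_sum, hKdef, div_mul_eq_mul_div, div_mul_eq_mul_div, le_div_iff₀ hδ]
      have := sum_rpow_le hδ hδ1 N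
      calc _ = C₁.toReal * a * (δ * ∑ n ∈ Finset.range N, ((n + 1 : ℕ) : ℝ) ^ (-(1 - δ))) := by
            ring
        _ ≤ C₁.toReal * a * (N : ℝ) ^ δ :=
            mul_le_mul_of_nonneg_left this (by positivity)
    · simp only [div_eq_inv_mul]
      rw [EE_mul_left]
      exact mul_le_mul_of_nonneg_left (EE_sq_le hG hp0 hp1 w z E hE F hF hQtop) (by positivity)
  · have e1 : ENNReal.ofReal (a ^ (1 - δ)) = S.Phi L p Wt.s w ^ ((1 - δ) / Wt.s) := by
      rw [← ENNReal.ofReal_rpow_of_pos hapos, hadef, ENNReal.ofReal_toReal haTop,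
        ← ENNReal.rpow_mul]
      congr 1
      ring
    have e2 : ENNReal.ofReal (b ^ δ) = S.QQ p ^ δ := by
      rw [← ENNReal.ofReal_rpow_of_pos (by linarith : (0 : ℝ) < b), hbdef,
        ENNReal.ofReal_toReal hQtop]
    rw [← e1, ← e2, ← ENNReal.ofReal_mul (by positivity), ← ENNReal.ofReal_mul (by positivity)]
    congr 1
    ring

end Setting

end Vale.Agent.P165.Tree
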