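import Mathlib

/-!
# Cones in the free group on two generators (P165, tree quotient)
-/

namespace Vale.Agent.P165.Tree

/-- The free group on two generators. -/
abbrev F2 := FreeGroup (Fin 2)

/-- The letters. -/
abbrev Letter := Fin 2 × Bool

/-- The length of the reduced word. -/
def len (v : F2) : ℕ := v.toWord.length

/-- The group element of a letter. -/
def lgen (s : Letter) : F2 := FreeGroup.mk [s]

/-- The inverse letter. -/
def linv (s : Letter) : Letter := (s.1, !s.2)

/-- The first generator. -/
def genA : F2 := FreeGroup.of 0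

/-- The second generator. -/
def genB : F2 := FreeGroup.of 1

/-- The half tree: words not beginning with the inverse of the first generator. -/
def InK (v : F2) : Prop := v.toWord.head? ≠ some ((0, false) : Letter)

/-- The word `a ^ L` is a prefix. -/
def Deep (L : ℕ) (v : F2) : Prop := List.replicate L ((0, true) : Letter) <+: v.toWord

/-- Deep words ending in the first generator. -/
def InW (L : ℕ) (v : F2) : Prop := Deep L v ∧ v.toWord.getLast? = some ((0, true) : Letter)

/-- `u` is a prefix of `v`. -/
def Pre (u v : F2) : Prop := u.toWord <+: v.toWord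

/-- The one letter extensions of a reduced word. -/
def kids (v : F2) : Finset F2 :=
  ((Finset.univ : Finset Letter).filter fun s => v.toWord.getLast? ≠ some (linv s)).image
    fun s => v * lgen s

theorem len_inv (v : F2) : len v⁻¹ = len v := FreeGroup.norm_inv_eq

theorem len_mul_le (u v : F2) : len (u * v) ≤ len u + len v := FreeGroup.norm_mul_le u v

theorem finite_ball (n : ℕ) : Set.Finite {v : F2 | len v ≤ n} :=
  (List.finite_length_le Letter n).preimage FreeGroup.toWord_injective.injOn

/-- The boundary condition at which two reduced words concatenate without cancellation. -/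
theorem toWord_mul_of_meet {u v : F2}
    (h : ∀ x ∈ u.toWord.getLast?, ∀ y ∈ v.toWord.head?, x.1 = y.1 → x.2 = y.2) :
    (u * v).toWord = u.toWord ++ v.toWord := by
  rw [FreeGroup.toWord_mul]
  refine FreeGroup.IsReduced.reduce_eq (List.isChain_append.2 ?_)
  exact ⟨FreeGroup.isReduced_toWord, FreeGroup.isReduced_toWord, h⟩

theorem toWord_mk_of_isReduced {l : List Letter} (h : FreeGroup.IsReduced l) :
    (FreeGroup.mk l).toWord = l := by
  rw [FreeGroup.toWord_mk, h.reduce_eq]

/-- A prefix of a reduced word splits the group element. -/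
theorem split_of_prefix {u v : F2} (h : Pre u v) :
    ∃ x, v = u * x ∧ v.toWord = u.toWord ++ x.toWord ∧
      ∀ a ∈ u.toWord.getLast?, ∀ y ∈ x.toWord.head?, a.1 = y.1 → a.2 = y.2 := by
  obtain ⟨r, hr⟩ := h
  have hred : FreeGroup.IsReduced (u.toWord ++ r) := hr ▸ FreeGroup.isReduced_toWord
  obtain ⟨-, h2, h3⟩ := List.isChain_append.1 hred
  refine ⟨FreeGroup.mk r, ?_, ?_, ?_⟩
  · calc v = FreeGroup.mk v.toWord := FreeGroup.mk_toWord.symm
      _ = FreeGroup.mk u.toWord * FreeGroup.mk r := by rw [← hr, FreeGroup.mul_mk]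
      _ = u * FreeGroup.mk r := by rw [FreeGroup.mk_toWord]
  · rw [toWord_mk_of_isReduced h2, hr]
  · rw [toWord_mk_of_isReduced h2]; exact h3

theorem eq_prod_lgen (v : F2) : v = (v.toWord.map lgen).prod := by
  have h : ∀ l : List Letter, FreeGroup.mk l = (l.map lgen).prod := by
    intro l
    induction l with
    | nil => rfl
    | cons s l ih => rw [List.map_cons, List.prod_cons, ← ih, lgen, FreeGroup.mul_mk]; rfl
  rw [← h, FreeGroup.mk_toWord]

theorem toWord_lgen (s : Letter) : (lgen s).toWord = [s] :=
  toWord_mk_of_isReduced FreeGroup.IsReduced.singleton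

theorem len_lgen (s : Letter) : len (lgen s) = 1 := by
  rw [len, toWord_lgen]; rfl

theorem inK_one : InK 1 := by
  simp [InK]

theorem toWord_genA_inv : genA⁻¹.toWord = [((0, false) : Letter)] := by
  simp [genA, FreeGroup.toWord_inv, FreeGroup.invRev]

theorem not_inK_genA_inv : ¬ InK genA⁻¹ := by
  rw [InK, toWord_genA_inv]
  simp

theorem toWord_genA_pow (L : ℕ) :
    (genA ^ L).toWord = List.replicate L ((0, true) : Letter) :=
  FreeGroup.toWord_of_pow 0 L

theorem genA_pow_deep (L : ℕ) : Deep L (genA ^ L) := by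
  rw [Deep, toWord_genA_pow]

theorem genA_pow_inW {L : ℕ} (hL : 0 < L) : InW L (genA ^ L) := by
  refine ⟨genA_pow_deep L, ?_⟩
  obtain ⟨m, rfl⟩ : ∃ m, L = m + 1 := ⟨L - 1, by omega⟩
  rw [toWord_genA_pow, List.replicate_succ']
  simp

theorem Deep.inK {L : ℕ} (hL : 0 < L) {v : F2} (h : Deep L v) : InK v := by
  obtain ⟨r, hr⟩ := h
  obtain ⟨m, rfl⟩ : ∃ m, L = m + 1 := ⟨L - 1, by omega⟩
  rw [InK, ← hr, List.replicate_succ]
  simp

theorem Deep.le_len {L : ℕ} {v : F2} (h : Deep L v) : L ≤ len v := by
  have := h.length_le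
  rwa [List.length_replicate] at this

/-- The geodesic between the two half trees passes through the root. -/
theorem len_out {v u : F2} (hv : InK v) (hu : ¬ InK u) : len (v⁻¹ * u) = len v + len u := by
  have key : (v⁻¹ * u).toWord = v⁻¹.toWord ++ u.toWord := by
    refine toWord_mul_of_meet fun x hx y hy => ?_
    rw [InK, not_not] at hu
    rw [hu, Option.mem_some_iff] at hy
    subst hy
    rw [FreeGroup.toWord_inv, FreeGroup.invRev, List.getLast?_reverse, List.head?_map,
      Option.mem_def, Option.map_eq_some_iff] at hx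
    obtain ⟨⟨i, e⟩, he, rfl⟩ := hx
    intro h1
    simp only at h1 ⊢
    subst h1
    cases e
    · exact absurd he hv
    · rfl
  rw [len, key, List.length_append]
  simp [len, FreeGroup.toWord_inv]

theorem meet_of_last_a {l : List Letter} {x : F2}
    (hw : l.getLast? = some ((0, true) : Letter)) (hx : InK x) :
    ∀ p ∈ l.getLast?, ∀ y ∈ x.toWord.head?, p.1 = y.1 → p.2 = y.2 := by
  intro p hp y hy h1
  rw [hw, Option.mem_some_iff] at hp
  subst hp
  obtain ⟨i, e⟩ := y
  simp only at h1 ⊢
  subst h1
  cases e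
  · exact absurd hy hx
  · rfl

/-- No cancellation after a word ending in `a`. -/
theorem toWord_mul_of_inK {w x : F2} (hw : w.toWord.getLast? = some ((0, true) : Letter))
    (hx : InK x) : (w * x).toWord = w.toWord ++ x.toWord :=
  toWord_mul_of_meet (meet_of_last_a hw hx)

theorem mem_cone_iff {w v : F2} (hw : w.toWord.getLast? = some ((0, true) : Letter)) :
    InK (w⁻¹ * v) ↔ Pre w v := by
  constructor
  · intro h
    have := toWord_mul_of_inK hw h
    rw [mul_inv_cancel_left] at this
    exact ⟨_, this.symm⟩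
  · intro h
    obtain ⟨x, rfl, -, hm⟩ := split_of_prefix h
    rw [inv_mul_cancel_left]
    intro hx
    have := hm _ hw _ hx rfl
    simp at this

theorem toWord_pad (L : ℕ) (hL : 0 < L) {v : F2} :
    (InK v → (genA ^ L * v).toWord = List.replicate L ((0, true) : Letter) ++ v.toWord) ∧
    (¬ InK v → (genA ^ L * genB * v).toWord =
      List.replicate L ((0, true) : Letter) ++ ((1, true) : Letter) :: v.toWord) := by
  refine ⟨fun hv => ?_, fun hv => ?_⟩
  · rw [toWord_mul_of_inK (genA_pow_inW hL).2 hv, toWord_genA_pow]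
  · have hb : (genA ^ L * genB).toWord =
        List.replicate L ((0, true) : Letter) ++ [((1, true) : Letter)] := by
      rw [toWord_mul_of_inK (genA_pow_inW hL).2 (by simp [InK, genB]), toWord_genA_pow]
      simp [genB]
    rw [toWord_mul_of_meet, hb, List.append_assoc, List.singleton_append]
    intro x hx y hy h1
    rw [InK, not_not] at hv
    rw [hv, Option.mem_some_iff] at hy
    rw [hb, List.getLast?_concat, Option.mem_some_iff] at hx
    subst hx hy
    simp at h1

theorem InW.mul {L : ℕ} (hL : 0 < L) {u v : F2} (hu : InW L u) (hv : InW L v) :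
    InW L (u * v) ∧ Pre u (u * v) ∧ (u * v).toWord = u.toWord ++ v.toWord := by
  have h := toWord_mul_of_inK hu.2 (hv.1.inK hL)
  have hp : Pre u (u * v) := ⟨_, h.symm⟩
  refine ⟨⟨List.IsPrefix.trans hu.1 hp, ?_⟩, hp, h⟩
  rw [h, List.getLast?_append, hv.2]
  rfl

theorem Pre.refl (v : F2) : Pre v v := List.prefix_refl _

theorem Pre.trans {u v w : F2} (h : Pre u v) (h' : Pre v w) : Pre u w := List.IsPrefix.trans h h'

theorem Deep.of_pre {L : ℕ} {u v : F2} (h : Deep L u) (h' : Pre u v) : Deep L v :=
  List.IsPrefix.trans h h'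

theorem linv_linv (s : Letter) : linv (linv s) = s := by
  simp [linv]

theorem toWord_mul_lgen {v : F2} {s : Letter} (h : v.toWord.getLast? ≠ some (linv s)) :
    (v * lgen s).toWord = v.toWord ++ [s] := by
  rw [toWord_mul_of_meet, toWord_lgen]
  intro x hx y hy h1
  rw [toWord_lgen] at hy
  simp only [List.head?_cons, Option.mem_some_iff] at hy
  subst hy
  by_contra h2
  refine h ?_
  rw [Option.mem_def] at hx
  obtain ⟨i, e⟩ := x
  obtain ⟨i', e'⟩ := s
  simp only at h1 h2
  subst h1
  rw [hx]
  cases e <;> cases e' <;> simp_all [linv]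

theorem mem_kids {v c : F2} :
    c ∈ kids v ↔ ∃ s : Letter, c.toWord = v.toWord ++ [s] := by
  simp only [kids, Finset.mem_image, Finset.mem_filter, Finset.mem_univ, true_and]
  constructor
  · rintro ⟨s, hs, rfl⟩
    exact ⟨s, toWord_mul_lgen hs⟩
  · rintro ⟨s, hs⟩
    have hred : FreeGroup.IsReduced (v.toWord ++ [s]) := hs ▸ FreeGroup.isReduced_toWord
    have hne : v.toWord.getLast? ≠ some (linv s) := fun hl => by
      have := (List.isChain_append.1 hred).2.2 _ hl s (by simp) rfl
      simp [linv] at this
    exact ⟨s, hne, FreeGroup.toWord_injective ((toWord_mul_lgen hne).trans hs.symm)⟩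

theorem card_kids {v : F2} (hv : v ≠ 1) : (kids v).card = 3 := by
  obtain ⟨l, hl⟩ : ∃ l, v.toWord.getLast? = some l := by
    cases h : v.toWord.getLast? with
    | some l => exact ⟨l, rfl⟩
    | none => exact absurd (FreeGroup.toWord_eq_nil_iff.1 (List.getLast?_eq_none_iff.1 h)) hv
  have hf : ((Finset.univ : Finset Letter).filter fun s => v.toWord.getLast? ≠ some (linv s))
      = Finset.univ.erase (linv l) := by
    ext s
    simp only [Finset.mem_filter, Finset.mem_univ, true_and, Finset.mem_erase, and_true, hl, ne_eq,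
      Option.some.injEq]
    exact not_congr ⟨fun h => by rw [h, linv_linv], fun h => by rw [h, linv_linv]⟩
  rw [kids, Finset.card_image_of_injective _ fun s t h => ?_, hf,
    Finset.card_erase_of_mem (Finset.mem_univ _)]
  · rfl
  · have := congrArg FreeGroup.toWord (mul_left_cancel h)
    simpa [toWord_lgen] using this

/-- The words below two distinct children are disjoint. -/
theorem kids_disjoint {v c c' w : F2} (hc : c ∈ kids v) (hc' : c' ∈ kids v) (h : c ≠ c')
    (h₁ : Pre c w) : ¬ Pre c' w := by
  intro h₂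
  obtain ⟨s, hs⟩ := mem_kids.1 hc
  obtain ⟨t, ht⟩ := mem_kids.1 hc'
  refine h (FreeGroup.toWord_injective ?_)
  obtain ⟨r₁, e₁⟩ := h₁
  obtain ⟨r₂, e₂⟩ := h₂
  exact (List.append_inj (e₁.trans e₂.symm) (by simp [hs, ht])).1

/-- Some extension by at most two letters ends in `a`. -/
theorem exists_inW {L : ℕ} (hL : 0 < L) {v : F2} (hv : Deep L v) :
    ∃ w, InW L w ∧ Pre v w ∧ len w ≤ len v + 2 := by
  by_cases h1 : v.toWord.getLast? = some ((0, false) : Letter)
  · have e1 : (v * lgen (1, true)).toWord = v.toWord ++ [((1, true) : Letter)] :=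
      toWord_mul_lgen (by rw [h1]; simp [linv])
    have e2 : (v * lgen (1, true) * lgen (0, true)).toWord =
        (v * lgen (1, true)).toWord ++ [((0, true) : Letter)] :=
      toWord_mul_lgen (by rw [e1, List.getLast?_concat]; simp [linv])
    have hp : Pre v (v * lgen (1, true) * lgen (0, true)) := by
      refine ⟨[((1, true) : Letter), (0, true)], ?_⟩
      rw [e2, e1, List.append_assoc]
      rfl
    refine ⟨_, ⟨hv.of_pre hp, ?_⟩, hp, ?_⟩
    · rw [e2, List.getLast?_concat]
    · simp [len, e2, e1]
  · by_cases h2 : v.toWord.getLast? = some ((0, true) : Letter)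
    · exact ⟨v, ⟨hv, h2⟩, Pre.refl v, Nat.le_add_right _ _⟩
    · have e1 : (v * lgen (0, true)).toWord = v.toWord ++ [((0, true) : Letter)] :=
        toWord_mul_lgen h1
      have hp : Pre v (v * lgen (0, true)) := ⟨_, e1.symm⟩
      refine ⟨_, ⟨hv.of_pre hp, ?_⟩, hp, ?_⟩
      · rw [e1, List.getLast?_concat]
      · simp [len, e1]

/-- A deep word splits off `a ^ L` and the rest. -/
theorem deep_split {L : ℕ} {v : F2} (hv : Deep L v) :
    ∃ x, v = genA ^ L * x ∧ v.toWord = List.replicate L ((0, true) : Letter) ++ x.toWord := by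
  obtain ⟨x, h1, h2, -⟩ := split_of_prefix (u := genA ^ L) (v := v)
    (by rw [Pre, toWord_genA_pow]; exact hv)
  exact ⟨x, h1, by rw [h2, toWord_genA_pow]⟩

end Vale.Agent.P165.Tree
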